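import Vale.Agent.P146.H130.GBase
import Vale.Agent.P146.H712.EnCalc

/-!
Calculus of the means `EwG q G F`, `EnG q G F` of functions of the coordinates `K4 κ`, for the
law with the abstract lower density `G` (the rules of `H325.Fo` and `H712.EnCalc`).
-/

open MeasureTheory ProbabilityTheory

namespace Vale.Agent.P146.R1C

open Vale.Agent.P157.Lv Vale.Agent.P146.H425 Vale.Agent.P146.H325 Vale.Agent.P146.H332
  Vale.Agent.P146.H712 Vale.Agent.P146.H816 Vale.Agent.P146.R1 Matrix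

set_option linter.unusedSectionVars false

section mean

variable {κ : Type} [Fintype κ] [DecidableEq κ] {q : Par} {G : GD κ} {F : (κ → ℝ) → ℝ}
  {D : κ → (κ → ℝ) → ℝ} {B L : ℝ} {f g : (K4 κ → ℝ) → ℝ}

lemma int_densG (h : C11 F D B L) (hx : 0 < q.x) (hG : G.Ok) (hf : EG f) :
    Integrable (fun w => densG q G F w * f w) (gI (K4 κ)) :=
  ((eg_densG h hx hG).mul hf).integrable

lemma EwG1_pos (h : C11 F D B L) (hx : 0 < q.x) (hG : G.Ok) : 0 < EwG q G F fun _ => 1 := by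
  have hi : Integrable (fun w => Real.exp (psiG q G F w)) (gI (K4 κ)) :=
    (eg_densG h hx hG).integrable
  unfold EwG
  simp only [mul_one]
  exact integral_exp_pos hi

lemma EwG_add (h : C11 F D B L) (hx : 0 < q.x) (hG : G.Ok) (hf : EG f) (hg : EG g) :
    EwG q G F (fun w => f w + g w) = EwG q G F f + EwG q G F g := by
  unfold EwG
  rw [← integral_add (int_densG h hx hG hf) (int_densG h hx hG hg)]
  exact integral_congr_ae (Filter.Eventually.of_forall fun w => mul_add _ _ _)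

lemma EwG_sub (h : C11 F D B L) (hx : 0 < q.x) (hG : G.Ok) (hf : EG f) (hg : EG g) :
    EwG q G F (fun w => f w - g w) = EwG q G F f - EwG q G F g := by
  unfold EwG
  rw [← integral_sub (int_densG h hx hG hf) (int_densG h hx hG hg)]
  exact integral_congr_ae (Filter.Eventually.of_forall fun w => mul_sub _ _ _)

lemma EwG_const_mul (c : ℝ) (f : (K4 κ → ℝ) → ℝ) :
    EwG q G F (fun w => c * f w) = c * EwG q G F f := by
  unfold EwG
  rw [← integral_const_mul]
  exact integral_congr_ae (Filter.Eventually.of_forall fun w => mul_left_comm _ _ _)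

lemma EwG_neg (f : (K4 κ → ℝ) → ℝ) : EwG q G F (fun w => -f w) = -EwG q G F f := by
  have h := EwG_const_mul (q := q) (G := G) (F := F) (-1) f
  simpa only [neg_one_mul] using h

lemma EwG_mono (h : C11 F D B L) (hx : 0 < q.x) (hG : G.Ok) (hf : EG f) (hg : EG g)
    (hle : ∀ w, f w ≤ g w) : EwG q G F f ≤ EwG q G F g :=
  integral_mono (int_densG h hx hG hf) (int_densG h hx hG hg)
    fun w => mul_le_mul_of_nonneg_left (hle w) (densG_pos w).le

lemma EwG_nonneg (hle : ∀ w, 0 ≤ f w) : 0 ≤ EwG q G F f :=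
  integral_nonneg fun w => mul_nonneg (densG_pos w).le (hle w)

lemma EwG_congr (hfg : ∀ w, f w = g w) : EwG q G F f = EwG q G F g := by
  rw [show f = g from funext hfg]

lemma EwG_sum (h : C11 F D B L) (hx : 0 < q.x) (hG : G.Ok) {α : Type*} (s : Finset α)
    {f : α → (K4 κ → ℝ) → ℝ} (hf : ∀ i ∈ s, EG (f i)) :
    EwG q G F (fun w => ∑ i ∈ s, f i w) = ∑ i ∈ s, EwG q G F (f i) := by
  unfold EwG
  rw [← integral_finsetSum _ fun i hi => int_densG h hx hG (hf i hi)]
  exact integral_congr_ae (Filter.Eventually.of_forall fun w => by simp only [Finset.mul_sum])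

/-- `EwG` and `EnG` -/
lemma EwG_EnG (h : C11 F D B L) (hx : 0 < q.x) (hG : G.Ok) (f : (K4 κ → ℝ) → ℝ) :
    EwG q G F f = EwG q G F (fun _ => 1) * EnG q G F f := by
  have hE := EwG1_pos (q := q) (G := G) h hx hG
  unfold EnG
  field_simp

lemma EnG_add (h : C11 F D B L) (hx : 0 < q.x) (hG : G.Ok) (hf : EG f) (hg : EG g) :
    EnG q G F (fun w => f w + g w) = EnG q G F f + EnG q G F g := by
  unfold EnG
  rw [EwG_add h hx hG hf hg, add_div]

lemma EnG_sub (h : C11 F D B L) (hx : 0 < q.x) (hG : G.Ok) (hf : EG f) (hg : EG g) :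
    EnG q G F (fun w => f w - g w) = EnG q G F f - EnG q G F g := by
  unfold EnG
  rw [EwG_sub h hx hG hf hg, sub_div]

lemma EnG_const_mul (c : ℝ) (f : (K4 κ → ℝ) → ℝ) :
    EnG q G F (fun w => c * f w) = c * EnG q G F f := by
  unfold EnG
  rw [EwG_const_mul, mul_div_assoc]

lemma EnG_neg (f : (K4 κ → ℝ) → ℝ) : EnG q G F (fun w => -f w) = -EnG q G F f := by
  unfold EnG
  rw [EwG_neg, neg_div]

lemma EnG_mono (h : C11 F D B L) (hx : 0 < q.x) (hG : G.Ok) (hf : EG f) (hg : EG g)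
    (hle : ∀ w, f w ≤ g w) : EnG q G F f ≤ EnG q G F g :=
  div_le_div_of_nonneg_right (EwG_mono h hx hG hf hg hle) (EwG1_pos h hx hG).le

lemma EnG_nonneg (hle : ∀ w, 0 ≤ f w) : 0 ≤ EnG q G F f :=
  div_nonneg (EwG_nonneg hle) (EwG_nonneg fun _ => zero_le_one)

lemma EnG_congr (hfg : ∀ w, f w = g w) : EnG q G F f = EnG q G F g := by
  rw [show f = g from funext hfg]

lemma EnG_const (h : C11 F D B L) (hx : 0 < q.x) (hG : G.Ok) (c : ℝ) :
    EnG q G F (fun _ => c) = c := by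
  have h1 := EnG_const_mul (q := q) (G := G) (F := F) c fun _ => 1
  simp only [mul_one] at h1
  rw [h1]
  unfold EnG
  rw [div_self (EwG1_pos h hx hG).ne', mul_one]

lemma EnG_sum (h : C11 F D B L) (hx : 0 < q.x) (hG : G.Ok) {α : Type*} (s : Finset α)
    {f : α → (K4 κ → ℝ) → ℝ} (hf : ∀ i ∈ s, EG (f i)) :
    EnG q G F (fun w => ∑ i ∈ s, f i w) = ∑ i ∈ s, EnG q G F (f i) := by
  unfold EnG
  rw [EwG_sum h hx hG s hf, Finset.sum_div]

lemma EnG_le_const (h : C11 F D B L) (hx : 0 < q.x) (hG : G.Ok) (hf : EG f) {c : ℝ}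
    (hle : ∀ w, f w ≤ c) : EnG q G F f ≤ c :=
  (EnG_mono h hx hG hf (EG.const c) hle).trans_eq (EnG_const h hx hG c)

lemma EnG_const_le (h : C11 F D B L) (hx : 0 < q.x) (hG : G.Ok) (hf : EG f) {c : ℝ}
    (hle : ∀ w, c ≤ f w) : c ≤ EnG q G F f :=
  (EnG_const h hx hG c).symm.trans_le (EnG_mono h hx hG (EG.const c) hf hle)

lemma abs_EnG_le (h : C11 F D B L) (hx : 0 < q.x) (hG : G.Ok) (hf : EG f) (hf' : EG g)
    (hle : ∀ w, |f w| ≤ g w) : |EnG q G F f| ≤ EnG q G F g := by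
  rw [abs_le]
  constructor
  · have e := EnG_mono (q := q) (G := G) h hx hG (hf'.const_mul (-1)) hf fun w => by
      have := (abs_le.1 (hle w)).1
      linarith
    rw [EnG_const_mul] at e
    linarith
  · exact EnG_mono h hx hG hf hf' fun w => (abs_le.1 (hle w)).2

/-- Cauchy-Schwarz -/
lemma EnG_cs (h : C11 F D B L) (hx : 0 < q.x) (hG : G.Ok) (hf : EG f) (hg : EG g) :
    EnG q G F (fun w => f w * g w) ^ 2 ≤
      EnG q G F (fun w => f w ^ 2) * EnG q G F (fun w => g w ^ 2) := by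
  have key : ∀ r : ℝ, 0 ≤ EnG q G F (fun w => g w ^ 2) * (r * r) +
      (-2 * EnG q G F (fun w => f w * g w)) * r + EnG q G F (fun w => f w ^ 2) := by
    intro r
    have h1 : 0 ≤ EnG q G F fun w => (f w - r * g w) ^ 2 := EnG_nonneg fun w => sq_nonneg _
    have h2 : EnG q G F (fun w => (f w - r * g w) ^ 2) =
        EnG q G F (fun w => f w ^ 2) + (r * r) * EnG q G F (fun w => g w ^ 2) -
          (2 * r) * EnG q G F (fun w => f w * g w) := by
      rw [← EnG_const_mul (r * r), ← EnG_const_mul (2 * r),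
        ← EnG_add h hx hG (hf.pow 2) ((hg.pow 2).const_mul _),
        ← EnG_sub h hx hG ((hf.pow 2).add ((hg.pow 2).const_mul _)) ((hf.mul hg).const_mul _)]
      exact EnG_congr fun w => by ring
    rw [h2] at h1
    linarith
  have h3 := discrim_le_zero key
  unfold discrim at h3
  nlinarith

/-- Cauchy-Schwarz, in the form of a square root -/
lemma EnG_mul_le (h : C11 F D B L) (hx : 0 < q.x) (hG : G.Ok) (hf : EG f) (hg : EG g) :
    |EnG q G F (fun w => f w * g w)| ≤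
      √(EnG q G F (fun w => f w ^ 2)) * √(EnG q G F (fun w => g w ^ 2)) := by
  rw [← Real.sqrt_mul (EnG_nonneg fun w => sq_nonneg _)]
  exact Real.abs_le_sqrt (EnG_cs h hx hG hf hg)

/-- the square of the mean -/
lemma EnG_sq_le (h : C11 F D B L) (hx : 0 < q.x) (hG : G.Ok) (hf : EG f) :
    EnG q G F f ^ 2 ≤ EnG q G F (fun w => f w ^ 2) := by
  have h1 := EnG_cs (q := q) (G := G) h hx hG hf (EG.const 1)
  have h2 : EnG q G F (fun _ : K4 κ → ℝ => (1 : ℝ) ^ 2) = 1 := by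
    simp only [one_pow]
    exact EnG_const h hx hG 1
  simp only [mul_one] at h1
  rwa [h2, mul_one] at h1

/-- bounded functions which are rarely large -/
lemma EnG_pow_le (h : C11 F D B L) (hx : 0 < q.x) (hG : G.Ok) (hf : EG f)
    (h0 : ∀ w, 0 ≤ f w) {K M δ : ℝ} (hK : ∀ w, f w ≤ K) (hM : 0 ≤ M)
    (hδ : EnG q G F (fun w => if M < f w then (1 : ℝ) else 0) ≤ δ) (p : ℕ) :
    EnG q G F (fun w => f w ^ p) ≤ M ^ p + K ^ p * δ := by
  have hi : EG fun w => if M < f w then (1 : ℝ) else 0 := by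
    refine EG.of_bdd (C := 1) ?_ fun w => ?_
    · exact Measurable.ite (measurableSet_lt measurable_const hf.meas) measurable_const
        measurable_const
    · split_ifs <;> simp
  have hK0 : 0 ≤ K := (h0 0).trans (hK 0)
  refine (EnG_mono h hx hG (hf.pow p) ((EG.const (M ^ p)).add (hi.const_mul (K ^ p)))
    fun w => ?_).trans ?_
  · split_ifs with h1
    · have := pow_le_pow_left₀ (h0 w) (hK w) p
      have h2 : 0 ≤ M ^ p := by positivity
      linarith
    · rw [mul_zero, add_zero]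
      exact pow_le_pow_left₀ (h0 w) (not_lt.1 h1) p
  · rw [EnG_add h hx hG (EG.const _) (hi.const_mul _), EnG_const h hx hG, EnG_const_mul]
    have := mul_le_mul_of_nonneg_left hδ (pow_nonneg hK0 p)
    linarith

/-- the mean of an average over a set of couplings, against the averaged density -/
lemma EwG_Av (h : C11 F D B L) (hx : 0 < q.x) (hG : G.Ok) (R : Finset (K4 κ)) (hf : EG f) :
    ∫ w, Av R (densG q G F) w * f w ∂(gI (K4 κ)) = EwG q G F (Av R f) :=
  (H712.integral_mul_Av (eg_densG h hx hG) hf _).symm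

end mean

/-! ### law changes -/

section lawch

variable {κ : Type} [Fintype κ] [DecidableEq κ]

/-- The law change in the direction clean at most full, for a set `R` of couplings. -/
def LLowG (q : Par) (G : GD κ) (F : (κ → ℝ) → ℝ) (R : Finset κ) (ε : ℝ) : Prop :=
  ∀ f : (K4 κ → ℝ) → ℝ, EG f → ∀ K : ℝ, (∀ w, 0 ≤ f w) → (∀ w, f w ≤ K) →
    EnG q G F (Av (lf R) f) ≤ 2 * EnG q G F f + ε * K

/-- The law change in the direction full at most clean, for a set `R` of couplings. -/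
def LUpG (q : Par) (G : GD κ) (F : (κ → ℝ) → ℝ) (R : Finset κ) (ε : ℝ) : Prop :=
  ∀ f : (K4 κ → ℝ) → ℝ, EG f → ∀ K : ℝ, (∀ w, 0 ≤ f w) → (∀ w, f w ≤ K) →
    EnG q G F f ≤ 2 * EnG q G F (Av (lf R) f) + ε * K

variable {q : Par} {G : GD κ} {F : (κ → ℝ) → ℝ} {D : κ → (κ → ℝ) → ℝ} {B L l : ℝ} {R : Finset κ}

/-- (LC1), not normalized -/
theorem lawG_up (hlf : H706.LF (lf R) (psiG q G F) (psiG' q G F D) l) (p : ℕ)
    (hp : ((p : ℝ) + 1) ^ 2 * l ^ 2 ≤ 1) {f : (K4 κ → ℝ) → ℝ} (hf : EG f) {K : ℝ}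
    (h0 : ∀ w, 0 ≤ f w) (hK : ∀ w, f w ≤ K) :
    EwG q G F f ≤ 2 * EwG q G F (Av (lf R) f) + 3 * K / 2 ^ p * EwG q G F (fun _ => 1) := by
  have := hlf.LC1 p hp hf h0 hK
  unfold EwG
  simpa only [mul_one, densG_eq] using this

/-- (LC1'), not normalized -/
theorem lawG_low (hlf : H706.LF (lf R) (psiG q G F) (psiG' q G F D) l) (p : ℕ)
    (hp : ((p : ℝ) + 1) ^ 2 * l ^ 2 ≤ 1) {f : (K4 κ → ℝ) → ℝ} (hf : EG f) {K : ℝ}
    (h0 : ∀ w, 0 ≤ f w) (hK : ∀ w, f w ≤ K) :
    EwG q G F (Av (lf R) f) ≤ 2 * EwG q G F f + 3 * K / 2 ^ p * EwG q G F (fun _ => 1) := by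
  have := hlf.LC1' p hp hf h0 hK
  unfold EwG
  simpa only [mul_one, densG_eq] using this

theorem llowG_of (h : C11 F D B L) (hx : 0 < q.x) (hG : G.Ok)
    (hlf : H706.LF (lf R) (psiG q G F) (psiG' q G F D) l) (p : ℕ)
    (hp : ((p : ℝ) + 1) ^ 2 * l ^ 2 ≤ 1) : LLowG q G F R (3 / 2 ^ p) := by
  intro f hf K h0 hK
  have h1 := lawG_low hlf p hp hf h0 hK
  have hE := EwG1_pos (q := q) h hx hG
  unfold EnG
  rw [div_le_iff₀ hE]
  refine h1.trans (le_of_eq ?_)
  have e1 : EwG q G F f / EwG q G F (fun _ => 1) * EwG q G F (fun _ => 1) = EwG q G F f :=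
    div_mul_cancel₀ _ hE.ne'
  rw [add_mul, mul_assoc, e1]
  ring

theorem lupG_of (h : C11 F D B L) (hx : 0 < q.x) (hG : G.Ok)
    (hlf : H706.LF (lf R) (psiG q G F) (psiG' q G F D) l) (p : ℕ)
    (hp : ((p : ℝ) + 1) ^ 2 * l ^ 2 ≤ 1) : LUpG q G F R (3 / 2 ^ p) := by
  intro f hf K h0 hK
  have h1 := lawG_up hlf p hp hf h0 hK
  have hE := EwG1_pos (q := q) h hx hG
  unfold EnG
  rw [div_le_iff₀ hE]
  refine h1.trans (le_of_eq ?_)
  have e1 : EwG q G F (Av (lf R) f) / EwG q G F (fun _ => 1) * EwG q G F (fun _ => 1) =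
      EwG q G F (Av (lf R) f) := div_mul_cancel₀ _ hE.ne'
  rw [add_mul, mul_assoc, e1]
  ring

end lawch

end Vale.Agent.P146.R1C
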