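import Vale.Agent.P146.H784.GEn
import Vale.Agent.P146.H706G.LawT
import Vale.Agent.P146.H425.FoN

/-!
The constants of the law change for `x ≤ n^{-a}`, any `a > 0`, and the comparison `Law2G` of the law
`densG q G F` with its average over two rows up to the factor `2` and the error `n⁻²⁰⁰`.
-/

open MeasureTheory ProbabilityTheory

namespace Vale.Agent.P146.R1C

open Vale.Agent.P157.Lv Vale.Agent.P146.H425 Vale.Agent.P146.H325 Vale.Agent.P146.H332
  Vale.Agent.P146.H712 Vale.Agent.P146.H816 Vale.Agent.P146.R1 Vale.Agent.P146.R1S Matrix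

set_option linter.unusedSectionVars false

/-- **(N1)** the constants of the law change, any power -/
theorem law_const_a {β a : ℝ} (hβ : 0 < β) (ha : 0 < a) : ∃ n₀ : ℕ, 2 ≤ n₀ ∧ ∀ n : ℕ, n₀ ≤ n →
    ∀ x : ℝ, 0 < x → x * (n : ℝ) ^ a ≤ 1 → 288 * x ^ 2 * kk n β ^ 2 * n ≤ 1 ∧
      ∃ p : ℕ, ((p : ℝ) + 1) ^ 2 * (18 * x ^ 2 * kk n β ^ 2 * n) ≤ 1 ∧
        3 / 2 ^ p ≤ ((n : ℝ) ^ 200)⁻¹ := by
  obtain ⟨n₃, hn₃, hlog⟩ := H737.R1.log_le_pow (A := 5000 * (β + 1)) (δ := a) ha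
  obtain ⟨n₀, hn₀⟩ := exists_nat_ge (max n₃ 3)
  refine ⟨max n₀ 2, le_max_right _ _, fun n hn x hx hx7 => ?_⟩
  have hnr : max n₃ 3 ≤ (n : ℝ) := hn₀.trans (by exact_mod_cast (le_max_left _ _).trans hn)
  have hn3 : n₃ ≤ (n : ℝ) := (le_max_left _ _).trans hnr
  have hn30 : (3 : ℝ) ≤ n := (le_max_right _ _).trans hnr
  have hn0 : 0 < (n : ℝ) := by linarith
  have hnn : 0 < n := by exact_mod_cast hn0
  have hlog1 : 1 ≤ Real.log n := by
    rw [Real.le_log_iff_exp_le hn0]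
    exact (Real.exp_one_lt_d9.le.trans (by norm_num)).trans hn30
  set y := (n : ℝ) ^ a with hy
  have hyl : 5000 * (β + 1) * Real.log n ≤ y := hlog n hn3
  have hy0 : 0 < y := Real.rpow_pos_of_pos hn0 _
  have hxy : x * y ≤ 1 := hx7
  have hk : kk n β ^ 2 * n = β ^ 2 := kk_sq hnn β
  have hxy2 : x ^ 2 * y ^ 2 ≤ 1 := by
    have := pow_le_one₀ (by positivity : 0 ≤ x * y) hxy (n := 2)
    linarith [mul_pow x y 2]
  have hyβ : 5000 * β ≤ y := by
    nlinarith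
  refine ⟨?_, ?_⟩
  · have h1 : 288 * x ^ 2 * kk n β ^ 2 * n = 288 * x ^ 2 * β ^ 2 := by
      rw [← hk]; ring
    rw [h1]
    have h2 : 288 * β ^ 2 ≤ y ^ 2 := by nlinarith
    have h3 : x ^ 2 * (288 * β ^ 2) ≤ x ^ 2 * y ^ 2 := mul_le_mul_of_nonneg_left h2 (sq_nonneg x)
    linarith
  · set m := ⌊y / (5 * β)⌋₊ with hm
    have hm0 : (m : ℝ) ≤ y / (5 * β) := Nat.floor_le (by positivity)
    have hm1 : y / (5 * β) < m + 1 := Nat.lt_floor_add_one _
    have hq : 800 * Real.log n ≤ y / (5 * β) := by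
      rw [le_div_iff₀ (by positivity)]
      nlinarith
    have hm2 : 1 ≤ m := by
      have : (0 : ℝ) < m := by linarith
      exact_mod_cast this
    have e1 : (((m - 1 : ℕ) : ℝ) + 1) = m := by
      rw [Nat.cast_sub hm2]; push_cast; ring
    refine ⟨m - 1, ?_, ?_⟩
    · rw [e1]
      have h1 : 18 * x ^ 2 * kk n β ^ 2 * n = 18 * x ^ 2 * β ^ 2 := by
        rw [← hk]; ring
      rw [h1]
      have h2 : (m : ℝ) * β ≤ y / 5 := by
        have := mul_le_mul_of_nonneg_right hm0 hβ.le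
        refine this.trans (le_of_eq ?_)
        field_simp
      have h3 : ((m : ℝ) * β) ^ 2 ≤ (y / 5) ^ 2 := pow_le_pow_left₀ (by positivity) h2 2
      have h4 : x ^ 2 * ((m : ℝ) * β) ^ 2 ≤ x ^ 2 * (y / 5) ^ 2 :=
        mul_le_mul_of_nonneg_left h3 (sq_nonneg x)
      nlinarith
    · have h1 : 3 * (n : ℝ) ^ 200 ≤ 2 ^ (m - 1) := by
        have h2 : (3 : ℝ) * (n : ℝ) ^ 200 ≤ Real.exp (2 + 200 * Real.log n) := by
          rw [Real.exp_add, mul_comm (200 : ℝ), Real.exp_mul, Real.exp_log hn0]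
          have h3 : (3 : ℝ) ≤ Real.exp 2 := by
            have := Real.add_one_le_exp (2 : ℝ)
            linarith
          have h4 : (n : ℝ) ^ (200 : ℝ) = (n : ℝ) ^ (200 : ℕ) := by norm_cast
          rw [h4]
          exact mul_le_mul_of_nonneg_right h3 (by positivity)
        have h5 : Real.exp (2 + 200 * Real.log n) ≤ 2 ^ (m - 1) := by
          have h6 : (2 : ℝ) ^ (m - 1) = Real.exp (((m - 1 : ℕ) : ℝ) * Real.log 2) := by
            rw [Real.exp_nat_mul, Real.exp_log (by norm_num)]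
          rw [h6]
          refine Real.exp_le_exp.2 ?_
          have h7 : (1 : ℝ) / 2 ≤ Real.log 2 := by
            have := Real.log_two_gt_d9
            linarith
          have h8 : 4 + 400 * Real.log n ≤ ((m - 1 : ℕ) : ℝ) := by
            linarith
          have h9 : ((m - 1 : ℕ) : ℝ) * (1 / 2) ≤ ((m - 1 : ℕ) : ℝ) * Real.log 2 :=
            mul_le_mul_of_nonneg_left h7 (Nat.cast_nonneg _)
          linarith
        exact h2.trans h5
      rw [div_le_iff₀ (by positivity), inv_mul_eq_div, le_div_iff₀ (by positivity)]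
      linarith

/-- The comparison of the law with an abstract lower density and its average over two rows. -/
structure Law2G (n : ℕ) (ε : ℝ) (q : Par) (G : GD (Pair n)) (F : (Pair n → ℝ) → ℝ) : Prop where
  up : ∀ (b b' : Fin n) (f : (K4 (Pair n) → ℝ) → ℝ) (K : ℝ), EG f → (∀ w, 0 ≤ f w) →
    (∀ w, f w ≤ K) → EwG q G F f ≤ 2 * EwG q G F (Av (lf (row b ∪ row b')) f) +
      ε * K * EwG q G F (fun _ => 1)
  low : ∀ (b b' : Fin n) (f : (K4 (Pair n) → ℝ) → ℝ) (K : ℝ), EG f → (∀ w, 0 ≤ f w) →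
    (∀ w, f w ≤ K) → EwG q G F (Av (lf (row b ∪ row b')) f) ≤ 2 * EwG q G F f +
      ε * K * EwG q G F (fun _ => 1)

/-- the comparison, from the constants of `law_const_a` -/
theorem law2G_of_p {n : ℕ} {k : ℝ} {q : Par} {G : GD (Pair n)} (S : CS n k q.x) (hq : q.OkS)
    (hG : G.Ok) (hr : GRow k q G) {p : ℕ} {ε : ℝ}
    (hp : ((p : ℝ) + 1) ^ 2 * (18 * q.x ^ 2 * k ^ 2 * n) ≤ 1) (hε : 3 / 2 ^ p ≤ ε) :
    Law2G n ε q G S.F := by
  have hE : 0 ≤ EwG q G S.F fun _ => 1 := (Ew1_pos_SG S hq hG).le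
  have hK : ∀ K : ℝ, 0 ≤ K → 3 * K / 2 ^ p * EwG q G S.F (fun _ => 1) ≤
      ε * K * EwG q G S.F (fun _ => 1) := by
    intro K hK
    refine mul_le_mul_of_nonneg_right ?_ hE
    have := mul_le_mul_of_nonneg_right hε hK
    calc 3 * K / 2 ^ p = 3 / 2 ^ p * K := by ring
      _ ≤ _ := this
  constructor
  · intro b b' f K hf h0 hfK
    have hK0 : 0 ≤ K := (h0 0).trans (hfK 0)
    have := law_up_SG S hq hG hr b b' p hp hf h0 hfK
    linarith [hK K hK0]
  · intro b b' f K hf h0 hfK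
    have hK0 : 0 ≤ K := (h0 0).trans (hfK 0)
    have := law_low_SG S hq hG hr b b' p hp hf h0 hfK
    linarith [hK K hK0]

/-- **(N1)** the comparison with the error `n⁻²⁰⁰`, for `x ≤ n^{-a}` -/
theorem law2G_of {β a : ℝ} (hβ : 0 < β) (ha : 0 < a) : ∃ n₀ : ℕ, 2 ≤ n₀ ∧ ∀ n : ℕ, n₀ ≤ n →
    ∀ (q : Par) (S : CS n (kk n β) q.x) (G : GD (Pair n)), q.OkS → G.Ok → GRow (kk n β) q G →
      q.x * (n : ℝ) ^ a ≤ 1 → Law2G n ((n : ℝ) ^ 200)⁻¹ q G S.F := by
  obtain ⟨n₀, h2, hn₀⟩ := law_const_a hβ ha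
  refine ⟨n₀, h2, fun n hn q S G hq hG hr hxa => ?_⟩
  obtain ⟨-, p, hp, hε⟩ := hn₀ n hn q.x hq.x0 hxa
  exact law2G_of_p S hq hG hr hp hε

section tail

variable {n : ℕ} {ε : ℝ} {q : Par} {G : GD (Pair n)} {F : (Pair n → ℝ) → ℝ}
  {D : Pair n → (Pair n → ℝ) → ℝ} {B L : ℝ}

lemma Law2G.nup (h : Law2G n ε q G F) (hc : C11 F D B L) (hx : 0 < q.x) (hG : G.Ok)
    (b b' : Fin n) {f : (K4 (Pair n) → ℝ) → ℝ} {K : ℝ} (hf : EG f) (h0 : ∀ w, 0 ≤ f w)
    (hK : ∀ w, f w ≤ K) :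
    EnG q G F f ≤ 2 * EnG q G F (Av (lf (row b ∪ row b')) f) + ε * K := by
  have h1 := h.up b b' f K hf h0 hK
  have hE := EwG1_pos (q := q) (G := G) hc hx hG
  unfold EnG
  rw [div_le_iff₀ hE]
  have e : (2 * (EwG q G F (Av (lf (row b ∪ row b')) f) / EwG q G F fun _ => 1) + ε * K) *
      (EwG q G F fun _ => 1) = 2 * EwG q G F (Av (lf (row b ∪ row b')) f) +
        ε * K * EwG q G F fun _ => 1 := by
    field_simp
  rw [e]
  exact h1

lemma Law2G.nlow (h : Law2G n ε q G F) (hc : C11 F D B L) (hx : 0 < q.x) (hG : G.Ok)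
    (b b' : Fin n) {f : (K4 (Pair n) → ℝ) → ℝ} {K : ℝ} (hf : EG f) (h0 : ∀ w, 0 ≤ f w)
    (hK : ∀ w, f w ≤ K) :
    EnG q G F (Av (lf (row b ∪ row b')) f) ≤ 2 * EnG q G F f + ε * K := by
  have h1 := h.low b b' f K hf h0 hK
  have hE := EwG1_pos (q := q) (G := G) hc hx hG
  unfold EnG
  rw [div_le_iff₀ hE]
  have e : (2 * (EwG q G F f / EwG q G F fun _ => 1) + ε * K) * (EwG q G F fun _ => 1) =
      2 * EwG q G F f + ε * K * EwG q G F fun _ => 1 := by
    field_simp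
  rw [e]
  exact h1

lemma Law2G.llow (h : Law2G n ε q G F) (hc : C11 F D B L) (hx : 0 < q.x) (hG : G.Ok)
    (b b' : Fin n) : LLowG q G F (row b ∪ row b') ε :=
  fun _ hf _ h0 hK => h.nlow hc hx hG b b' hf h0 hK

lemma Law2G.lup (h : Law2G n ε q G F) (hc : C11 F D B L) (hx : 0 < q.x) (hG : G.Ok)
    (b b' : Fin n) : LUpG q G F (row b ∪ row b') ε :=
  fun _ hf _ h0 hK => h.nup hc hx hG b b' hf h0 hK

/-- **(N2)** a bounded function supported on a rare event -/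
lemma EnG_rare (hc : C11 F D B L) (hx : 0 < q.x) (hG : G.Ok) {f g : (K4 (Pair n) → ℝ) → ℝ}
    (hf : EG f) (hg : EG g) {K M δ : ℝ} (hK0 : 0 ≤ K) (hK : ∀ w, M < g w → f w ≤ K)
    (hs : ∀ w, ¬ M < g w → f w ≤ 0)
    (hδ : EnG q G F (fun w => if M < g w then (1 : ℝ) else 0) ≤ δ) : EnG q G F f ≤ K * δ := by
  have hi : EG fun w => if M < g w then (1 : ℝ) else 0 := by
    refine EG.of_bdd (C := 1) ?_ fun w => ?_
    · exact Measurable.ite (measurableSet_lt measurable_const hg.meas) measurable_const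
        measurable_const
    · split_ifs <;> simp
  refine (EnG_mono hc hx hG hf (hi.const_mul K) fun w => ?_).trans ?_
  · split_ifs with h1
    · rw [mul_one]
      exact hK w h1
    · rw [mul_zero]
      exact hs w h1
  · rw [EnG_const_mul]
    exact mul_le_mul_of_nonneg_left hδ hK0

end tail

end Vale.Agent.P146.R1C
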