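import Vale.Agent.P146.H784.Sand

set_option linter.all false

/-!
The one sided sandwich. For a cell `I` right of `s` the overlap `rho_s` is at most
`T_s [average of rho_t over I]`, so that its variance is at most `2 Var` of the right side plus twice
the gap of the means (all in `[0, 1]`).
-/

open MeasureTheory ProbabilityTheory Filter Topology

namespace Vale.Agent.P146.H784

open Vale.Agent.P157.Lv Vale.Agent.P157.Lv.Sy

variable {ι X : Type} [Fintype ι] [DecidableEq ι] [Fintype X] [DecidableEq X] [Nonempty X]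
  {S : Sy ι X} {N : ℕ} {φ : X → Fin N → ℝ}

/-- the average of the overlaps `rho_t` over the cell `I` with the weights `w` -/
noncomputable def cellR (S : Sy ι X) (φ : X → Fin N → ℝ) (I : Finset ℕ) (w : ℕ → ℝ) :
    (ι → ℝ) → X → ℝ := fun z _ => ∑ t ∈ I, w t * rho S φ t z

lemma nh_rho (hS : S.Reg) {l : ℕ} (hl : l ≤ S.K) : Nh (X := X) fun z _ => rho S φ l z :=
  Nh.fst (eg_rho hS hl)

lemma nh_cellR (hS : S.Reg) {I : Finset ℕ} (hI : ∀ t ∈ I, t ≤ S.K) (w : ℕ → ℝ) :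
    Nh (cellR S φ I w) := Nh.sum _ fun t ht => Nh.const_mul _ (nh_rho hS (hI t ht))

lemma T_cellR (hS : S.Reg) {s : ℕ} (hs : s ≤ S.K) {I : Finset ℕ} (hI : ∀ t ∈ I, t ≤ S.K)
    (w : ℕ → ℝ) (z : ι → ℝ) :
    S.T s (cellR S φ I w) z = ∑ t ∈ I, w t * S.T s (fun z _ => rho S φ t z) z := by
  unfold cellR
  rw [hS.T_sum hs _ fun t ht => Nh.const_mul _ (nh_rho hS (hI t ht))]
  exact Finset.sum_congr rfl fun t _ => Sy.T_const_mul S s _ _ z

/-- right of `s` the two averages have the same projection -/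
lemma two_T_cellA_right (hS : S.Reg) {s : ℕ} (hs : s ≤ S.K) {I : Finset ℕ}
    (hI : ∀ t ∈ I, t ≤ S.K) (w : ℕ → ℝ) (h : ∀ t ∈ I, s ≤ t) (z : ι → ℝ) :
    2 * S.T s (cellA S φ I w) z = S.T s (cellR S φ I w) z := by
  rw [T_cellA hS hs hI, T_cellR hS hs hI, Finset.mul_sum]
  refine Finset.sum_congr rfl fun t ht => ?_
  rw [T_aa hS hs (hI t ht), T_uu_right hS (h t ht) (hI t ht)]
  ring

lemma Ex_cellR (hS : S.Reg) {I : Finset ℕ} (hI : ∀ t ∈ I, t ≤ S.K) (w : ℕ → ℝ) :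
    S.Ex (cellR S φ I w) = ∑ t ∈ I, w t * S.Rl φ t := by
  unfold cellR
  rw [hS.Ex_sum _ fun t ht => Nh.const_mul _ (nh_rho hS (hI t ht))]
  refine Finset.sum_congr rfl fun t ht => ?_
  rw [Sy.Ex_const_mul, Ex_rho]

lemma rho_nonneg (S : Sy ι X) (φ : X → Fin N → ℝ) (l : ℕ) (z : ι → ℝ) : 0 ≤ rho S φ l z := by
  unfold rho
  positivity

lemma rho_le_one (hS : S.Reg) {l : ℕ} (hl : l ≤ S.K) (hφ : ∀ x i, (φ x i) ^ 2 ≤ 1) (z : ι → ℝ) :
    rho S φ l z ≤ 1 := by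
  have h1 : ∀ i, S.mg φ l i z ^ 2 ≤ 1 := fun i => by
    have a := hS.sq_T_le hl (Nh.snd fun x => φ x i) z
    have b := hS.T_mono hl (f := fun _ x => φ x i ^ 2) (g := fun _ _ => 1)
      (Nh.snd fun x => φ x i ^ 2) (fun _ => EG.const _) (fun z x => hφ x i) z
    rw [hS.T_const hl] at b
    exact a.trans b
  have h2 : ∑ i, S.mg φ l i z ^ 2 ≤ N := by
    calc ∑ i, S.mg φ l i z ^ 2 ≤ ∑ i : Fin N, (1 : ℝ) := Finset.sum_le_sum fun i _ => h1 i
      _ = N := by simp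
  unfold rho
  rcases Nat.eq_zero_or_pos N with h | h
  · subst h
    simp
  · have hN : (0 : ℝ) < N := by exact_mod_cast h
    rw [one_div, inv_mul_le_iff₀ hN]
    linarith

/-- the right cell from above -/
lemma rho_le_T_cellR (hS : S.Reg) {s : ℕ} (hs : s ≤ S.K) {I : Finset ℕ} {w : ℕ → ℝ}
    (hI : Cell S I w) (h : ∀ t ∈ I, s ≤ t) (z : ι → ℝ) :
    rho S φ s z ≤ S.T s (cellR S φ I w) z := by
  rw [← two_T_cellA_right hS hs hI.le w h z]
  exact sand_right hS hs hI h z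

lemma T_cellR_le_one (hS : S.Reg) {s : ℕ} (hs : s ≤ S.K) {I : Finset ℕ} {w : ℕ → ℝ}
    (hI : Cell S I w) (hφ : ∀ x i, (φ x i) ^ 2 ≤ 1) (z : ι → ℝ) :
    S.T s (cellR S φ I w) z ≤ 1 := by
  have h1 := hS.T_mono hs (f := cellR S φ I w) (g := fun _ _ => 1) (nh_cellR hS hI.le w)
    (fun _ => EG.const _) (fun z x => by
      calc ∑ t ∈ I, w t * rho S φ t z ≤ ∑ t ∈ I, w t * 1 :=
            Finset.sum_le_sum fun t ht =>
              mul_le_mul_of_nonneg_left (rho_le_one hS (hI.le t ht) hφ z) (hI.nonneg t ht)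
        _ = 1 := by rw [← Finset.sum_mul, hI.sum, one_mul]) z
  rwa [hS.T_const hs] at h1

lemma sand1_real {r y er ey : ℝ} (h1 : r ≤ y) (h2 : y ≤ 1) (h3 : 0 ≤ r) :
    (r - er) ^ 2 ≤ 2 * (y - ey) ^ 2 + 2 * ((y - r) - (ey - er)) ^ 2 := by
  nlinarith [sq_nonneg ((y - ey) + ((y - r) - (ey - er)))]

/-- THE ONE SIDED SANDWICH: the variance of `rho_s`, with the projection of the right cell. -/
theorem var_rho_le_T (hS : S.Reg) {s : ℕ} (hs : s ≤ S.K) {I : Finset ℕ} {w : ℕ → ℝ}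
    (hI : Cell S I w) (h : ∀ t ∈ I, s ≤ t) (hφ : ∀ x i, (φ x i) ^ 2 ≤ 1) :
    vr S (fun z _ => rho S φ s z) ≤
      2 * vr S (fun z _ => S.T s (cellR S φ I w) z) +
        2 * (∑ t ∈ I, w t * S.Rl φ t - S.Rl φ s) := by
  have nR := nh_cellR (φ := φ) hS hI.le w
  have nT : Nh (X := X) fun z _ => S.T s (cellR S φ I w) z := Nh.fst (hS.eg_T hs nR)
  have nr : Nh (X := X) fun z _ => rho S φ s z := nh_rho hS hs
  have eT : S.Ex (fun z _ => S.T s (cellR S φ I w) z) = ∑ t ∈ I, w t * S.Rl φ t := by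
    rw [hS.Ex_T hs nR, Ex_cellR hS hI.le w]
  have er : S.Ex (fun z _ => rho S φ s z) = S.Rl φ s := Ex_rho S φ s
  unfold vr
  rw [eT, er]
  obtain ⟨B, hB⟩ : ∃ B : (ι → ℝ) → ℝ, B = S.T s (cellR S φ I w) := ⟨_, rfl⟩
  obtain ⟨b, hb⟩ : ∃ b, b = ∑ t ∈ I, w t * S.Rl φ t := ⟨_, rfl⟩
  obtain ⟨r, hr⟩ : ∃ r, r = S.Rl φ s := ⟨_, rfl⟩
  rw [← hb] at eT ⊢
  rw [← hr] at er ⊢
  rw [← hB] at nT eT ⊢
  have hle : ∀ z, rho S φ s z ≤ B z := fun z => by rw [hB]; exact rho_le_T_cellR hS hs hI h z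
  have hle1 : ∀ z, B z ≤ 1 := fun z => by rw [hB]; exact T_cellR_le_one hS hs hI hφ z
  have nd : Nh (X := X) fun z _ => B z - rho S φ s z := Nh.sub nT nr
  have nTb : Nh (X := X) fun z _ => (B z - b) ^ 2 := Nh.pow (Nh.sub nT (fun _ => EG.const b)) 2
  have nd1 : Nh (X := X) fun z _ => B z - rho S φ s z - (b - r) ^ 2 :=
    Nh.sub nd (fun _ => EG.const _)
  -- E (d - E d)^2 = E d^2 - (E d)^2 <= E d - (E d)^2
  have ndd : Nh (X := X) fun z _ => (B z - rho S φ s z - (b - r)) ^ 2 :=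
    Nh.pow (Nh.sub nd (fun _ => EG.const _)) 2
  have key := hS.Ex_mono (f := fun z _ => (rho S φ s z - r) ^ 2)
    (g := fun z x => (fun (z : ι → ℝ) (_ : X) => 2 * (B z - b) ^ 2) z x +
      (fun (z : ι → ℝ) (_ : X) => 2 * (B z - rho S φ s z - (b - r)) ^ 2) z x)
    (Nh.pow (Nh.sub nr (fun _ => EG.const r)) 2)
    (Nh.add (Nh.const_mul 2 nTb) (Nh.const_mul 2 ndd))
    (fun z _ => sand1_real (hle z) (hle1 z) (rho_nonneg S φ s z))
  rw [hS.Ex_add (Nh.const_mul 2 nTb) (Nh.const_mul 2 ndd), Sy.Ex_const_mul,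
    Sy.Ex_const_mul] at key
  have k2 : S.Ex (fun z _ => (B z - rho S φ s z - (b - r)) ^ 2) ≤ b - r := by
    have m := hS.Ex_mono (f := fun z _ => (B z - rho S φ s z - (b - r)) ^ 2)
      (g := fun z x => (fun (z : ι → ℝ) (_ : X) => (1 - 2 * (b - r)) * (B z - rho S φ s z)) z x +
        (fun (z : ι → ℝ) (_ : X) => (b - r) ^ 2) z x)
      ndd (Nh.add (Nh.const_mul _ nd) (fun _ => EG.const _))
      (fun z _ => by
        have a1 := hle z
        have a2 := hle1 z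
        have a3 := rho_nonneg S φ s z
        have : (B z - rho S φ s z) ^ 2 ≤ B z - rho S φ s z := by nlinarith
        show (B z - rho S φ s z - (b - r)) ^ 2 ≤
          (1 - 2 * (b - r)) * (B z - rho S φ s z) + (b - r) ^ 2
        nlinarith)
    rw [hS.Ex_add (Nh.const_mul _ nd) (fun _ => EG.const _), Sy.Ex_const_mul, hS.Ex_const,
      hS.Ex_sub nT nr, eT, er] at m
    nlinarith [sq_nonneg (b - r)]
  linarith

lemma vr_const_mul (c : ℝ) (h : (ι → ℝ) → X → ℝ) :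
    vr S (fun z x => c * h z x) = c ^ 2 * vr S h := by
  have e : S.Ex (fun z x => c * h z x) = c * S.Ex h := Sy.Ex_const_mul S c h
  have e2 : S.Ex (fun z x => c ^ 2 * (h z x - S.Ex h) ^ 2) =
      c ^ 2 * S.Ex (fun z x => (h z x - S.Ex h) ^ 2) :=
    Sy.Ex_const_mul S (c ^ 2) (fun z x => (h z x - S.Ex h) ^ 2)
  unfold vr
  rw [← e2]
  refine congrArg S.Ex ?_
  funext z x
  rw [e]
  ring

/-- THE ONE SIDED SANDWICH, with the average of the right cell. -/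
theorem var_rho_le_R (hS : S.Reg) {s : ℕ} (hs : s ≤ S.K) {I : Finset ℕ} {w : ℕ → ℝ}
    (hI : Cell S I w) (h : ∀ t ∈ I, s ≤ t) (hφ : ∀ x i, (φ x i) ^ 2 ≤ 1) :
    vr S (fun z _ => rho S φ s z) ≤
      2 * vr S (cellR S φ I w) + 2 * (∑ t ∈ I, w t * S.Rl φ t - S.Rl φ s) := by
  have h1 := var_rho_le_T hS hs hI h hφ
  have h2 := vr_T_le hS hs (nh_cellR (φ := φ) hS hI.le w)
  linarith

/-- THE ONE SIDED SANDWICH, with the field average of the right cell. -/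
theorem var_rho_le_A (hS : S.Reg) {s : ℕ} (hs : s ≤ S.K) {I : Finset ℕ} {w : ℕ → ℝ}
    (hI : Cell S I w) (h : ∀ t ∈ I, s ≤ t) (hφ : ∀ x i, (φ x i) ^ 2 ≤ 1) :
    vr S (fun z _ => rho S φ s z) ≤
      8 * vr S (cellA S φ I w) + 2 * (∑ t ∈ I, w t * S.Rl φ t - S.Rl φ s) := by
  have h1 := var_rho_le_T hS hs hI h hφ
  have nA := nh_cellA (φ := φ) hS hI.le w
  have h2 := vr_T_le hS hs nA
  have e : (fun (z : ι → ℝ) (_ : X) => S.T s (cellR S φ I w) z) =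
      fun z _ => 2 * S.T s (cellA S φ I w) z := by
    funext z _
    exact (two_T_cellA_right hS hs hI.le w h z).symm
  have e2 := vr_const_mul (S := S) 2 (fun (z : ι → ℝ) (_ : X) => S.T s (cellA S φ I w) z)
  rw [e, e2] at h1
  linarith

end Vale.Agent.P146.H784
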