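import Vale.Agent.P146.H784.Ei
import Vale.Agent.P146.H712.BtSum

/-!
Bulk transfer (BT3) under a general density `φ`: the functional `Th` and its sum over the pairs of
rows.
-/

open MeasureTheory ProbabilityTheory Matrix

namespace Vale.Agent.P146.H784

open Vale.Agent.P157.Lv Vale.Agent.P146.H425 Vale.Agent.P146.H325 Vale.Agent.P146.H332
  Vale.Agent.P146.R1 Vale.Agent.P146.R1C Vale.Agent.P146.H633 Vale.Agent.P146.H712

set_option linter.unusedSectionVars false

section sum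

variable {n : ℕ} {ι : Type} [Fintype ι] {φ : (K4 (Pair n) → ℝ) → ℝ}
  {C : (Pair n → ℝ) → Matrix ι ι ℝ}
  {DC : Pair n → (Pair n → ℝ) → Matrix ι ι ℝ} {K : (Pair n → ℝ) → ℝ} {s : ℝ}
  {P : (K4 (Pair n) → ℝ) → Pair n → ℝ}

/-- **(BT3)** the sum over the pairs of rows. `P` is one of the positions, `s` its time. -/
theorem bt3I (h : EG φ) (h0 : ∀ w, 0 ≤ φ w) (hs : 0 ≤ s)
    (hP : ∀ f : (Pair n → ℝ) → ℝ, EG f → EG fun w => f (P w))
    (hA : ∀ f : (Pair n → ℝ) → ℝ, EG f → ∀ (R : Finset (Pair n)) (w),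
      Av (lf R) (fun w => f (P w)) w = AvP s R f (P w))
    {ε : ℝ} (hε : 0 ≤ ε) (hlaw : ∀ b b' : Fin n, b ≠ b' → LLowI φ (row b ∪ row b') ε)
    (hC : ∀ i j, EG fun z => C z i j)
    (hd : ∀ e i j, PD e (fun z => C z i j) (fun z => DC e z i j))
    (hD : ∀ e i j, EG fun z => DC e z i j) (hK : EG K) (hK0 : ∀ z, 0 ≤ K z)
    {n2 B KK KR : ℝ} (hB : 0 ≤ B) (hb : ∀ z, fr (C z) ≤ n2) (hKK : ∀ z, K z ≤ KK)
    (hKR : ∀ z, ∑ e, fr (DC e z) ≤ KR) :
    ∑ b : Fin n, ∑ b' ∈ Finset.univ.erase b,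
        Ei φ (fun w => Th s (row b ∪ row b') C K (P w)) ≤
      2 * n ^ 2 * Ei φ (fun w => K (P w)) +
        16 * n * B * s * Ei φ (fun w => ∑ e, fr (DC e (P w))) +
        16 * n ^ 2 * n2 ^ 2 * Ei φ (fun w => chi B C (P w)) +
        ε * n ^ 2 * (KK + 2 * B * s * KR + 8 * n2 ^ 2) := by
  have hr : ∀ R : Finset (Pair n), EG fun z => ∑ e ∈ R, fr (DC e z) :=
    fun R => EG.sum R fun e _ => eg_frC (hD e)
  have hn2 : 0 ≤ n2 := (frn _).trans (hb 0)
  have hKK0 : 0 ≤ KK := (hK0 0).trans (hKK 0)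
  have hKR0 : 0 ≤ KR := (Finset.sum_nonneg fun e _ => frn _).trans (hKR 0)
  have hrn : ∀ (R : Finset (Pair n)) z, 0 ≤ ∑ e ∈ R, fr (DC e z) :=
    fun R z => Finset.sum_nonneg fun e _ => frn _
  have hrK : ∀ (R : Finset (Pair n)) z, ∑ e ∈ R, fr (DC e z) ≤ KR := fun R z =>
    (Finset.sum_le_sum_of_subset_of_nonneg (Finset.subset_univ R)
      fun e _ _ => frn _).trans (hKR z)
  -- one pair
  have one : ∀ b b' : Fin n, b ≠ b' → Ei φ (fun w => Th s (row b ∪ row b') C K (P w)) ≤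
      2 * Ei φ (fun w => K (P w)) +
        4 * B * s * Ei φ (fun w => ∑ e ∈ row b ∪ row b', fr (DC e (P w))) +
        16 * n2 ^ 2 * Ei φ (fun w => chi B C (P w)) +
        ε * (KK + 2 * B * s * KR + 8 * n2 ^ 2) := by
    intro b b' hbb
    set R := row b ∪ row b' with hR
    have hl := hlaw b b' hbb
    have u1 : EG fun w => Av (lf R) (fun w => K (P w)) w := eg_Av _ (hP _ hK)
    have u2 : EG fun w => Av (lf R) (fun w => ∑ e ∈ R, fr (DC e (P w))) w :=
      eg_Av _ (hP _ (hr R))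
    have u3 : EG fun w => Av (lf R) (fun w => chi B C (P w)) w := eg_Av _ (hP _ (eg_chi hC B))
    have pt : ∀ w, Th s R C K (P w) ≤ (Av (lf R) (fun w => K (P w)) w +
        2 * B * s * Av (lf R) (fun w => ∑ e ∈ R, fr (DC e (P w))) w) +
        8 * n2 ^ 2 * Av (lf R) (fun w => chi B C (P w)) w := by
      intro w
      have a1 := bt3a (s := s) (R := R) (K := K) hB hC hb (P w)
      have a2 := bt2 (R := R) hs hC (fun e _ i j => hd e i j) (fun e _ i j => hD e i j) (P w)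
      have a3 := mul_le_mul_of_nonneg_left a2 (by positivity : (0 : ℝ) ≤ 2 * B)
      rw [hA K hK R w, hA (fun z => ∑ e ∈ R, fr (DC e z)) (hr R) R w,
        hA (chi B C) (eg_chi hC B) R w]
      linarith
    have e1 := Ei_mono h h0 (hP _ (eg_Th hC hK s R)) ((u1.add (u2.const_mul (2 * B * s))).add
      (u3.const_mul (8 * n2 ^ 2))) pt
    rw [Ei_add h (u1.add (u2.const_mul (2 * B * s))) (u3.const_mul (8 * n2 ^ 2)),
      Ei_add h u1 (u2.const_mul (2 * B * s)), Ei_const_mul, Ei_const_mul] at e1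
    have v1 := hl _ (hP _ hK) KK (fun w => hK0 _) (fun w => hKK _)
    have v2 := hl _ (hP _ (hr R)) KR (fun w => hrn R _) (fun w => hrK R _)
    have v3 := hl _ (hP _ (eg_chi hC B)) 1 (fun w => chi_nonneg B _) (fun w => chi_le B _)
    have c2 : 0 ≤ 2 * B * s := by positivity
    have c3 : 0 ≤ 8 * n2 ^ 2 := by positivity
    have w2 := mul_le_mul_of_nonneg_left v2 c2
    have w3 := mul_le_mul_of_nonneg_left v3 c3
    nlinarith
  -- the sum
  have hsum : ∑ b : Fin n, ∑ b' ∈ Finset.univ.erase b,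
      Ei φ (fun w => ∑ e ∈ row b ∪ row b', fr (DC e (P w))) ≤
      4 * n * Ei φ (fun w => ∑ e, fr (DC e (P w))) := by
    have g0 : ∀ e, 0 ≤ Ei φ (fun w => fr (DC e (P w))) := fun e =>
      Ei_nonneg h0 fun w => frn _
    have ge : ∀ e, EG fun w => fr (DC e (P w)) := fun e => hP _ (eg_frC (hD e))
    have := sum_pairs_rows g0
    rw [Ei_sum h _ fun e _ => ge e]
    refine le_trans (le_of_eq ?_) this
    refine Finset.sum_congr rfl fun b _ => Finset.sum_congr rfl fun b' _ => ?_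
    rw [Ei_sum h _ fun e _ => ge e]
  have hKn : 0 ≤ Ei φ (fun w => K (P w)) := Ei_nonneg h0 fun w => hK0 _
  have hχn : 0 ≤ Ei φ (fun w => chi B C (P w)) := Ei_nonneg h0 fun w => chi_nonneg B _
  calc ∑ b : Fin n, ∑ b' ∈ Finset.univ.erase b, Ei φ (fun w => Th s (row b ∪ row b') C K (P w))
      ≤ ∑ b : Fin n, ∑ b' ∈ Finset.univ.erase b, (4 * B * s *
          Ei φ (fun w => ∑ e ∈ row b ∪ row b', fr (DC e (P w))) +
          (2 * Ei φ (fun w => K (P w)) + 16 * n2 ^ 2 * Ei φ (fun w => chi B C (P w)) +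
            ε * (KK + 2 * B * s * KR + 8 * n2 ^ 2))) := by
        refine Finset.sum_le_sum fun b _ => Finset.sum_le_sum fun b' hb' => ?_
        have := one b b' (Finset.ne_of_mem_erase hb').symm
        linarith
    _ = 4 * B * s * ∑ b : Fin n, ∑ b' ∈ Finset.univ.erase b,
          Ei φ (fun w => ∑ e ∈ row b ∪ row b', fr (DC e (P w))) +
        ∑ b : Fin n, ∑ _b' ∈ Finset.univ.erase b, (2 * Ei φ (fun w => K (P w)) +
          16 * n2 ^ 2 * Ei φ (fun w => chi B C (P w)) +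
            ε * (KK + 2 * B * s * KR + 8 * n2 ^ 2)) := by
        simp only [Finset.sum_add_distrib, Finset.mul_sum]
    _ ≤ 4 * B * s * (4 * n * Ei φ (fun w => ∑ e, fr (DC e (P w)))) +
        (n : ℝ) ^ 2 * (2 * Ei φ (fun w => K (P w)) +
          16 * n2 ^ 2 * Ei φ (fun w => chi B C (P w)) +
            ε * (KK + 2 * B * s * KR + 8 * n2 ^ 2)) := by
        refine add_le_add (mul_le_mul_of_nonneg_left hsum (by positivity)) ?_
        exact sum_pairs_const _ (by positivity)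
    _ = _ := by ring

end sum

end Vale.Agent.P146.H784
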