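import Vale.Agent.P146.H784.BtI
import Vale.Agent.P146.H784.GEn
import Vale.Agent.P146.H712.BtFn
import Vale.Agent.P146.H706G.LawT
import Vale.Agent.P146.H797.H826_LawP

/-!
Bulk transfer (BT3) under a general density for a position system `S : CS n (kk n β) x`, and the
instance for the law `densG q G F` with an abstract lower density. The numbers are in `BtN`.
-/

open MeasureTheory ProbabilityTheory Matrix

namespace Vale.Agent.P146.H784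

open Vale.Agent.P157.Lv Vale.Agent.P146.H425 Vale.Agent.P146.H325
  Vale.Agent.P146.H332 Vale.Agent.P146.R1 Vale.Agent.P146.R1C Vale.Agent.P146.H633
  Vale.Agent.P146.R1S Vale.Agent.P146.H712 Vale.Agent.P146.Cum

set_option linter.unusedSectionVars false

/-- The numbers of the bulk transfer. -/
structure BtN (n : ℕ) (β A δ T ρ x : ℝ) : Prop where
  n2 : 2 ≤ n
  β0 : 0 < β
  x0 : 0 < x
  x1 : x ≤ 1
  A1 : 1 ≤ A
  T0 : 0 < T
  T1 : T ≤ 1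
  xrT : A ^ 40 ≤ x ^ 2 * ρ * T
  ρn : 2 * ρ ≤ β ^ 2 * n
  βn : β ^ 2 ≤ n
  δ0 : 0 ≤ δ
  δn : (n : ℝ) ^ 200 * δ ≤ 1

section num

variable {n : ℕ} {β A δ T ρ x : ℝ}

lemma BtN.n0 (h : BtN n β A δ T ρ x) : (2 : ℝ) ≤ n := by exact_mod_cast h.n2

lemma BtN.ρA (h : BtN n β A δ T ρ x) : A ^ 40 ≤ ρ := by
  have h1 := h.xrT
  have hx := h.x0
  have hT := h.T0
  have hx1 : x ^ 2 ≤ 1 := pow_le_one₀ hx.le h.x1
  have h2 : 0 < A ^ 40 := by have := h.A1; positivity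
  have hρ : 0 < ρ := by
    by_contra hc
    push Not at hc
    have : x ^ 2 * ρ * T ≤ 0 :=
      mul_nonpos_of_nonpos_of_nonneg (mul_nonpos_of_nonneg_of_nonpos (by positivity) hc) hT.le
    linarith
  calc A ^ 40 ≤ x ^ 2 * ρ * T := h1
    _ ≤ 1 * ρ * 1 := mul_le_mul (mul_le_mul_of_nonneg_right hx1 hρ.le) h.T1 hT.le
        (by positivity)
    _ = ρ := by ring

lemma BtN.ρ1 (h : BtN n β A δ T ρ x) : 1 ≤ ρ := (one_le_pow₀ h.A1).trans h.ρA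

lemma BtN.N0 (h : BtN n β A δ T ρ x) : 0 < R1C.NN n β ρ := by
  have h1 := h.ρ1
  have h2 := h.n0
  have h3 := h.β0
  unfold R1C.NN
  positivity

lemma BtN.NN_le (h : BtN n β A δ T ρ x) : R1C.NN n β ρ ≤ (n : ℝ) ^ 2 := by
  unfold R1C.NN
  have h3 := h.β0
  rw [div_le_iff₀ (by positivity)]
  have h1 := h.ρn
  have h2 := h.n0
  calc 2 * ρ * n ≤ β ^ 2 * n * n := mul_le_mul_of_nonneg_right h1 (by positivity)
    _ = _ := by ring

/-- `k² N = 2 ρ` -/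
lemma BtN.kkNN (h : BtN n β A δ T ρ x) : kk n β ^ 2 * R1C.NN n β ρ = 2 * ρ := by
  have h2 := h.n0
  have h3 := h.β0
  unfold kk R1C.NN
  rw [div_pow, Real.sq_sqrt (by positivity)]
  field_simp

lemma BtN.kk1 (h : BtN n β A δ T ρ x) : kk n β ^ 2 ≤ 1 := by
  have hn := h.n0
  have h1 := R1C.kk_sq (n := n) (by have := h.n2; omega) β
  have h2 := h.βn
  rw [← h1] at h2
  have hn0 : (0 : ℝ) < n := by linarith
  nlinarith

lemma BtN.A_le (h : BtN n β A δ T ρ x) : A ≤ (n : ℝ) ^ 2 := by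
  have b1 : A ≤ A ^ 40 := le_self_pow₀ h.A1 (by norm_num)
  have b2 := h.ρA
  have b3 := h.ρn
  have hn := h.n0
  have b5 : β ^ 2 * n ≤ n * n := mul_le_mul_of_nonneg_right h.βn (by linarith)
  have b6 := h.ρ1
  nlinarith

lemma BtN.one_le (h : BtN n β A δ T ρ x) :
    (1 : ℝ) ≤ (n : ℝ) ^ 2 * (R1C.NN n β ρ) ^ 2 * (A / (x ^ 2 * ρ * T)) := by
  have hx := h.x0
  have hT := h.T0
  have hρ := h.ρ1
  have hβ := h.β0
  have hn := h.n0
  have hA := h.A1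
  set N := R1C.NN n β ρ with hN
  have hN2 : 2 * ρ ≤ N := by
    rw [hN]
    unfold R1C.NN
    rw [le_div_iff₀ (by positivity)]
    exact mul_le_mul_of_nonneg_left h.βn (by positivity : (0 : ℝ) ≤ 2 * ρ)
  have f1 : x ^ 2 * ρ * T ≤ ρ := by
    have g1 : x ^ 2 ≤ 1 := pow_le_one₀ hx.le h.x1
    calc x ^ 2 * ρ * T ≤ 1 * ρ * 1 :=
          mul_le_mul (mul_le_mul_of_nonneg_right g1 (by positivity)) h.T1 hT.le (by positivity)
      _ = ρ := by ring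
  have f2 : ρ ≤ N ^ 2 := by nlinarith
  have g1 : (1 : ℝ) ≤ (n : ℝ) ^ 2 * A :=
    one_le_mul_of_one_le_of_one_le (one_le_pow₀ (by linarith)) hA
  have f3 := mul_le_mul_of_nonneg_right g1 (sq_nonneg N)
  have hxT : 0 < x ^ 2 * ρ * T := by positivity
  rw [← mul_div_assoc, le_div_iff₀ hxT, one_mul]
  linarith

/-- the numbers from the package `Fo` -/
lemma BtN.of_Fo {q : Par} {F : (Pair n → ℝ) → ℝ}
    {AM : ℝ → (Pair n → ℝ) → Matrix (Fin n) (Fin n) ℝ}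
    {DM : ℝ → Pair n → (Pair n → ℝ) → Matrix (Fin n) (Fin n) ℝ}
    (h : Fo n β A δ T ρ q F AM DM) : BtN n β A δ T ρ q.x where
  n2 := h.n2
  β0 := h.β0
  x0 := h.ok.x0
  x1 := h.ok.x1
  A1 := h.A1
  T0 := h.Tp
  T1 := h.T1
  xrT := h.xrT
  ρn := h.ρn
  βn := h.βn
  δ0 := h.δ0
  δn := h.δn

end num

section pos

variable {n : ℕ} {β A δ T ρ x Γ : ℝ} {φ : (K4 (Pair n) → ℝ) → ℝ}

/-- one position, general density -/
theorem bt3_posI (S : CS n (kk n β) x) (h : BtN n β A δ T ρ x) (hφ : EG φ) (h0φ : ∀ w, 0 ≤ φ w)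
    (hL : ∀ b b' : Fin n, b ≠ b' → LLowI φ (row b ∪ row b') ((n : ℝ) ^ 200)⁻¹)
    {s : ℝ} (hs : 0 < s) (hs1 : s ≤ 1)
    {P : (K4 (Pair n) → ℝ) → Pair n → ℝ}
    (hP : ∀ f : (Pair n → ℝ) → ℝ, EG f → EG fun w => f (P w))
    (hA : ∀ f : (Pair n → ℝ) → ℝ, EG f → ∀ (R : Finset (Pair n)) (w),
      Av (lf R) (fun w => f (P w)) w = AvP s R f (P w))
    (hup : Ei φ (fun w => if A * R1C.NN n β ρ < fr (S.A s (P w)) then (1 : ℝ) else 0) ≤ δ)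
    (hrt : Ei φ (fun w => rt S.DA s (P w)) ≤ A * R1C.NN n β ρ / T)
    (hKR : ∀ z, rt S.DA s z ≤ (n : ℝ) ^ 20) :
    ∑ b : Fin n, ∑ b' ∈ Finset.univ.erase b,
        Ei φ (fun w => Th s (row b ∪ row b') (S.A s) (KV S s) (P w)) ≤
      n ^ 2 * (R1C.NN n β ρ) ^ 2 * (3 * A / (x ^ 2 * ρ * T) + 16 * A ^ 2 / (n * T)) := by
  have hn2 : (2 : ℝ) ≤ n := h.n0
  have hnp : (0 : ℝ) < n := by linarith
  have hA1 := h.A1
  have hx := h.x0
  have hAp : 0 < A := by linarith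
  have hNp := h.N0
  have hT := h.T0
  have hρ1 := h.ρ1
  have hkN := h.kkNN
  have hk2 : 0 < kk n β ^ 2 := by have := S.k0; positivity
  have hε : (0 : ℝ) ≤ ((n : ℝ) ^ 200)⁻¹ := by positivity
  have main := bt3I (φ := φ) (s := s) (P := P) (C := S.A s) (DC := S.DA s)
    (K := KV S s) hφ h0φ hs.le hP hA hε hL (fun i j => tA_eg S s i j)
    (fun e i j => tpd S s e i j) (fun e i j => S.eg_DA s e i j) (eg_KV S s)
    (fun z => KV_nonneg S s z) (n2 := (n : ℝ) ^ 2) (B := A * R1C.NN n β ρ)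
    (KK := 4 * (n : ℝ) ^ 4) (KR := (n : ℝ) ^ 20) (by positivity) (fun z => tfr_le S s z)
    (fun z => KV_le S s z) hKR
  have t4 := bt_n4 (s := s) hn2 h.A_le hNp.le h.NN_le hs.le hs1
  have t5 := h.one_le
  have t3' := bt_n3 hn2 h.δ0 h.δn
  -- the tensors
  have hK : Ei φ (fun w => KV S s (P w)) ≤
      2 / (kk n β ^ 2 * x ^ 2) * (A * R1C.NN n β ρ / T) := by
    have hrate : EG fun w => rt S.DA s (P w) := hP _ (by
      unfold rt
      exact EG.sum _ fun e _ => eg_frC fun i j => S.eg_DA s e i j)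
    have h1 := Ei_mono hφ h0φ (hP _ (eg_KV S s)) (hrate.const_mul (2 / (kk n β ^ 2 * x ^ 2)))
      fun w => by
        have h2 := S.kov hs (P w)
        have h3 : kk n β ^ 2 * x ^ 2 / 2 * KV S s (P w) ≤ rt S.DA s (P w) := h2
        rw [div_mul_eq_mul_div, le_div_iff₀ (by positivity)]
        linarith
    rw [Ei_const_mul] at h1
    exact h1.trans (mul_le_mul_of_nonneg_left hrt (by positivity))
  have hχ : Ei φ (fun w => chi (A * R1C.NN n β ρ) (S.A s) (P w)) ≤ δ := hup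
  have hR : Ei φ (fun w => ∑ e, fr (S.DA s e (P w))) ≤ A * R1C.NN n β ρ / T := hrt
  have h0 : 0 ≤ Ei φ (fun w => ∑ e, fr (S.DA s e (P w))) :=
    Ei_nonneg h0φ fun w => Finset.sum_nonneg fun e _ => frn _
  generalize Ei φ (fun w => KV S s (P w)) = X1 at *
  generalize Ei φ (fun w => ∑ e, fr (S.DA s e (P w))) = X2 at *
  generalize Ei φ (fun w => chi (A * R1C.NN n β ρ) (S.A s) (P w)) = X3 at *
  -- the numbers
  refine main.trans ?_
  clear main hup hrt hKR hP hA hL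
  generalize R1C.NN n β ρ = N at *
  have hxT : 0 < x ^ 2 * ρ * T := by positivity
  have e1 : 2 * (n : ℝ) ^ 2 * (2 / (kk n β ^ 2 * x ^ 2) * (A * N / T)) =
      n ^ 2 * N ^ 2 * (2 * A / (x ^ 2 * ρ * T)) := by
    have : ρ = kk n β ^ 2 * N / 2 := by linarith
    rw [this]
    field_simp
  have e2 : 16 * (n : ℝ) * (A * N) * 1 * (A * N / T) =
      n ^ 2 * N ^ 2 * (16 * A ^ 2 / (n * T)) := by
    field_simp
  have t1 : 2 * (n : ℝ) ^ 2 * X1 ≤ n ^ 2 * N ^ 2 * (2 * A / (x ^ 2 * ρ * T)) := by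
    rw [← e1]
    exact mul_le_mul_of_nonneg_left hK (by positivity)
  have t2 : 16 * (n : ℝ) * (A * N) * s * X2 ≤ n ^ 2 * N ^ 2 * (16 * A ^ 2 / (n * T)) := by
    rw [← e2]
    refine mul_le_mul ?_ hR h0 (by positivity)
    exact mul_le_mul_of_nonneg_left hs1 (by positivity)
  have t3 : 16 * (n : ℝ) ^ 2 * ((n : ℝ) ^ 2) ^ 2 * X3 ≤ 1 / 4 :=
    (mul_le_mul_of_nonneg_left hχ (by positivity)).trans t3'
  have e3 : (n : ℝ) ^ 2 * N ^ 2 * (3 * A / (x ^ 2 * ρ * T) + 16 * A ^ 2 / (n * T)) =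
      n ^ 2 * N ^ 2 * (2 * A / (x ^ 2 * ρ * T)) + n ^ 2 * N ^ 2 * (16 * A ^ 2 / (n * T)) +
        n ^ 2 * N ^ 2 * (A / (x ^ 2 * ρ * T)) := by
    ring
  rw [e3]
  linarith

/-- the hypothesis `hKR` for a dominated system, from the numbers -/
theorem BtN.hKR (S : CS n (kk n β) x) (h : BtN n β A δ T ρ x) {s : ℝ}
    (hFn : Fn (kk n β) SkS (uu x s S.F) (S.mu s) Γ) (hΓ : Γ ≤ (n : ℝ) ^ 8) (z : Pair n → ℝ) :
    rt S.DA s z ≤ (n : ℝ) ^ 20 :=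
  rt_le_fn S hFn h.kk1 (by have := h.n2; omega) hΓ z

end pos

/-! ### the law with an abstract lower density -/

section G

variable {n : ℕ} {β A δ T ρ Γ : ℝ} {q : Par} {G : GD (Pair n)}

lemma EnG_eq_Ei {κ : Type} [Fintype κ] [DecidableEq κ] (q : Par) (G : GD κ)
    (F : (κ → ℝ) → ℝ) (f : (K4 κ → ℝ) → ℝ) : EnG q G F f = Ei (densG q G F) f := rfl

/-- **(BT3)** for the law with an abstract lower density, one position. -/
theorem bt3_pos_g (S : CS n (kk n β) q.x) (h : BtN n β A δ T ρ q.x) (hG : G.Ok)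
    (hL : ∀ b b' : Fin n, b ≠ b' → LLowG q G S.F (row b ∪ row b') ((n : ℝ) ^ 200)⁻¹)
    {s : ℝ} (hs : 0 < s) (hs1 : s ≤ 1)
    {P : (K4 (Pair n) → ℝ) → Pair n → ℝ}
    (hP : ∀ f : (Pair n → ℝ) → ℝ, EG f → EG fun w => f (P w))
    (hA : ∀ f : (Pair n → ℝ) → ℝ, EG f → ∀ (R : Finset (Pair n)) (w),
      Av (lf R) (fun w => f (P w)) w = AvP s R f (P w))
    (hup : EnG q G S.F (fun w => if A * R1C.NN n β ρ < fr (S.A s (P w)) then (1 : ℝ) else 0) ≤ δ)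
    (hrt : EnG q G S.F (fun w => rt S.DA s (P w)) ≤ A * R1C.NN n β ρ / T)
    (hKR : ∀ z, rt S.DA s z ≤ (n : ℝ) ^ 20) :
    ∑ b : Fin n, ∑ b' ∈ Finset.univ.erase b,
        EnG q G S.F (fun w => Th s (row b ∪ row b') (S.A s) (KV S s) (P w)) ≤
      n ^ 2 * (R1C.NN n β ρ) ^ 2 * (3 * A / (q.x ^ 2 * ρ * T) + 16 * A ^ 2 / (n * T)) :=
  bt3_posI S h (eg_densG S.c11 S.x0 hG) densG_nonneg hL hs hs1 hP hA hup hrt hKR

/-- **(BT3)** at the time `s1`. -/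
theorem bt3_two_g (S : CS n (kk n β) q.x) (h : BtN n β A δ T ρ q.x) (hq : q.OkS) (hG : G.Ok)
    (hL : ∀ b b' : Fin n, b ≠ b' → LLowG q G S.F (row b ∪ row b') ((n : ℝ) ^ 200)⁻¹)
    (hs : 0 < q.s1)
    (hup : EnG q G S.F
      (fun w => if A * R1C.NN n β ρ < fr (S.A q.s1 (P2 q w)) then (1 : ℝ) else 0) ≤ δ)
    (hrt : EnG q G S.F (fun w => rt S.DA q.s1 (P2 q w)) ≤ A * R1C.NN n β ρ / T)
    (hKR : ∀ z, rt S.DA q.s1 z ≤ (n : ℝ) ^ 20) :
    ∑ b : Fin n, ∑ b' ∈ Finset.univ.erase b,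
        EnG q G S.F (fun w => Th q.s1 (row b ∪ row b') (S.A q.s1) (KV S q.s1) (P2 q w)) ≤
      n ^ 2 * (R1C.NN n β ρ) ^ 2 * (3 * A / (q.x ^ 2 * ρ * T) + 16 * A ^ 2 / (n * T)) :=
  bt3_pos_g S h hG hL hs (hq.h12.trans hq.h2) (fun f hf => eg_P2 hf)
    (fun f hf R w => Av_lf_P2_s hq hf R w) hup hrt hKR

/-- **(BT3)** at the time `s2`. -/
theorem bt3_three_g (S : CS n (kk n β) q.x) (h : BtN n β A δ T ρ q.x) (hq : q.OkS) (hG : G.Ok)
    (hL : ∀ b b' : Fin n, b ≠ b' → LLowG q G S.F (row b ∪ row b') ((n : ℝ) ^ 200)⁻¹)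
    (hs : 0 < q.s2)
    (hup : EnG q G S.F
      (fun w => if A * R1C.NN n β ρ < fr (S.A q.s2 (P3 q w)) then (1 : ℝ) else 0) ≤ δ)
    (hrt : EnG q G S.F (fun w => rt S.DA q.s2 (P3 q w)) ≤ A * R1C.NN n β ρ / T)
    (hKR : ∀ z, rt S.DA q.s2 z ≤ (n : ℝ) ^ 20) :
    ∑ b : Fin n, ∑ b' ∈ Finset.univ.erase b,
        EnG q G S.F (fun w => Th q.s2 (row b ∪ row b') (S.A q.s2) (KV S q.s2) (P3 q w)) ≤
      n ^ 2 * (R1C.NN n β ρ) ^ 2 * (3 * A / (q.x ^ 2 * ρ * T) + 16 * A ^ 2 / (n * T)) :=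
  bt3_pos_g S h hG hL hs hq.h2 (fun f hf => eg_P3 hf)
    (fun f hf R w => Av_lf_P3_s hq hf R w) hup hrt hKR

end G

end Vale.Agent.P146.H784
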