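import Vale.Agent.P146.H784.Cav2

set_option linter.all false

/-!
The change of the temperature, with the quadratic error.
-/

open MeasureTheory ProbabilityTheory Filter Topology

namespace Vale.Agent.P146.H784

open Vale.Agent.P157 Vale.Agent.P157.Lv Vale.Agent.P157.Lv.Sy Vale.Agent.P157.Lv.Fld
open Vale.Agent.P157.Par (Path Exponents incr spinPart)
open Vale.Agent.P146 (Pair)
open Vale.Agent.P146.Ub Vale.Agent.P146.Ub.Ld Vale.Agent.P146.Ub.Ld.H501
open Vale.Agent.P146.R3.H501.Tr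

variable {n K N d : ℕ} {m s R : ℕ → ℝ} {β θ : ℝ}

/-- the centred covariance -/
noncomputable def fb (n K N d : ℕ) (β : ℝ) (s : ℕ → ℝ) (R : ℕ → ℝ) (l : ℕ)
    (x x' : Fin n → Bool) : ℝ :=
  -(hh (Sum.elim (rlv d) (rlv d)) (bal n K N β s) (fun _ _ => 0) l x x' -
    if d ≤ l then β ^ 2 / 2 * ((N * R l ^ 2 - 1) / ((N + 1 : ℕ) : ℝ)) else 0)

lemma fb_sq (hN : N ≤ n) (h0 : 0 < N) {l : ℕ} (hR : |R l| ≤ 1) (x x' : Fin n → Bool) :
    fb n K N d β s R l x x' ^ 2 ≤
      β ^ 4 * (if d ≤ l then (Rov (ph hN) x x' - R l) ^ 2 else 0) := by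
  have hN0 : (0 : ℝ) < N := by exact_mod_cast h0
  unfold fb
  rw [hh_bal hN h0]
  split_ifs with h
  · obtain ⟨ρ, hρ⟩ : ∃ ρ, ρ = Rov (ph hN) x x' := ⟨_, rfl⟩
    have h3 := rs_abs_Rov hN h0 x x'
    rw [← hρ] at h3 ⊢
    obtain ⟨r, hr⟩ : ∃ r, r = R l := ⟨_, rfl⟩
    rw [← hr] at hR ⊢
    obtain ⟨t, ht⟩ : ∃ t : ℝ, t = N / ((N + 1 : ℕ) : ℝ) := ⟨_, rfl⟩
    have ht0 : 0 ≤ t := by rw [ht]; positivity
    have ht1 : t ≤ 1 := by
      rw [ht, div_le_one (by positivity)]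
      push_cast
      linarith
    have e1 : -(β ^ 2 / 2 * ((N * ρ ^ 2 - 1) / ((N + 1 : ℕ) : ℝ)) -
        β ^ 2 / 2 * ((N * r ^ 2 - 1) / ((N + 1 : ℕ) : ℝ))) =
        -(β ^ 2 / 2 * (t * ((ρ - r) * (ρ + r)))) := by
      rw [ht]
      ring
    rw [e1]
    have e2 : (-(β ^ 2 / 2 * (t * ((ρ - r) * (ρ + r))))) ^ 2 =
        β ^ 4 * (ρ - r) ^ 2 * (t ^ 2 * ((ρ + r) / 2) ^ 2) := by ring
    rw [e2]
    have h4 := abs_le.1 h3
    have h5 := abs_le.1 hR
    have h6 : ((ρ + r) / 2) ^ 2 ≤ 1 := by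
      rw [sq_le_one_iff_abs_le_one, abs_le]
      constructor <;> linarith
    have h7 : t ^ 2 ≤ 1 := pow_le_one₀ ht0 ht1
    have h8 : t ^ 2 * ((ρ + r) / 2) ^ 2 ≤ 1 := mul_le_one₀ h7 (sq_nonneg _) h6
    exact mul_le_of_le_one_right (by positivity) h8
  · simp

/-- the change of the pair averages along the interpolation -/
lemma sc_chg (hd : d ≤ K) (hN : N ≤ n) (h0 : 0 < N) (hm : Exponents K m)
    (hR1 : ∀ l, l ≤ K → |R l| ≤ 1) {V : ℝ}
    (hV : ∀ θ, 0 ≤ θ → θ ≤ Real.pi / 2 → ∑ l ∈ Finset.range (K + 1), (m (l + 1) - m l) *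
      (Mth n K d m β N s θ).pairEx l (fun x x' =>
        if d ≤ l then (Rov (ph hN) x x' - R l) ^ 2 else 0) ≤ V)
    {θ : ℝ} (hθ0 : 0 ≤ θ) (hθ1 : θ ≤ Real.pi / 2) :
    ∑ l ∈ Finset.range (K + 1), (m (l + 1) - m l) *
      (Mth n K d m β N s θ).pairEx l (fb n K N d β s R l) -
    ∑ l ∈ Finset.range (K + 1), (m (l + 1) - m l) *
      (Mth n K d m β N s 0).pairEx l (fb n K N d β s R l) ≤ 64 * (β ^ 4 * V) := by
  have hlev := lev2_le (rlv_le (n := n) (K := K) hd)
  have hsq : ∀ θ, 0 ≤ θ → θ ≤ Real.pi / 2 → ∑ l ∈ Finset.range (K + 1), (m (l + 1) - m l) *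
      (Mth n K d m β N s θ).pairEx l (fun x x' => fb n K N d β s R l x x' ^ 2) ≤
      β ^ 4 * V := by
    intro θ h1 h2
    have hReg : (Mth n K d m β N s θ).Reg := Lth_reg hm hlev _ _ _ _ _
    have h3 : ∀ l ∈ Finset.range (K + 1), (m (l + 1) - m l) *
        (Mth n K d m β N s θ).pairEx l (fun x x' => fb n K N d β s R l x x' ^ 2) ≤
        β ^ 4 * ((m (l + 1) - m l) * (Mth n K d m β N s θ).pairEx l (fun x x' =>
          if d ≤ l then (Rov (ph hN) x x' - R l) ^ 2 else 0)) := by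
      intro l hl
      have hlK : l ≤ K := by have := Finset.mem_range.1 hl; omega
      have hl' : l ≤ (Mth n K d m β N s θ).K := hlK
      have h4 := hReg.pairEx_mono hl' (fun x x' =>
        fb_sq (K := K) (d := d) (β := β) (s := s) hN h0 (hR1 l hlK) x x')
      rw [hReg.pairEx_const_mul] at h4
      have h5 := mul_le_mul_of_nonneg_left h4 (rs_p_nonneg hm hl)
      linarith
    refine (Finset.sum_le_sum h3).trans ?_
    rw [← Finset.mul_sum]
    exact mul_le_mul_of_nonneg_left (hV θ h1 h2) (by positivity)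
  have h3 := avg_change (X := Fin n → Bool) (a := ba n K N β s) (α := bal n K N β s)
    (β := fun _ _ => 0) hm hlev (lc n) (fun e x x' => mul_zero _)
    (fun e x x' => by
      unfold bal ba
      rcases e with e | e
      · show (0 : ℝ) * _ = 0
        rw [zero_mul]
      · show _ * (0 : ℝ) = 0
        rw [mul_zero])
    (fun e x x' => zero_mul _) (κ := β ^ 2 / 2 * ((N - 1) / ((N + 1 : ℕ) : ℝ)))
    (fun x => dg_bal hN h0 x)
    (fun l => if d ≤ l then β ^ 2 / 2 * ((N * R l ^ 2 - 1) / ((N + 1 : ℕ) : ℝ)) else 0)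
    (fun l => fb n K N d β s R l) (B1 := β ^ 4 * V) (B2 := β ^ 4 * V) hsq
    (fun θ h1 h2 => by
      refine le_trans (le_of_eq ?_) (hsq θ h1 h2)
      refine Finset.sum_congr rfl fun l _ => ?_
      unfold vv Mth
      congr 2
      funext x x'
      unfold fb
      rw [neg_sq]) le_rfl hθ0 hθ1
  refine h3.trans (le_of_eq ?_)
  ring

/-- the averages at the start -/
lemma sc_start (hd : d ≤ K) (hN : N ≤ n) (h0 : 0 < N) (hm : Exponents K m)
    (hRge : ∀ l, d ≤ l → l ≤ K → R l = (SC n K d m β N s).pairEx l (Rov (ph hN))) :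
    ∑ l ∈ Finset.range (K + 1), (m (l + 1) - m l) *
      (Mth n K d m β N s 0).pairEx l (fb n K N d β s R l) ≤ 0 := by
  have hN0 : (0 : ℝ) < N := by exact_mod_cast h0
  have hSC : (SC n K d m β N s).Reg := rs_reg hd hm _ _
  refine Finset.sum_nonpos fun l hl => mul_nonpos_of_nonneg_of_nonpos (rs_p_nonneg hm hl) ?_
  have hlK : l ≤ K := by have := Finset.mem_range.1 hl; omega
  have hl' : l ≤ (SC n K d m β N s).K := hlK
  rw [Mth_zero, rS_pairEx hSC one_zero_sq hl']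
  rcases lt_or_ge l d with h | h
  · have e1 : fb n K N d β s R l = fun _ _ => 0 := by
      funext x x'
      unfold fb
      rw [hh_bal hN h0, if_neg (not_le.2 h), if_neg (not_le.2 h)]
      ring
    rw [e1, hSC.pairEx_const hl']
  · have e1 : fb n K N d β s R l = fun x x' => (-(β ^ 2 / 2 * (N / ((N + 1 : ℕ) : ℝ)))) *
        Rov (ph hN) x x' ^ 2 + (fun _ _ => β ^ 2 / 2 * (N / ((N + 1 : ℕ) : ℝ)) * R l ^ 2) x x' := by
      funext x x'
      unfold fb
      rw [hh_bal hN h0, if_pos h, if_pos h]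
      ring
    rw [e1, hSC.pairEx_add hl' (fun x x' => (-(β ^ 2 / 2 * (N / ((N + 1 : ℕ) : ℝ)))) *
        Rov (ph hN) x x' ^ 2) (fun _ _ => β ^ 2 / 2 * (N / ((N + 1 : ℕ) : ℝ)) * R l ^ 2),
      hSC.pairEx_const_mul, hSC.pairEx_const hl']
    have h1 := pair_sq_ge hSC hl' (Rov (ph hN))
    rw [← hRge l h hlK] at h1
    have h2 : 0 ≤ β ^ 2 / 2 * (N / ((N + 1 : ℕ) : ℝ)) := by positivity
    nlinarith [mul_le_mul_of_nonneg_left h1 h2]

lemma ith_half' {κ Y : Type} (a α β' : Y → κ → ℝ) : ith a α β' (Real.pi / 2) = a + α := by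
  funext x e
  show a x e + (Real.sin (Real.pi / 2) * α x e + Real.cos (Real.pi / 2) * β' x e) = a x e + α x e
  rw [Real.sin_pi_div_two, Real.cos_pi_div_two]
  ring

/-- **The change of the temperature.** -/
theorem sc_part (hd : d ≤ K) (hN : N ≤ n) (h0 : 0 < N) (hm : Exponents K m)
    (hRge : ∀ l, d ≤ l → l ≤ K → R l = (SC n K d m β N s).pairEx l (Rov (ph hN)))
    (hRlt : ∀ l, l < d → R l = 0)
    (hR1 : ∀ l, l ≤ K → |R l| ≤ 1) {V : ℝ}
    (hV : ∀ θ, 0 ≤ θ → θ ≤ Real.pi / 2 → ∑ l ∈ Finset.range (K + 1), (m (l + 1) - m l) *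
      (Mth n K d m β N s θ).pairEx l (fun x x' =>
        if d ≤ l then (Rov (ph hN) x x' - R l) ^ 2 else 0) ≤ V) :
    AN n K d m β N s ≤ (SC n K d m β N s).fe +
      β ^ 2 / 4 * (1 - ∑ l ∈ Finset.range (K + 1), (m (l + 1) - m l) * R l ^ 2) +
        32 * (β ^ 4 * V) := by
  have hN0 : (0 : ℝ) < N := by exact_mod_cast h0
  have hlev := lev2_le (rlv_le (n := n) (K := K) hd)
  have hSC : (SC n K d m β N s).Reg := rs_reg hd hm _ _
  have hSN : (SN n K d m β N s).Reg := rs_reg hd hm _ _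
  obtain ⟨Q, hQ⟩ : ∃ Q, Q = ∑ l ∈ Finset.range (K + 1), (m (l + 1) - m l) * R l ^ 2 := ⟨_, rfl⟩
  have hQ1 : Q ≤ 1 := by
    rw [hQ, ← rs_sum_p hm]
    refine Finset.sum_le_sum fun l hl => ?_
    have hlK : l ≤ K := by have := Finset.mem_range.1 hl; omega
    have h1 : R l ^ 2 ≤ 1 := by
      rw [← sq_abs]
      exact pow_le_one₀ (abs_nonneg _) (hR1 l hlK)
    exact mul_le_of_le_one_right (rs_p_nonneg hm hl) h1
  rw [← hQ]
  obtain ⟨t, ht⟩ : ∃ t : ℝ, t = N / ((N + 1 : ℕ) : ℝ) := ⟨_, rfl⟩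
  have ht0 : 0 ≤ t := by rw [ht]; positivity
  have ht1 : t ≤ 1 := by
    rw [ht, div_le_one (by positivity)]
    push_cast
    linarith
  have hcc : ∑ l ∈ Finset.range (K + 1), (m (l + 1) - m l) *
      (if d ≤ l then β ^ 2 / 2 * ((N * R l ^ 2 - 1) / ((N + 1 : ℕ) : ℝ)) else 0) ≥
      β ^ 2 / 2 * t * Q - β ^ 2 / 2 / ((N + 1 : ℕ) : ℝ) := by
    have h1 : ∀ l ∈ Finset.range (K + 1), β ^ 2 / 2 * t * ((m (l + 1) - m l) * R l ^ 2) -
        β ^ 2 / 2 / ((N + 1 : ℕ) : ℝ) * (m (l + 1) - m l) ≤ (m (l + 1) - m l) *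
        (if d ≤ l then β ^ 2 / 2 * ((N * R l ^ 2 - 1) / ((N + 1 : ℕ) : ℝ)) else 0) := by
      intro l hl
      have hp := rs_p_nonneg hm hl
      split_ifs with h
      · refine le_of_eq ?_
        rw [ht]
        ring
      · rw [hRlt l (not_le.1 h)]
        have h2 : 0 ≤ β ^ 2 / 2 / ((N + 1 : ℕ) : ℝ) * (m (l + 1) - m l) := by positivity
        have e : β ^ 2 / 2 * t * ((m (l + 1) - m l) * (0 : ℝ) ^ 2) = 0 := by ring
        rw [e]
        linarith
    have h2 := Finset.sum_le_sum h1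
    rw [Finset.sum_sub_distrib, ← Finset.mul_sum, ← Finset.mul_sum, rs_sum_p hm, ← hQ,
      mul_one] at h2
    exact h2
  have h2 := ls_interp (X := Fin n → Bool) (a := ba n K N β s) (α := bal n K N β s)
    (β := fun _ _ => 0) hm hlev (lc n)
    (B := β ^ 2 / 2 * (1 - Q) + 64 * (β ^ 4 * V))
    (fun e x x' => mul_zero _)
    (fun e x x' => by
      unfold bal ba
      rcases e with e | e
      · show (0 : ℝ) * _ = 0
        rw [zero_mul]
      · show _ * (0 : ℝ) = 0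
        rw [mul_zero])
    (fun e x x' => zero_mul _) (by
      intro θ hθ0 hθ1
      have hReg : (Mth n K d m β N s θ).Reg := Lth_reg hm hlev _ _ _ _ _
      have e1 : (fun (_ : RI n K ⊕ RI n K → ℝ) (x : Fin n → Bool) =>
          ∑ e, (bal n K N β s x e ^ 2 - (fun _ _ => (0 : ℝ)) x e ^ 2)) =
          fun _ _ => β ^ 2 / 2 * ((N - 1) / ((N + 1 : ℕ) : ℝ)) := by
        funext _ x
        exact dg_bal hN h0 x
      have h4 : (ls (Sum.elim (rlv d) (rlv d)) K m (lc n) (ith (ba n K N β s) (bal n K N β s)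
          (fun _ _ => 0) θ)) = Mth n K d m β N s θ := rfl
      rw [h4, e1, hReg.Ex_const]
      have h5 := sc_chg hd hN h0 hm hR1 hV hθ0 hθ1
      have h6 := sc_start (β := β) (s := s) hd hN h0 hm hRge
      have h7 : ∑ l ∈ Finset.range (K + 1), (m (l + 1) - m l) *
          (Mth n K d m β N s θ).pairEx l (fb n K N d β s R l) =
          -∑ l ∈ Finset.range (K + 1), (m (l + 1) - m l) *
            (Mth n K d m β N s θ).pairEx l
              (hh (Sum.elim (rlv d) (rlv d)) (bal n K N β s) (fun _ _ => 0) l) +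
          ∑ l ∈ Finset.range (K + 1), (m (l + 1) - m l) *
            (if d ≤ l then β ^ 2 / 2 * ((N * R l ^ 2 - 1) / ((N + 1 : ℕ) : ℝ)) else 0) := by
        rw [← Finset.sum_neg_distrib, ← Finset.sum_add_distrib]
        refine Finset.sum_congr rfl fun l hl => ?_
        have hlK : l ≤ K := by have := Finset.mem_range.1 hl; omega
        have hl' : l ≤ (Mth n K d m β N s θ).K := hlK
        have e2 : fb n K N d β s R l = fun x x' =>
            (-1 : ℝ) * hh (Sum.elim (rlv d) (rlv d)) (bal n K N β s) (fun _ _ => 0) l x x' +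
            (fun _ _ => if d ≤ l then β ^ 2 / 2 * ((N * R l ^ 2 - 1) / ((N + 1 : ℕ) : ℝ))
              else 0) x x' := by
          funext x x'
          unfold fb
          ring
        rw [e2, hReg.pairEx_add hl' (fun x x' => (-1 : ℝ) *
            hh (Sum.elim (rlv d) (rlv d)) (bal n K N β s) (fun _ _ => 0) l x x')
            (fun _ _ => if d ≤ l then β ^ 2 / 2 * ((N * R l ^ 2 - 1) / ((N + 1 : ℕ) : ℝ))
              else 0), hReg.pairEx_const_mul, hReg.pairEx_const hl']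
        ring
      have h10 : ∑ l ∈ Finset.range (K + 1), (m (l + 1) - m l) *
            (Mth n K d m β N s θ).pairEx l (fun x x' =>
              cv (Sum.elim (rlv d) (rlv d)) l (bal n K N β s) (bal n K N β s) x x' -
              cv (Sum.elim (rlv d) (rlv d)) l (fun (_ : Fin n → Bool) (_ : RI n K ⊕ RI n K) =>
                (0 : ℝ)) (fun _ _ => 0) x x') =
          ∑ l ∈ Finset.range (K + 1), (m (l + 1) - m l) *
            (Mth n K d m β N s θ).pairEx l
              (hh (Sum.elim (rlv d) (rlv d)) (bal n K N β s) (fun _ _ => 0) l) := rfl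
      rw [h10]
      have h8 : β ^ 2 / 2 * ((N - 1) / ((N + 1 : ℕ) : ℝ)) - (β ^ 2 / 2 * t * Q -
          β ^ 2 / 2 / ((N + 1 : ℕ) : ℝ)) = β ^ 2 / 2 * t * (1 - Q) := by
        rw [ht]
        ring
      have h9 : β ^ 2 / 2 * t * (1 - Q) ≤ β ^ 2 / 2 * (1 - Q) := by
        refine mul_le_mul_of_nonneg_right ?_ (by linarith)
        exact mul_le_of_le_one_right (by positivity) ht1
      rw [h7] at h5
      linarith)
  have e3 : (ls (Sum.elim (rlv d) (rlv d)) K m (lc n) (ba n K N β s + bal n K N β s)) =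
      rS (SN n K d m β N s) (cc N) (ss N) := by
    rw [← Mth_half h0]
    unfold Mth Lth
    rw [ith_half']
  have e4 : (ls (Sum.elim (rlv d) (rlv d)) K m (lc n) (ba n K N β s + fun _ _ => 0)) =
      rS (SC n K d m β N s) (fun _ => 1) (fun _ => 0) := by
    rw [← Mth_zero]
    unfold Mth Lth
    congr 1
    funext x e
    show ba n K N β s x e + 0 = ba n K N β s x e + (Real.sin 0 * _ + Real.cos 0 * 0)
    rw [Real.sin_zero]
    ring
  rw [e3, e4, rS_fe hSN cc_ss, rS_fe hSC one_zero_sq] at h2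
  have h3 : (SN n K d m β N s).fe = AN n K d m β N s := rfl
  rw [h3] at h2
  linarith

end Vale.Agent.P146.H784
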