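import Vale.Agent.P146.H784.Cav1
import Vale.Agent.P146.H784.Cav3
import Vale.Agent.P146.R3.H49.Gdev

set_option linter.all false

/-!
**The cavity step with the quadratic error.**
-/

open MeasureTheory ProbabilityTheory Filter Topology

namespace Vale.Agent.P146.H784

open Vale.Agent.P157 Vale.Agent.P157.Lv Vale.Agent.P157.Lv.Sy Vale.Agent.P157.Lv.Fld
open Vale.Agent.P157.Par (Path Exponents incr spinPart)
open Vale.Agent.P146 (Pair)
open Vale.Agent.P146.Sk (PSK)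
open Vale.Agent.P146.Ub Vale.Agent.P146.Ub.Ld Vale.Agent.P146.Ub.Ld.H501
open Vale.Agent.P146.R3.H501.Tr

variable {n K N d : ℕ} {m s R : ℕ → ℝ} {β θ : ℝ}

theorem SC_fld (hd : d ≤ K) (hN : N ≤ n) (h0 : 0 < N) (hm : Exponents K m)
    (hs : ∀ l ≤ K, 0 ≤ s l) :
    Fld (SC n K d m β N s) (fun e _ x => sc β N s x e) (ph hN) (zc hN) s := by
  refine r_fld hd hN h0 hm hs (lc n) fun x p hp => ?_
  show dsk N (β / √((N + 1 : ℕ) : ℝ)) x (Sum.inr (Sum.inl p)) + fd N s x (Sum.inr (Sum.inl p)) = _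
  rw [dsk_b, fd_b, if_pos hp, zero_add]

/-- the quadratic deviation of the overlap at the stage `N`, level `l` -/
noncomputable def dv (n K d : ℕ) (m : ℕ → ℝ) (β : ℝ) {N : ℕ} (hN : N ≤ n) (s : ℕ → ℝ) (l : ℕ) :
    ℝ := (SN n K d m β N s).pairEx l (fun x x' =>
      (Rov (ph hN) x x' - (SN n K d m β N s).Rl (ph hN) l) ^ 2)

lemma dv_nonneg (hd : d ≤ K) (hN : N ≤ n) (hm : Exponents K m) {l : ℕ} (hl : l ≤ K) :
    0 ≤ dv n K d m β hN s l := by
  have hSN : (SN n K d m β N s).Reg := rs_reg hd hm _ _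
  exact hSN.pairEx_nonneg (show l ≤ (SN n K d m β N s).K from hl) fun _ _ => sq_nonneg _

/-- the deviations in the systems of the tree interpolation -/
lemma ST_dev (hd : d ≤ K) (hN : N < n) (h0 : 0 < N) (hm : Exponents K m) (hR : Path K R)
    (hR1 : R K ≤ 1)
    (hRge : ∀ l, d ≤ l → l ≤ K → R l = (SC n K d m β N s).pairEx l (Rov (ph hN.le)))
    (θ : ℝ) {l : ℕ} (hdl : d ≤ l) (hl : l ≤ K) :
    (ST n K d m β N s R θ).pairEx l (fun x x' => (Rov (ph hN.le) x x' - R l) ^ 2) ≤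
      Real.exp (3 * β ^ 2) * dv n K d m β hN.le s l := by
  have hSC : (SC n K d m β N s).Reg := rs_reg hd hm _ _
  have hl' : l ≤ (SC n K d m β N s).K := hl
  have h1 := ST_pair_le (β := β) (s := s) hd hN hm hR hR1 θ hl
    (ψ := fun x x' => (Rov (ph hN.le) x x' - R l) ^ 2) fun _ _ => sq_nonneg _
  have h2 := pair_min hSC hl' (Rov (ph hN.le)) ((SN n K d m β N s).Rl (ph hN.le) l)
  rw [← hRge l hdl hl] at h2
  have h3 := SC_pair_le (β := β) (s := s) hd hN.le h0 hm hl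
    (ψ := fun x x' => (Rov (ph hN.le) x x' - (SN n K d m β N s).Rl (ph hN.le) l) ^ 2)
    fun _ _ => sq_nonneg _
  have h4 := h1.trans (mul_le_mul_of_nonneg_left (h2.trans h3) (Real.exp_pos (2 * β ^ 2)).le)
  rw [← mul_assoc, ← Real.exp_add] at h4
  have e : 2 * β ^ 2 + β ^ 2 = 3 * β ^ 2 := by ring
  rw [e] at h4
  exact h4

/-- the deviations in the systems of the change of temperature -/
lemma Mth_dev (hd : d ≤ K) (hN : N ≤ n) (h0 : 0 < N) (hm : Exponents K m)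
    (hs : ∀ l ≤ K, 0 ≤ s l)
    (hRge : ∀ l, d ≤ l → l ≤ K → R l = (SC n K d m β N s).pairEx l (Rov (ph hN)))
    {θ : ℝ} (hθ0 : 0 ≤ θ) (hθ1 : θ ≤ Real.pi / 2) {l : ℕ} (hdl : d ≤ l) (hl : l ≤ K) :
    (Mth n K d m β N s θ).pairEx l (fun x x' => (Rov (ph hN) x x' - R l) ^ 2) ≤
      4 * Real.exp (3 * β ^ 2) * dv n K d m β hN s l := by
  have hSC : (SC n K d m β N s).Reg := rs_reg hd hm _ _
  have hSN : (SN n K d m β N s).Reg := rs_reg hd hm _ _
  have hl' : l ≤ (SC n K d m β N s).K := hl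
  have hl'' : l ≤ (SN n K d m β N s).K := hl
  have F := SN_fld (β := β) hd hN h0 hm hs
  obtain ⟨q, hq⟩ : ∃ q, q = (SN n K d m β N s).Rl (ph hN) l := ⟨_, rfl⟩
  have hq' : q = (SN n K d m β N s).pairEx l (Rov (ph hN)) := by rw [hq]; exact F.Rl_eq_pairEx hl''
  obtain ⟨v, hv⟩ : ∃ v, v = dv n K d m β hN s l := ⟨_, rfl⟩
  have hv0 : 0 ≤ v := by rw [hv]; exact dv_nonneg hd hN hm hl
  have hv' : v = (SN n K d m β N s).pairEx l (fun x x' => (Rov (ph hN) x x' - q) ^ 2) := by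
    rw [hv, hq]; rfl
  have h1 := Mth_pair_le (β := β) (s := s) hd hN h0 hm hl hθ0 hθ1
    (ψ := fun x x' => (Rov (ph hN) x x' - R l) ^ 2) fun _ _ => sq_nonneg _
  have h2 : (SN n K d m β N s).pairEx l (fun x x' => (Rov (ph hN) x x' - R l) ^ 2) =
      v + (q - R l) ^ 2 := by
    rw [hv', pair_sq_expand hSN hl'', pair_sq_expand hSN hl'', ← hq']
    ring
  have h3 := mean_sub_sq hSC hl' (Rov (ph hN)) q
  rw [← hRge l hdl hl] at h3
  have h4 := SC_pair_le (β := β) (s := s) hd hN h0 hm hl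
    (ψ := fun x x' => (Rov (ph hN) x x' - q) ^ 2) fun _ _ => sq_nonneg _
  rw [← hv'] at h4
  have h5 : (q - R l) ^ 2 ≤ Real.exp (β ^ 2) * v := by
    have e : (q - R l) ^ 2 = (R l - q) ^ 2 := by ring
    rw [e]
    exact h3.trans h4
  rw [h2] at h1
  have hx : 1 ≤ Real.exp (β ^ 2) := Real.one_le_exp (sq_nonneg β)
  obtain ⟨x, hxd⟩ : ∃ x, x = Real.exp (β ^ 2) := ⟨_, rfl⟩
  rw [← hxd] at h1 h5 hx
  have e3 : Real.exp (3 * β ^ 2) = x ^ 3 := by
    rw [hxd, ← Real.exp_nat_mul]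
    push_cast
    ring_nf
  rw [e3, ← hv]
  have h6 : x * (v + (q - R l) ^ 2) ≤ x * (v + x * v) :=
    mul_le_mul_of_nonneg_left (by linarith) (by linarith)
  have h7 : x * (v + x * v) ≤ 4 * x ^ 3 * v := by
    have a1 : x ≤ x ^ 3 := by nlinarith [sq_nonneg (x - 1), mul_nonneg (by linarith : 0 ≤ x) (by linarith : 0 ≤ x - 1)]
    have a2 : x ^ 2 ≤ x ^ 3 := by nlinarith [mul_nonneg (sq_nonneg x) (by linarith : 0 ≤ x - 1)]
    have a3 := mul_le_mul_of_nonneg_right a1 hv0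
    have a4 := mul_le_mul_of_nonneg_right a2 hv0
    have a5 : 0 ≤ x ^ 3 * v := by positivity
    nlinarith
  exact h1.trans (h6.trans h7)

/-- a sum over the levels at least `d` -/
lemma sum_dev (hm : Exponents K m) {A V : ℕ → ℝ} {c : ℝ}
    (h0 : ∀ l, l < d → A l = 0) (h1 : ∀ l, d ≤ l → l ≤ K → A l ≤ c * V l) :
    ∑ l ∈ Finset.range (K + 1), (m (l + 1) - m l) * A l ≤
      c * ∑ l ∈ Finset.Ico d (K + 1), (m (l + 1) - m l) * V l := by
  have f1 : (Finset.range (K + 1)).filter (fun l => d ≤ l) = Finset.Ico d (K + 1) := by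
    ext l
    simp only [Finset.mem_filter, Finset.mem_range, Finset.mem_Ico]
    omega
  rw [← f1, Finset.mul_sum, Finset.sum_filter]
  refine Finset.sum_le_sum fun l hl => ?_
  have hlK : l ≤ K := by have := Finset.mem_range.1 hl; omega
  have hp := rs_p_nonneg hm hl
  split_ifs with h
  · have h2 := mul_le_mul_of_nonneg_left (h1 l h hlK) hp
    linarith
  · rw [h0 l (not_le.1 h), mul_zero]

/-- the constant of the step -/
noncomputable def Cq (β : ℝ) : ℝ := β ^ 2 + 64 * β ^ 4 + 192 * β ^ 4 * Real.exp (3 * β ^ 2)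

lemma Cq_nonneg (β : ℝ) : 0 ≤ Cq β := by unfold Cq; positivity

/-- **The cavity step with the quadratic error.** -/
theorem qstep (hd : d ≤ K) (hN : N < n) (h0 : 0 < N) (hm : Exponents K m) (hβ : 0 ≤ β)
    (hs : ∀ l ≤ K, 0 ≤ s l) :
    PSK β K m (ct d ((SC n K d m β N s).Rl (ph hN.le))) ≤
      AN n K d m β (N + 1) s - AN n K d m β N s + Cq β / N +
        Cq β * ∑ l ∈ Finset.Ico d (K + 1), (m (l + 1) - m l) * dv n K d m β hN.le s l := by
  have hN0 : (0 : ℝ) < N := by exact_mod_cast h0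
  have F := SC_fld (β := β) hd hN.le h0 hm hs
  obtain ⟨R, hRd⟩ : ∃ R, R = ct d ((SC n K d m β N s).Rl (ph hN.le)) := ⟨_, rfl⟩
  have hP0 : Path K ((SC n K d m β N s).Rl (ph hN.le)) :=
    ⟨F.Rl_nonneg (Nat.zero_le _), fun l hl => Vale.Agent.P146.R3.H49.Lev.Rl_mono F hl⟩
  have hR : Path K R := by rw [hRd]; exact ct_path hP0
  have hRlt : ∀ l, l < d → R l = 0 := fun l hl => by rw [hRd, ct_lt hl]
  have hRge : ∀ l, d ≤ l → l ≤ K → R l = (SC n K d m β N s).pairEx l (Rov (ph hN.le)) :=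
    fun l hl hlK => by rw [hRd, ct_ge hl]; exact F.Rl_eq_pairEx hlK
  have hR01 : ∀ l, l ≤ K → 0 ≤ R l ∧ R l ≤ 1 := by
    intro l hl
    rcases lt_or_ge l d with h | h
    · rw [hRlt l h]; exact ⟨le_rfl, zero_le_one⟩
    · rw [hRd, ct_ge h]
      exact ⟨F.Rl_nonneg hl, F.Rl_le_one hl⟩
  have hRa : ∀ l, l ≤ K → |R l| ≤ 1 := fun l hl => by
    rw [abs_of_nonneg (hR01 l hl).1]; exact (hR01 l hl).2
  obtain ⟨V, hV⟩ : ∃ V, V = ∑ l ∈ Finset.Ico d (K + 1), (m (l + 1) - m l) *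
    dv n K d m β hN.le s l := ⟨_, rfl⟩
  have hST : ∀ θ, (ST n K d m β N s R θ).Reg := fun θ => rs_reg hd hm _ _
  have hlev := lev2_le (rlv_le (n := n) (K := K) hd)
  have hM : ∀ θ, (Mth n K d m β N s θ).Reg := fun θ => Lth_reg hm hlev _ _ _ _ _
  have h1 := tree_part (s := s) hd hN h0 hm hβ hR hRlt hRge (V := Real.exp (3 * β ^ 2) * V)
    (fun θ => by
      rw [hV]
      refine sum_dev hm (V := dv n K d m β hN.le s) (A := fun l =>
        (ST n K d m β N s R θ).pairEx l (fun x x' =>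
        if d ≤ l then (Rov (ph hN.le) x x' - R l) ^ 2 else 0)) (fun l hl => ?_)
        (fun l hl hlK => ?_)
      · simp only [if_neg (not_le.2 hl)]
        by_cases hlK : l ≤ K
        · exact (hST θ).pairEx_const (show l ≤ (ST n K d m β N s R θ).K from hlK) 0
        · omega
      · simp only [if_pos hl]
        exact ST_dev hd hN h0 hm hR (hR01 K le_rfl).2 hRge θ hl hlK)
  have h2 := sc_part (s := s) (β := β) hd hN.le h0 hm hRge hRlt hRa
    (V := 4 * Real.exp (3 * β ^ 2) * V)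
    (fun θ hθ0 hθ1 => by
      rw [hV]
      refine sum_dev hm (V := dv n K d m β hN.le s) (A := fun l =>
        (Mth n K d m β N s θ).pairEx l (fun x x' =>
        if d ≤ l then (Rov (ph hN.le) x x' - R l) ^ 2 else 0)) (fun l hl => ?_)
        (fun l hl hlK => ?_)
      · simp only [if_neg (not_le.2 hl)]
        exact (hM θ).pairEx_const (show l ≤ (Mth n K d m β N s θ).K from by
          show l ≤ K
          omega) 0
      · simp only [if_pos hl]
        exact Mth_dev hd hN.le h0 hm hs hRge hθ0 hθ1 hl hlK)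
  rw [← hRd, ← hV]
  unfold PSK
  obtain ⟨Q, hQ⟩ : ∃ Q, Q = ∑ l ∈ Finset.range (K + 1), (m (l + 1) - m l) * R l ^ 2 := ⟨_, rfl⟩
  rw [← hQ] at h2 ⊢
  have hNN : (N : ℝ) ≤ ((N + 1 : ℕ) : ℝ) := by push_cast; linarith
  have h3 : 1 / ((N + 1 : ℕ) : ℝ) ≤ 1 / N := one_div_le_one_div_of_le hN0 hNN
  have h4 : 1 / ((N + 1 : ℕ) : ℝ) ^ 2 ≤ 1 / N := by
    refine one_div_le_one_div_of_le hN0 ?_
    push_cast
    nlinarith
  have h5 : β ^ 2 / ((N + 1 : ℕ) : ℝ) / 2 + 32 * (2 * β ^ 4 / ((N + 1 : ℕ) : ℝ) ^ 2) ≤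
      (β ^ 2 + 64 * β ^ 4) / N := by
    have a1 := mul_le_mul_of_nonneg_left h3 (show 0 ≤ β ^ 2 / 2 by positivity)
    have a2 := mul_le_mul_of_nonneg_left h4 (show 0 ≤ 64 * β ^ 4 by positivity)
    have a3 : β ^ 2 / 2 * (1 / N) ≤ β ^ 2 * (1 / N) := by
      refine mul_le_mul_of_nonneg_right ?_ (by positivity)
      linarith [sq_nonneg β]
    have e1 : β ^ 2 / ((N + 1 : ℕ) : ℝ) / 2 = β ^ 2 / 2 * (1 / ((N + 1 : ℕ) : ℝ)) := by ring
    have e2 : 32 * (2 * β ^ 4 / ((N + 1 : ℕ) : ℝ) ^ 2) =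
      64 * β ^ 4 * (1 / ((N + 1 : ℕ) : ℝ) ^ 2) := by ring
    have e3 : (β ^ 2 + 64 * β ^ 4) / N = β ^ 2 * (1 / N) + 64 * β ^ 4 * (1 / N) := by ring
    rw [e1, e2, e3]
    linarith
  have hV0 : 0 ≤ V := by
    rw [hV]
    refine Finset.sum_nonneg fun l hl => ?_
    have h6 := Finset.mem_Ico.1 hl
    exact mul_nonneg (rs_p_nonneg hm (Finset.mem_range.2 h6.2)) (dv_nonneg hd hN.le hm (by omega))
  have h6 : (β ^ 2 + 64 * β ^ 4) / N ≤ Cq β / N := by
    refine div_le_div_of_nonneg_right ?_ hN0.le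
    unfold Cq
    have : 0 ≤ 192 * β ^ 4 * Real.exp (3 * β ^ 2) := by positivity
    linarith
  have h7 : 192 * β ^ 4 * Real.exp (3 * β ^ 2) * V ≤ Cq β * V := by
    refine mul_le_mul_of_nonneg_right ?_ hV0
    unfold Cq
    have : 0 ≤ β ^ 2 + 64 * β ^ 4 := by positivity
    linarith
  have e8 : 32 * (2 * β ^ 4 * (Real.exp (3 * β ^ 2) * V) +
      2 * β ^ 4 / ((N + 1 : ℕ) : ℝ) ^ 2) + 32 * (β ^ 4 * (4 * Real.exp (3 * β ^ 2) * V)) =
      192 * β ^ 4 * Real.exp (3 * β ^ 2) * V + 32 * (2 * β ^ 4 / ((N + 1 : ℕ) : ℝ) ^ 2) := by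
    ring
  linarith

/-- **(Q)** The cavity step with the quadratic error, existential form. -/
theorem qstep_ex (hd : d ≤ K) (hN : N + 1 ≤ n) (h0 : 0 < N) (hm : Exponents K m) (hβ : 0 ≤ β)
    (hs : ∀ l ≤ K, 0 ≤ s l) :
    ∃ R : ℕ → ℝ, Path K R ∧ R K ≤ 1 ∧ (∀ l < d, R l = 0) ∧
      PSK β K m R ≤ AN n K d m β (N + 1) s - AN n K d m β N s + Cq β / N +
        Cq β * ∑ l ∈ Finset.Ico d (K + 1), (m (l + 1) - m l) *
          (SN n K d m β N s).pairEx l (fun x x' => (Rov (ph (Nat.le_of_succ_le hN)) x x' -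
            (SN n K d m β N s).Rl (ph (Nat.le_of_succ_le hN)) l) ^ 2) := by
  have hN' : N < n := hN
  have F := SC_fld (β := β) hd hN'.le h0 hm hs
  have hP0 : Path K ((SC n K d m β N s).Rl (ph hN'.le)) :=
    ⟨F.Rl_nonneg (Nat.zero_le _), fun l hl => Vale.Agent.P146.R3.H49.Lev.Rl_mono F hl⟩
  refine ⟨ct d ((SC n K d m β N s).Rl (ph hN'.le)), ct_path hP0, ?_, fun l hl => ct_lt hl _,
    qstep hd hN' h0 hm hβ hs⟩
  rw [ct_ge hd]
  exact F.Rl_le_one (show K ≤ (SC n K d m β N s).K from le_rfl)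

end Vale.Agent.P146.H784
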