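import Vale.Agent.P146.H784.TreeEnd

set_option linter.all false

/-!
The cavity step with the quadratic error, the tree part.
-/

open MeasureTheory ProbabilityTheory Filter Topology

namespace Vale.Agent.P146.H784

open Vale.Agent.P157 Vale.Agent.P157.Lv Vale.Agent.P157.Lv.Sy Vale.Agent.P157.Lv.Fld
open Vale.Agent.P157.Par (Path Exponents incr spinPart)
open Vale.Agent.P146 (Pair)
open Vale.Agent.P146.Ub Vale.Agent.P146.Ub.Ld Vale.Agent.P146.Ub.Ld.H501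
open Vale.Agent.P146.R3.H501.Tr

variable {n K N d : ℕ} {m s R : ℕ → ℝ} {β θ : ℝ}

lemma sp_sq1 (hN : N < n) (x : Fin n → Bool) : Ub.sp N x ^ 2 = 1 := Ub.sp_sq hN x

/-- the covariance difference of the tree and the cavity field -/
lemma hh_tc (hN : N < n) (hR : Path K R) (hRlt : ∀ l, l < d → R l = 0) {l : ℕ} (hl : l ≤ K)
    (x x' : Fin n → Bool) :
    hh (rlv d) (tre (K := K) N β R) (cav N (β / √((N + 1 : ℕ) : ℝ))) l x x' =
      if d ≤ l then Ub.sp N x * Ub.sp N x' * (β ^ 2 * R l -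
        (β ^ 2 - β ^ 2 / ((N + 1 : ℕ) : ℝ)) * Rov (ph hN.le) x x') else 0 := by
  have hN1 : (0 : ℝ) < ((N + 1 : ℕ) : ℝ) := by positivity
  have hγN : (β / √((N + 1 : ℕ) : ℝ)) ^ 2 * N = β ^ 2 - β ^ 2 / ((N + 1 : ℕ) : ℝ) := by
    rw [div_pow, Real.sq_sqrt hN1.le]
    field_simp
    push_cast
    ring
  unfold hh
  rcases lt_or_ge l d with h | h
  · rw [if_neg (not_le.2 h), cv_tre' hN hl β hR, cv_cav_lt h, hRlt l h]
    ring
  · rw [if_pos h, cv_tre' hN hl β hR, cv_cav_ge hN h, ← hγN]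
    ring

lemma dg_tc (hN : N < n) (hR : Path K R) (x : Fin n → Bool) :
    dg (tre (K := K) N β R) (cav N (β / √((N + 1 : ℕ) : ℝ))) x =
      β ^ 2 * R K - (β ^ 2 - β ^ 2 / ((N + 1 : ℕ) : ℝ)) := by
  have hN1 : (0 : ℝ) < ((N + 1 : ℕ) : ℝ) := by positivity
  have hγN : (β / √((N + 1 : ℕ) : ℝ)) ^ 2 * N = β ^ 2 - β ^ 2 / ((N + 1 : ℕ) : ℝ) := by
    rw [div_pow, Real.sq_sqrt hN1.le]
    field_simp
    push_cast
    ring
  unfold dg
  rw [Finset.sum_sub_distrib, sum_tre hN β hR, sum_cav hN, hγN]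

/-- the square of the covariance difference -/
lemma hh_tc_sq (hN : N < n) (h0 : 0 < N) (hR : Path K R) (hRlt : ∀ l, l < d → R l = 0) {l : ℕ}
    (hl : l ≤ K) (x x' : Fin n → Bool) :
    hh (rlv d) (tre (K := K) N β R) (cav N (β / √((N + 1 : ℕ) : ℝ))) l x x' ^ 2 ≤
      2 * β ^ 4 * (if d ≤ l then (Rov (ph hN.le) x x' - R l) ^ 2 else 0) +
        2 * β ^ 4 / ((N + 1 : ℕ) : ℝ) ^ 2 := by
  have hN1 : (0 : ℝ) < ((N + 1 : ℕ) : ℝ) := by positivity
  rw [hh_tc hN hR hRlt hl]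
  have hp : 0 ≤ 2 * β ^ 4 / ((N + 1 : ℕ) : ℝ) ^ 2 := by positivity
  split_ifs with h
  · have h1 := sp_sq1 hN x
    have h2 := sp_sq1 hN x'
    have h3 := rs_abs_Rov hN.le h0 x x'
    obtain ⟨ρ, hρ⟩ : ∃ ρ, ρ = Rov (ph hN.le) x x' := ⟨_, rfl⟩
    obtain ⟨ν, hν⟩ : ∃ ν, ν = β ^ 2 / ((N + 1 : ℕ) : ℝ) := ⟨_, rfl⟩
    rw [← hρ] at h3 ⊢
    rw [← hν]
    have h4 : ρ ^ 2 ≤ 1 := by rw [← sq_abs]; exact pow_le_one₀ (abs_nonneg _) h3
    have e1 : (Ub.sp N x * Ub.sp N x' * (β ^ 2 * R l - (β ^ 2 - ν) * ρ)) ^ 2 =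
        Ub.sp N x ^ 2 * Ub.sp N x' ^ 2 * (β ^ 2 * R l - (β ^ 2 - ν) * ρ) ^ 2 := by ring
    have e2 : 2 * β ^ 4 / ((N + 1 : ℕ) : ℝ) ^ 2 = 2 * ν ^ 2 := by
      rw [hν, div_pow]; ring
    rw [e1, h1, h2, e2]
    have e3 : β ^ 2 * R l - (β ^ 2 - ν) * ρ = -(β ^ 2 * (ρ - R l)) + ν * ρ := by ring
    rw [e3]
    have h5 : ν ^ 2 * ρ ^ 2 ≤ ν ^ 2 := mul_le_of_le_one_right (sq_nonneg _) h4
    nlinarith [sq_nonneg (-(β ^ 2 * (ρ - R l)) - ν * ρ)]
  · rw [mul_zero, zero_add]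
    have : (0 : ℝ) ^ 2 = 0 := by norm_num
    rw [this]
    exact hp

/-- the squares along the interpolation -/
lemma tc_sq (hd : d ≤ K) (hN : N < n) (h0 : 0 < N) (hm : Exponents K m)
    (hR : Path K R) (hRlt : ∀ l, l < d → R l = 0) {V : ℝ} (θ : ℝ)
    (hV : ∑ l ∈ Finset.range (K + 1), (m (l + 1) - m l) *
      (ST n K d m β N s R θ).pairEx l (fun x x' =>
        if d ≤ l then (Rov (ph hN.le) x x' - R l) ^ 2 else 0) ≤ V) :
    ∑ l ∈ Finset.range (K + 1), (m (l + 1) - m l) *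
      (Lth (rlv d) K m (lc n) (sc (n := n) (K := K) β N s) (tre N β R)
        (cav N (β / √((N + 1 : ℕ) : ℝ))) θ).pairEx l (fun x x' =>
        hh (rlv d) (tre (K := K) N β R) (cav N (β / √((N + 1 : ℕ) : ℝ))) l x x' ^ 2) ≤
      2 * β ^ 4 * V + 2 * β ^ 4 / ((N + 1 : ℕ) : ℝ) ^ 2 := by
  have hsum := rs_sum_p hm
  have eS : Lth (rlv d) K m (lc n) (sc (n := n) (K := K) β N s) (tre N β R)
      (cav N (β / √((N + 1 : ℕ) : ℝ))) θ = ST n K d m β N s R θ := rfl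
  rw [eS]
  have hReg : (ST n K d m β N s R θ).Reg := rs_reg hd hm _ _
  have h2 : ∀ l ∈ Finset.range (K + 1), (m (l + 1) - m l) *
      (ST n K d m β N s R θ).pairEx l (fun x x' =>
      hh (rlv d) (tre (K := K) N β R) (cav N (β / √((N + 1 : ℕ) : ℝ))) l x x' ^ 2) ≤
      2 * β ^ 4 * ((m (l + 1) - m l) * (ST n K d m β N s R θ).pairEx l (fun x x' =>
        if d ≤ l then (Rov (ph hN.le) x x' - R l) ^ 2 else 0)) +
        2 * β ^ 4 / ((N + 1 : ℕ) : ℝ) ^ 2 * (m (l + 1) - m l) := by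
    intro l hl
    have hlK : l ≤ K := by have := Finset.mem_range.1 hl; omega
    have hl' : l ≤ (ST n K d m β N s R θ).K := hlK
    have hp := rs_p_nonneg hm hl
    have h3 := hReg.pairEx_mono hl' (fun x x' => hh_tc_sq (β := β) hN h0 hR hRlt hlK x x')
    rw [hReg.pairEx_add hl' (fun x x' => 2 * β ^ 4 *
        (if d ≤ l then (Rov (ph hN.le) x x' - R l) ^ 2 else 0))
        (fun _ _ => 2 * β ^ 4 / ((N + 1 : ℕ) : ℝ) ^ 2), hReg.pairEx_const_mul,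
      hReg.pairEx_const hl'] at h3
    have h4 := mul_le_mul_of_nonneg_left h3 hp
    linarith
  refine (Finset.sum_le_sum h2).trans ?_
  rw [Finset.sum_add_distrib, ← Finset.mul_sum, ← Finset.mul_sum, hsum, mul_one]
  have h5 := mul_le_mul_of_nonneg_left hV (show 0 ≤ 2 * β ^ 4 by positivity)
  linarith

/-- mean overlaps are nonnegative -/
lemma rov_nonneg {c : ℝ} {a : (Fin n → Bool) → RI n K → ℝ} (hd : d ≤ K) (hN : N ≤ n)
    (hm : Exponents K m) {l : ℕ} (hl : l ≤ K) :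
    0 ≤ (ls (rlv d) K m c a).pairEx l (Rov (ph hN)) := by
  have hSC : (ls (rlv d) K m c a).Reg := rs_reg hd hm _ _
  have hl' : l ≤ (ls (rlv d) K m c a).K := hl
  have e5 : (Rov (ph hN) : (Fin n → Bool) → (Fin n → Bool) → ℝ) = fun x x' =>
      ∑ i : Fin N, (1 / N : ℝ) * (ph hN x i * ph hN x' i) := by
    funext x x'
    unfold Rov
    rw [Finset.mul_sum]
  rw [e5, pairEx_sum hSC hl']
  refine Finset.sum_nonneg fun i _ => ?_
  rw [hSC.pairEx_const_mul, pairEx_prod hSC hl']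
  refine mul_nonneg (by positivity) ?_
  have hT := hSC.eg_T hl' (Nh.snd (fun x => ph hN x i))
  have h5 := hSC.Ex_mono (f := fun _ _ => (0 : ℝ)) (g := fun z _ =>
    (ls (rlv d) K m c a).T l (fun _ x => ph hN x i) z *
    (ls (rlv d) K m c a).T l (fun _ x => ph hN x i) z)
    (fun _ => EG.const 0) (Nh.fst (hT.mul hT)) (fun z _ => mul_self_nonneg _)
  rw [hSC.Ex_const] at h5
  exact h5

/-- the tree end, the sign -/
lemma tc_end (hd : d ≤ K) (hN : N < n) (h0 : 0 < N) (hm : Exponents K m)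
    (hR : Path K R) (hRlt : ∀ l, l < d → R l = 0)
    (hRge : ∀ l, d ≤ l → l ≤ K → R l = (SC n K d m β N s).pairEx l (Rov (ph hN.le))) :
    0 ≤ ∑ l ∈ Finset.range (K + 1), (m (l + 1) - m l) *
      (Lth (rlv d) K m (lc n) (sc (n := n) (K := K) β N s) (tre N β R)
        (cav N (β / √((N + 1 : ℕ) : ℝ))) (Real.pi / 2)).pairEx l
        (hh (rlv d) (tre (K := K) N β R) (cav N (β / √((N + 1 : ℕ) : ℝ))) l) := by
  refine Finset.sum_nonneg fun l hl => mul_nonneg (rs_p_nonneg hm hl) ?_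
  have hlK : l ≤ K := by have := Finset.mem_range.1 hl; omega
  have eS : Lth (rlv d) K m (lc n) (sc (n := n) (K := K) β N s) (tre N β R)
      (cav N (β / √((N + 1 : ℕ) : ℝ))) (Real.pi / 2) =
      ls (rlv d) K m (lc n) (sc β N s + tre N β R) := by
    unfold Lth
    rw [ith_half]
  rw [eS]
  rcases lt_or_ge l d with h | h
  · have e1 : hh (rlv d) (tre (n := n) (K := K) N β R) (cav N (β / √((N + 1 : ℕ) : ℝ))) l =
        fun _ _ => 0 := by
      funext x x'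
      rw [hh_tc hN hR hRlt hlK, if_neg (not_le.2 h)]
    have hReg : (ls (rlv d) K m (lc n) (sc β N s + tre N β R) :
      Sy (RI n K) (Fin n → Bool)).Reg := rs_reg hd hm _ _
    rw [e1, hReg.pairEx_const (show l ≤ (ls (rlv d) K m (lc n) (sc β N s + tre N β R) :
      Sy (RI n K) (Fin n → Bool)).K from hlK)]
  · have e1 : hh (rlv d) (tre (n := n) (K := K) N β R) (cav N (β / √((N + 1 : ℕ) : ℝ))) l =
        fun x x' => Ub.sp N x * Ub.sp N x' * (β ^ 2 * R l -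
          (β ^ 2 - β ^ 2 / ((N + 1 : ℕ) : ℝ)) * Rov (ph hN.le) x x') := by
      funext x x'
      rw [hh_tc hN hR hRlt hlK, if_pos h]
    obtain ⟨c, hc0, hc1, hc⟩ := tree_end (β := β) (s := s) (R := R) hd hN h0 hm (β ^ 2 * R l)
      (β ^ 2 - β ^ 2 / ((N + 1 : ℕ) : ℝ)) hlK
    rw [e1, hc, ← hRge l h hlK]
    have hRl : 0 ≤ R l := by
      rw [hRge l h hlK]
      exact rov_nonneg hd hN.le hm hlK
    have e2 : β ^ 2 * R l - (β ^ 2 - β ^ 2 / ((N + 1 : ℕ) : ℝ)) * R l =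
        β ^ 2 / ((N + 1 : ℕ) : ℝ) * R l := by ring
    rw [e2]
    positivity

/-- the change of the pair averages -/
lemma tc_chg (hd : d ≤ K) (hN : N < n) (h0 : 0 < N) (hm : Exponents K m)
    (hR : Path K R) (hRlt : ∀ l, l < d → R l = 0) {V : ℝ}
    (hV : ∀ θ, ∑ l ∈ Finset.range (K + 1), (m (l + 1) - m l) *
      (ST n K d m β N s R θ).pairEx l (fun x x' =>
        if d ≤ l then (Rov (ph hN.le) x x' - R l) ^ 2 else 0) ≤ V)
    {θ : ℝ} (hθ0 : 0 ≤ θ) (hθ1 : θ ≤ Real.pi / 2) :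
    ∑ l ∈ Finset.range (K + 1), (m (l + 1) - m l) *
      (Lth (rlv d) K m (lc n) (sc (n := n) (K := K) β N s) (tre N β R)
        (cav N (β / √((N + 1 : ℕ) : ℝ))) (Real.pi / 2)).pairEx l
        (hh (rlv d) (tre (K := K) N β R) (cav N (β / √((N + 1 : ℕ) : ℝ))) l) -
    ∑ l ∈ Finset.range (K + 1), (m (l + 1) - m l) *
      (Lth (rlv d) K m (lc n) (sc (n := n) (K := K) β N s) (tre N β R)
        (cav N (β / √((N + 1 : ℕ) : ℝ))) θ).pairEx l
        (hh (rlv d) (tre (K := K) N β R) (cav N (β / √((N + 1 : ℕ) : ℝ))) l) ≤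
    64 * (2 * β ^ 4 * V + 2 * β ^ 4 / ((N + 1 : ℕ) : ℝ) ^ 2) := by
  have h3 := avg_change (a := sc (n := n) (K := K) β N s) (α := tre N β R)
    (β := cav N (β / √((N + 1 : ℕ) : ℝ))) hm (rlv_le hd) (lc n) (dj_tre_cav β _)
    (dj_tre_sc β) (dj_cav_sc _) (κ := β ^ 2 * R K - (β ^ 2 - β ^ 2 / ((N + 1 : ℕ) : ℝ)))
    (fun x => dg_tc hN hR x) (fun _ => 0)
    (fun l => hh (rlv d) (tre (K := K) N β R) (cav N (β / √((N + 1 : ℕ) : ℝ))) l)
    (B1 := 2 * β ^ 4 * V + 2 * β ^ 4 / ((N + 1 : ℕ) : ℝ) ^ 2)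
    (B2 := 2 * β ^ 4 * V + 2 * β ^ 4 / ((N + 1 : ℕ) : ℝ) ^ 2)
    (fun θ _ _ => tc_sq hd hN h0 hm hR hRlt θ (hV θ))
    (fun θ _ _ => by
      have e2 : ∀ l ∈ Finset.range (K + 1), (m (l + 1) - m l) *
          vv (rlv d) K m (lc n) (sc (n := n) (K := K) β N s) (tre N β R)
            (cav N (β / √((N + 1 : ℕ) : ℝ))) (fun _ => 0) θ l =
          (m (l + 1) - m l) * (Lth (rlv d) K m (lc n) (sc (n := n) (K := K) β N s)
            (tre N β R) (cav N (β / √((N + 1 : ℕ) : ℝ))) θ).pairEx l (fun x x' =>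
            hh (rlv d) (tre (K := K) N β R) (cav N (β / √((N + 1 : ℕ) : ℝ))) l x x' ^ 2) := by
        intro l _
        unfold vv
        simp only [sub_zero]
      rw [Finset.sum_congr rfl e2]
      exact tc_sq hd hN h0 hm hR hRlt θ (hV θ)) hθ0 hθ1 le_rfl
  refine h3.trans (le_of_eq ?_)
  ring

/-- **The tree part of the step.** -/
theorem tree_part (hd : d ≤ K) (hN : N < n) (h0 : 0 < N) (hm : Exponents K m) (hβ : 0 ≤ β)
    (hR : Path K R) (hRlt : ∀ l, l < d → R l = 0)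
    (hRge : ∀ l, d ≤ l → l ≤ K → R l = (SC n K d m β N s).pairEx l (Rov (ph hN.le))) {V : ℝ}
    (hV : ∀ θ, ∑ l ∈ Finset.range (K + 1), (m (l + 1) - m l) *
      (ST n K d m β N s R θ).pairEx l (fun x x' =>
        if d ≤ l then (Rov (ph hN.le) x x' - R l) ^ 2 else 0) ≤ V) :
    (SC n K d m β N s).fe + spinPart K m (fun l => β ^ 2 * R l) + β ^ 2 / 2 -
      β ^ 2 / ((N + 1 : ℕ) : ℝ) / 2 - 32 * (2 * β ^ 4 * V + 2 * β ^ 4 / ((N + 1 : ℕ) : ℝ) ^ 2) ≤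
      AN n K d m β (N + 1) s := by
  have hN1 : (0 : ℝ) < ((N + 1 : ℕ) : ℝ) := by positivity
  have hNs : N + 1 ≤ n := hN
  have h1 := AN_succ_ge hd hNs hm β s
  have hend := tc_end (β := β) (s := s) hd hN h0 hm hR hRlt hRge
  obtain ⟨B', hB'⟩ : ∃ B', B' = 2 * β ^ 4 * V + 2 * β ^ 4 / ((N + 1 : ℕ) : ℝ) ^ 2 := ⟨_, rfl⟩
  have h2 := ls_interp (X := Fin n → Bool) (a := sc (n := n) (K := K) β N s) (α := tre N β R)
    (β := cav N (β / √((N + 1 : ℕ) : ℝ))) hm (rlv_le hd) (lc n)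
    (B := β ^ 2 * R K - (β ^ 2 - β ^ 2 / ((N + 1 : ℕ) : ℝ)) + 64 * B')
    (dj_tre_cav β _) (dj_tre_sc β) (dj_cav_sc _) (by
      intro θ hθ0 hθ1
      have hReg : (ls (rlv d) K m (lc n) (ith (sc (n := n) (K := K) β N s) (tre N β R)
        (cav N (β / √((N + 1 : ℕ) : ℝ))) θ)).Reg := rs_reg hd hm _ _
      have e1 : (fun (_ : RI n K → ℝ) (x : Fin n → Bool) =>
          ∑ e, (tre (K := K) N β R x e ^ 2 - cav (K := K) N (β / √((N + 1 : ℕ) : ℝ)) x e ^ 2)) =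
          fun _ _ => β ^ 2 * R K - (β ^ 2 - β ^ 2 / ((N + 1 : ℕ) : ℝ)) := by
        funext _ x
        exact dg_tc hN hR x
      rw [e1, hReg.Ex_const]
      have h3 := tc_chg hd hN h0 hm hR hRlt hV hθ0 hθ1
      rw [← hB'] at h3
      have h4 : ∑ l ∈ Finset.range (K + 1), (m (l + 1) - m l) *
          (ls (rlv d) K m (lc n) (ith (sc (n := n) (K := K) β N s) (tre N β R)
            (cav N (β / √((N + 1 : ℕ) : ℝ))) θ)).pairEx l (fun x x' =>
            cv (rlv d) l (tre N β R) (tre N β R) x x' -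
            cv (rlv d) l (cav N (β / √((N + 1 : ℕ) : ℝ)))
              (cav N (β / √((N + 1 : ℕ) : ℝ))) x x') =
          ∑ l ∈ Finset.range (K + 1), (m (l + 1) - m l) *
            (Lth (rlv d) K m (lc n) (sc (n := n) (K := K) β N s) (tre N β R)
              (cav N (β / √((N + 1 : ℕ) : ℝ))) θ).pairEx l
              (hh (rlv d) (tre (K := K) N β R) (cav N (β / √((N + 1 : ℕ) : ℝ))) l) := rfl
      rw [h4]
      linarith)
  have h3 := fe_tre (R := R) hd hN hm hβ hR s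
  rw [h3] at h2
  rw [← hB']
  linarith

end Vale.Agent.P146.H784
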