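import Vale.Agent.P146.H784.Trf2

set_option linter.all false

/-!
The cavity step with the quadratic error: the change of the temperature.
-/

open MeasureTheory ProbabilityTheory Filter Topology

namespace Vale.Agent.P146.H784

open Vale.Agent.P157 Vale.Agent.P157.Lv Vale.Agent.P157.Lv.Sy Vale.Agent.P157.Lv.Fld
open Vale.Agent.P157.Par (Path Exponents incr spinPart)
open Vale.Agent.P146 (Pair)
open Vale.Agent.P146.Ub Vale.Agent.P146.Ub.Ld Vale.Agent.P146.Ub.Ld.H501
open Vale.Agent.P146.R3.H501.Tr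

variable {n K N d : ℕ} {m s R : ℕ → ℝ} {β θ : ℝ}

/-- the base coefficients on the doubled coordinates -/
noncomputable def ba (n K N : ℕ) (β : ℝ) (s : ℕ → ℝ) : (Fin n → Bool) → RI n K ⊕ RI n K → ℝ :=
  fun x => Sum.elim (sc β N s x) (fun _ => 0)

/-- the added coefficients -/
noncomputable def bal (n K N : ℕ) (β : ℝ) (s : ℕ → ℝ) : (Fin n → Bool) → RI n K ⊕ RI n K → ℝ :=
  fun x => Sum.elim (fun _ => 0) (fun e => ss N e * st β N s x e)

/-- the interpolating system of the change of temperature -/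
noncomputable def Mth (n K d : ℕ) (m : ℕ → ℝ) (β : ℝ) (N : ℕ) (s : ℕ → ℝ) (θ : ℝ) :
    Sy (RI n K ⊕ RI n K) (Fin n → Bool) :=
  Lth (Sum.elim (rlv d) (rlv d)) K m (lc n) (ba n K N β s) (bal n K N β s) (fun _ _ => 0) θ

lemma cc_ss (e : RI n K) : cc N e ^ 2 + ss N e ^ 2 = 1 := by
  rcases e with p | p
  · show √((N : ℝ) / ((N + 1 : ℕ) : ℝ)) ^ 2 + √(1 / ((N + 1 : ℕ) : ℝ)) ^ 2 = 1
    rw [Real.sq_sqrt (by positivity), Real.sq_sqrt (by positivity)]
    push_cast
    field_simp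
  · show (1 : ℝ) ^ 2 + 0 ^ 2 = 1
    norm_num

lemma ss_zero (e : RI n K) (h : ss N e = 0) : cc N e = 1 := by
  rcases e with p | p
  · exfalso
    have h3 : 0 < √(1 / ((N + 1 : ℕ) : ℝ)) := Real.sqrt_pos.2 (by positivity)
    exact h3.ne' h
  · rfl

lemma cc_st (h0 : 0 < N) : (fun (x : Fin n → Bool) (e : RI n K) => cc N e * st β N s x e) =
    sc β N s := by
  have hN0 : (0 : ℝ) < N := by exact_mod_cast h0
  funext x e
  rcases e with p | p
  · show √((N : ℝ) / ((N + 1 : ℕ) : ℝ)) * (dsk N (β / √N) x (Sum.inl p) +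
        fd N s x (Sum.inl p)) = dsk N (β / √((N + 1 : ℕ) : ℝ)) x (Sum.inl p) +
        fd N s x (Sum.inl p)
    rw [fd_a, add_zero, add_zero, dsk_a, dsk_a]
    split_ifs
    · rw [Real.sqrt_div hN0.le]
      have h3 : 0 < √(N : ℝ) := Real.sqrt_pos.2 hN0
      field_simp
    · rw [mul_zero]
  · show 1 * (dsk N (β / √N) x (Sum.inr p) + fd N s x (Sum.inr p)) =
      dsk N (β / √((N + 1 : ℕ) : ℝ)) x (Sum.inr p) + fd N s x (Sum.inr p)
    rw [dsk_b, dsk_b, one_mul]

lemma ss_st (x x' : Fin n → Bool) (e : RI n K) :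
    (ss N e * st β N s x e) * (ss N e * st β N s x' e) =
      1 / ((N + 1 : ℕ) : ℝ) * (dsk N (β / √N) x e * dsk N (β / √N) x' e) := by
  rcases e with p | p
  · show (√(1 / ((N + 1 : ℕ) : ℝ)) * (dsk N (β / √N) x (Sum.inl p) +
      fd N s x (Sum.inl p))) * (√(1 / ((N + 1 : ℕ) : ℝ)) * (dsk N (β / √N) x' (Sum.inl p) +
      fd N s x' (Sum.inl p))) = _
    rw [fd_a, fd_a, add_zero, add_zero]
    have h : √(1 / ((N + 1 : ℕ) : ℝ)) * √(1 / ((N + 1 : ℕ) : ℝ)) = 1 / ((N + 1 : ℕ) : ℝ) :=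
      Real.mul_self_sqrt (by positivity)
    linear_combination (dsk N (β / √N) x (Sum.inl p) * dsk N (β / √N) x' (Sum.inl p)) * h
  · show ((0 : ℝ) * _) * (0 * _) = _
    rw [dsk_b]
    ring

lemma beta_sq (h0 : 0 < N) : β / √(N : ℝ) * (β / √(N : ℝ)) = β ^ 2 / N := by
  have hN0 : (0 : ℝ) < N := by exact_mod_cast h0
  rw [div_mul_div_comm, Real.mul_self_sqrt hN0.le]
  ring

/-- the variance of the added disorder -/
lemma sum_ss (hN : N ≤ n) (h0 : 0 < N) (x : Fin n → Bool) :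
    ∑ e : RI n K, (ss N e * st β N s x e) ^ 2 =
      β ^ 2 / 2 * ((N - 1) / ((N + 1 : ℕ) : ℝ)) := by
  have hN0 : (0 : ℝ) < N := by exact_mod_cast h0
  have e1 : ∀ e : RI n K, (ss N e * st β N s x e) ^ 2 =
      1 / ((N + 1 : ℕ) : ℝ) * (dsk N (β / √N) x e * dsk N (β / √N) x e) := fun e => by
    rw [sq, ss_st]
  rw [Finset.sum_congr rfl fun e _ => e1 e, ← Finset.mul_sum, sum_dsk hN, beta_sq h0]
  push_cast
  field_simp

lemma sum_ss_le (hN : N ≤ n) (h0 : 0 < N) (x : Fin n → Bool) :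
    ∑ e : RI n K, (ss N e * st β N s x e) ^ 2 ≤ β ^ 2 / 2 := by
  have hN0 : (0 : ℝ) < N := by exact_mod_cast h0
  rw [sum_ss hN h0]
  have h3 : ((N : ℝ) - 1) / ((N + 1 : ℕ) : ℝ) ≤ 1 := by
    rw [div_le_one (by positivity)]
    push_cast
    linarith
  exact mul_le_of_le_one_right (by positivity) h3

/-! ### Transfers -/

/-- **The decrease of the temperature, pairs.** -/
theorem SC_pair_le (hd : d ≤ K) (hN : N ≤ n) (h0 : 0 < N) (hm : Exponents K m) {l : ℕ}
    (hl : l ≤ K) {ψ : (Fin n → Bool) → (Fin n → Bool) → ℝ} (hψ : ∀ x x', 0 ≤ ψ x x') :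
    (SC n K d m β N s).pairEx l ψ ≤ Real.exp (β ^ 2) * (SN n K d m β N s).pairEx l ψ := by
  have key := pair_rot_le (X := Fin n → Bool) hm (rlv_le (n := n) hd) (lc n) (st β N s)
    (c := cc N) (s := ss N) cc_ss ss_zero (v := β ^ 2 / 2) (sum_ss_le hN h0) hl hψ
  have e2 : 2 * (β ^ 2 / 2) = β ^ 2 := by ring
  rw [cc_st h0, e2] at key
  exact key

lemma Mth_half (h0 : 0 < N) : Mth n K d m β N s (Real.pi / 2) =
    rS (SN n K d m β N s) (cc N) (ss N) := by
  have h := rS_ls (X := Fin n → Bool) (rlv (n := n) (K := K) d) K m (lc n) (st β N s) (cc N)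
    (ss N)
  unfold Ld.SN
  rw [h]
  unfold Mth Lth
  congr 1
  have h2 := cc_st (n := n) (K := K) (β := β) (s := s) h0
  funext x e
  show ba n K N β s x e + (Real.sin (Real.pi / 2) * bal n K N β s x e +
    Real.cos (Real.pi / 2) * 0) = _
  rw [Real.sin_pi_div_two, mul_zero, add_zero, one_mul]
  rcases e with e | e
  · show sc β N s x e + 0 = cc N e * st β N s x e
    rw [add_zero, ← h2]
  · show (0 : ℝ) + ss N e * st β N s x e = ss N e * st β N s x e
    rw [zero_add]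

lemma Mth_zero : Mth n K d m β N s 0 =
    rS (SC n K d m β N s) (fun _ => 1) (fun _ => 0) := by
  have h := rS_ls (X := Fin n → Bool) (rlv (n := n) (K := K) d) K m (lc n) (sc β N s)
    (fun _ => 1) (fun _ => 0)
  unfold Ld.SC
  rw [h]
  unfold Mth Lth
  congr 1
  funext x e
  show ba n K N β s x e + (Real.sin 0 * bal n K N β s x e + Real.cos 0 * 0) = _
  rw [Real.sin_zero, mul_zero, zero_mul, add_zero, add_zero]
  rcases e with e | e
  · show sc β N s x e = 1 * sc β N s x e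
    rw [one_mul]
  · show (0 : ℝ) = 0 * sc β N s x e
    rw [zero_mul]

lemma one_zero_sq (e : RI n K) : (fun _ : RI n K => (1 : ℝ)) e ^ 2 +
    (fun _ : RI n K => (0 : ℝ)) e ^ 2 = 1 := by norm_num

/-- the pair averages of the interpolating system -/
theorem Mth_pair_le (hd : d ≤ K) (hN : N ≤ n) (h0 : 0 < N) (hm : Exponents K m) {l : ℕ}
    (hl : l ≤ K) (hθ0 : 0 ≤ θ) (hθ1 : θ ≤ Real.pi / 2)
    {ψ : (Fin n → Bool) → (Fin n → Bool) → ℝ} (hψ : ∀ x x', 0 ≤ ψ x x') :
    (Mth n K d m β N s θ).pairEx l ψ ≤ Real.exp (β ^ 2) * (SN n K d m β N s).pairEx l ψ := by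
  have hSN : (SN n K d m β N s).Reg := rs_reg hd hm _ _
  have hl' : l ≤ (SN n K d m β N s).K := hl
  have h1 : (Mth n K d m β N s (Real.pi / 2)).pairEx l ψ = (SN n K d m β N s).pairEx l ψ := by
    rw [Mth_half h0]
    exact rS_pairEx hSN cc_ss hl' ψ
  rw [← h1]
  have hcos : Real.cos θ = 0 → Real.sin θ = 1 := by
    intro h
    have h2 := Real.sin_sq_add_cos_sq θ
    rw [h] at h2
    have h3 := Real.sin_nonneg_of_nonneg_of_le_pi hθ0 (by linarith [Real.pi_pos])
    nlinarith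
  have key := pair_rot_le (X := Fin n → Bool) hm (lev2_le (rlv_le (n := n) hd)) (lc n)
    (fun x => Sum.elim (sc β N s x) (fun e => ss N e * st β N s x e))
    (c := Sum.elim (fun _ => 1) (fun _ => Real.sin θ))
    (s := Sum.elim (fun _ => 0) (fun _ => Real.cos θ))
    (by
      rintro (e | e)
      · show (1 : ℝ) ^ 2 + 0 ^ 2 = 1
        norm_num
      · exact Real.sin_sq_add_cos_sq θ)
    (by
      rintro (e | e) h
      · rfl
      · exact hcos h) (v := β ^ 2 / 2)
    (by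
      intro x
      rw [Fintype.sum_sum_type]
      simp only [Sum.elim_inl, Sum.elim_inr, zero_mul]
      have e1 : ∀ e : RI n K, (Real.cos θ * (ss N e * st β N s x e)) ^ 2 =
          Real.cos θ ^ 2 * (ss N e * st β N s x e) ^ 2 := fun e => by ring
      simp only [e1]
      rw [← Finset.mul_sum]
      have h3 := sum_ss_le (K := K) (β := β) (s := s) hN h0 x
      have h4 : Real.cos θ ^ 2 ≤ 1 := Real.cos_sq_le_one θ
      have h5 : 0 ≤ ∑ e : RI n K, (ss N e * st β N s x e) ^ 2 :=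
        Finset.sum_nonneg fun _ _ => sq_nonneg _
      have h6 := mul_le_of_le_one_left h5 h4
      have h7 : ∑ e : RI n K, (0 : ℝ) ^ 2 = 0 := Finset.sum_eq_zero fun _ _ => by norm_num
      rw [h7, zero_add]
      exact h6.trans h3) hl hψ
  have e2 : 2 * (β ^ 2 / 2) = β ^ 2 := by ring
  rw [e2] at key
  have e3 : (ls (Sum.elim (rlv d) (rlv d)) K m (lc n) (fun (x : Fin n → Bool)
      (e : RI n K ⊕ RI n K) => Sum.elim (fun _ => 1) (fun _ => Real.sin θ) e *
        Sum.elim (sc β N s x) (fun e => ss N e * st β N s x e) e)) =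
      Mth n K d m β N s θ := by
    unfold Mth Lth
    congr 1
    funext x e
    show _ = ba n K N β s x e + (Real.sin θ * bal n K N β s x e + Real.cos θ * 0)
    rcases e with e | e
    · show 1 * sc β N s x e = sc β N s x e + (Real.sin θ * 0 + Real.cos θ * 0)
      ring
    · show Real.sin θ * (ss N e * st β N s x e) =
        0 + (Real.sin θ * (ss N e * st β N s x e) + Real.cos θ * 0)
      ring
  have e4 : (ls (Sum.elim (rlv d) (rlv d)) K m (lc n) (fun (x : Fin n → Bool) =>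
        Sum.elim (sc β N s x) (fun e => ss N e * st β N s x e))) =
      Mth n K d m β N s (Real.pi / 2) := by
    unfold Mth Lth
    congr 1
    funext x e
    show _ = ba n K N β s x e + (Real.sin (Real.pi / 2) * bal n K N β s x e +
      Real.cos (Real.pi / 2) * 0)
    rw [Real.sin_pi_div_two]
    rcases e with e | e
    · show sc β N s x e = sc β N s x e + (1 * 0 + _ * 0)
      ring
    · show ss N e * st β N s x e = 0 + (1 * (ss N e * st β N s x e) + _ * 0)
      ring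
  rw [e3, e4] at key
  exact key

/-! ### The covariances -/

lemma hh_bal (hN : N ≤ n) (h0 : 0 < N) (l : ℕ) (x x' : Fin n → Bool) :
    hh (Sum.elim (rlv d) (rlv d)) (bal n K N β s) (fun _ _ => 0) l x x' =
      if d ≤ l then β ^ 2 / 2 * ((N * Rov (ph hN) x x' ^ 2 - 1) / ((N + 1 : ℕ) : ℝ)) else 0 := by
  have hN0 : (0 : ℝ) < N := by exact_mod_cast h0
  have e1 : hh (Sum.elim (rlv d) (rlv d)) (bal n K N β s) (fun _ _ => 0) l x x' =
      1 / ((N + 1 : ℕ) : ℝ) *
        cv (rlv d) l (dsk (K := K) N (β / √N)) (dsk N (β / √N)) x x' := by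
    unfold hh cv bal
    rw [Fintype.sum_sum_type, Fintype.sum_sum_type, Finset.mul_sum]
    simp only [Sum.elim_inl, Sum.elim_inr, mul_zero, ite_self, Finset.sum_const_zero, zero_add,
      sub_zero, add_zero]
    refine Finset.sum_congr rfl fun e _ => ?_
    rw [ss_st]
    by_cases h : rlv d e ≤ l
    · simp [h]
    · simp [h]
  rw [e1]
  rcases lt_or_ge l d with h | h
  · rw [cv_dsk_lt h, if_neg (not_le.2 h), mul_zero]
  · rw [cv_dsk_ge hN h, if_pos h, beta_sq h0]
    field_simp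

lemma dg_bal (hN : N ≤ n) (h0 : 0 < N) (x : Fin n → Bool) :
    dg (bal n K N β s) (fun _ _ => 0) x = β ^ 2 / 2 * ((N - 1) / ((N + 1 : ℕ) : ℝ)) := by
  rw [← sum_ss (K := K) (β := β) (s := s) hN h0 x]
  unfold dg bal
  rw [Fintype.sum_sum_type]
  simp

end Vale.Agent.P146.H784
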