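import Vale.Agent.P146.Bdl.B6

set_option linter.all false

/-!
The doubled system: two replicas which split at the level `l`. The coordinates of level at most
`l` are shared, the others are doubled, the exponents of the levels at most `l` are halved. The
average of `dbl S l` is the pair average of `S` at the level `l`.
-/

open MeasureTheory ProbabilityTheory Filter Topology

namespace Vale.Agent.P146.H784

open Vale.Agent.P157 Vale.Agent.P157.Lv Vale.Agent.P157.Lv.Sy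

variable {ι X : Type} [Fintype ι] [DecidableEq ι] [Fintype X] [DecidableEq X] [Nonempty X]
  {S : Sy ι X} {l j : ℕ} {lev : ι → ℕ}

/-- the coordinates of the first copy -/
def z1 (z : ι ⊕ ι → ℝ) : ι → ℝ := fun e => z (Sum.inl e)

/-- the coordinates of the second copy -/
def z2 (lev : ι → ℕ) (l : ℕ) (z : ι ⊕ ι → ℝ) : ι → ℝ :=
  mix lev l (fun e => z (Sum.inl e)) (fun e => z (Sum.inr e))

/-- **The doubled system.** -/
noncomputable def dbl (S : Sy ι X) (l : ℕ) : Sy (ι ⊕ ι) (X × X) where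
  lev := Sum.elim S.lev S.lev
  K := S.K
  m := fun j => if j ≤ l then S.m j / 2 else S.m j
  H := fun z x => S.H (z1 z) x.1 + S.H (z2 S.lev l z) x.2

lemma z1_mix (lev : ι → ℕ) (j : ℕ) (z w : ι ⊕ ι → ℝ) :
    z1 (mix (Sum.elim lev lev) j z w) = mix lev j (z1 z) (z1 w) := by
  funext e
  rfl

lemma z2_mix (lev : ι → ℕ) (l j : ℕ) (z w : ι ⊕ ι → ℝ) :
    z2 lev l (mix (Sum.elim lev lev) j z w) = mix lev j (z2 lev l z) (z2 lev l w) := by
  funext e
  unfold z2 mix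
  by_cases h : lev e ≤ l
  · by_cases h' : lev e ≤ j
    · simp [h, h']
    · simp [h, h']
  · by_cases h' : lev e ≤ j
    · simp [h, h']
    · simp [h, h']

/-- above the splitting level -/
lemma mix_z2 {lev : ι → ℕ} {l j : ℕ} (h : l ≤ j) (u : ι → ℝ) (w : ι ⊕ ι → ℝ) :
    mix lev j u (z2 lev l w) = mix lev j u (fun e => w (Sum.inr e)) := by
  funext e
  unfold z2 mix
  by_cases h' : lev e ≤ j
  · simp [h']
  · have : ¬ lev e ≤ l := by omega
    simp [h', this]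

/-- functions of the shared levels -/
lemma dep_z2 {l j : ℕ} (h : j ≤ l) {F : (ι → ℝ) → ℝ} (hF : Dep lev j F) (z : ι ⊕ ι → ℝ) :
    F (z2 lev l z) = F (z1 z) := by
  rw [← (hF.mono h) (z1 z) (fun e => z (Sum.inr e))]
  rfl

lemma meas_z1 : Measurable (z1 : (ι ⊕ ι → ℝ) → ι → ℝ) := by
  rw [measurable_pi_iff]
  intro e
  exact measurable_pi_apply (Sum.inl e)

lemma meas_zr : Measurable (fun (z : ι ⊕ ι → ℝ) (e : ι) => z (Sum.inr e)) := by
  rw [measurable_pi_iff]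
  intro e
  exact measurable_pi_apply (Sum.inr e)

lemma meas_z2 (lev : ι → ℕ) (l : ℕ) : Measurable (z2 lev l : (ι ⊕ ι → ℝ) → ι → ℝ) :=
  (measurable_mix lev l).comp (meas_z1.prodMk meas_zr)

lemma norm_z1 (z : ι ⊕ ι → ℝ) : ‖z1 z‖ ≤ ‖z‖ := by
  rw [pi_norm_le_iff_of_nonneg (norm_nonneg _)]
  intro e
  exact norm_le_pi_norm z (Sum.inl e)

lemma norm_z2 (lev : ι → ℕ) (l : ℕ) (z : ι ⊕ ι → ℝ) : ‖z2 lev l z‖ ≤ ‖z‖ := by
  rw [pi_norm_le_iff_of_nonneg (norm_nonneg _)]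
  intro e
  unfold z2 mix
  split_ifs
  · exact norm_le_pi_norm z (Sum.inl e)
  · exact norm_le_pi_norm z (Sum.inr e)

lemma eg_z1 {F : (ι → ℝ) → ℝ} (hF : EG F) : EG fun z => F (z1 z) := by
  obtain ⟨C, a, hC, ha, h⟩ := hF.bdd
  refine ⟨hF.meas.comp meas_z1, C, a, hC, ha, fun z => (h _).trans ?_⟩
  gcongr
  exact norm_z1 z

lemma eg_z2 {F : (ι → ℝ) → ℝ} (hF : EG F) (lev : ι → ℕ) (l : ℕ) :
    EG fun z => F (z2 lev l z) := by
  obtain ⟨C, a, hC, ha, h⟩ := hF.bdd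
  refine ⟨hF.meas.comp (meas_z2 lev l), C, a, hC, ha, fun z => (h _).trans ?_⟩
  gcongr
  exact norm_z2 lev l z

lemma nh_z1 {A : (ι → ℝ) → X → ℝ} (hA : Nh A) :
    Nh fun (z : ι ⊕ ι → ℝ) (y : X × X) => A (z1 z) y.1 := fun y => eg_z1 (hA y.1)

lemma nh_z2 {A : (ι → ℝ) → X → ℝ} (hA : Nh A) (lev : ι → ℕ) (l : ℕ) :
    Nh fun (z : ι ⊕ ι → ℝ) (y : X × X) => A (z2 lev l z) y.2 := fun y => eg_z2 (hA y.2) lev l

/-- the two copies are independent -/
lemma int_prod {F G : (ι → ℝ) → ℝ} :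
    ∫ w, F (z1 w) * G (fun e => w (Sum.inr e)) ∂(gI (ι ⊕ ι)) =
      (∫ u, F u ∂(gI ι)) * ∫ u, G u ∂(gI ι) := by
  have h0 := measurePreserving_sumPiEquivProdPi (ι := ι) (ι' := ι) (X := fun _ : ι ⊕ ι => ℝ)
    (fun _ => gaussianReal 0 1)
  have h1 := h0.integral_comp (MeasurableEquiv.sumPiEquivProdPi (fun _ : ι ⊕ ι => ℝ)).measurableEmbedding
    (fun p : (ι → ℝ) × (ι → ℝ) => F p.1 * G p.2)
  rw [← integral_prod_mul]
  exact h1

lemma int_z1 {F : (ι → ℝ) → ℝ} : ∫ w, F (z1 w) ∂(gI (ι ⊕ ι)) = ∫ u, F u ∂(gI ι) := by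
  have h := int_prod (ι := ι) (F := F) (G := fun _ => 1)
  simp only [mul_one] at h
  rw [h]
  simp

lemma int_zr {F : (ι → ℝ) → ℝ} :
    ∫ w, F (fun e => w (Sum.inr e)) ∂(gI (ι ⊕ ι)) = ∫ u, F u ∂(gI ι) := by
  have h := int_prod (ι := ι) (F := fun _ => 1) (G := F)
  simp only [one_mul] at h
  rw [h]
  simp

/-- the law of the second copy -/
lemma int_z2 {F : (ι → ℝ) → ℝ} (hF : EG F) (lev : ι → ℕ) (l : ℕ) :
    ∫ w, F (z2 lev l w) ∂(gI (ι ⊕ ι)) = ∫ u, F u ∂(gI ι) := by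
  have h0 := measurePreserving_sumPiEquivProdPi (ι := ι) (ι' := ι) (X := fun _ : ι ⊕ ι => ℝ)
    (fun _ => gaussianReal 0 1)
  have h1 := h0.integral_comp (MeasurableEquiv.sumPiEquivProdPi (fun _ : ι ⊕ ι => ℝ)).measurableEmbedding
    (fun p : (ι → ℝ) × (ι → ℝ) => F (mix lev l p.1 p.2))
  have h2 : ∫ w, F (z2 lev l w) ∂(gI (ι ⊕ ι)) =
      ∫ p, F (mix lev l p.1 p.2) ∂((gI ι).prod (gI ι)) := h1
  rw [h2]
  have h3 := map_mix (ι := ι) lev l
  conv_rhs => rw [← h3]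
  rw [integral_map (measurable_mix lev l).aemeasurable hF.meas.aestronglyMeasurable]

lemma norm_mixr (lev : ι → ℕ) (j : ℕ) (z w : ι → ℝ) : ‖mix lev j z w‖ ≤ ‖z‖ + ‖w‖ :=
  norm_mix_le z w

lemma eg_mixr {F : (ι → ℝ) → ℝ} (hF : EG F) (lev : ι → ℕ) (j : ℕ) (z : ι → ℝ) :
    EG fun u => F (mix lev j z u) := by
  obtain ⟨C, a, hC, ha, h⟩ := hF.bdd
  refine ⟨hF.meas.comp (measurable_mix_right lev j z), C * Real.exp (a * ‖z‖), a,
    by positivity, ha, fun w => (h _).trans ?_⟩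
  rw [mul_assoc, ← Real.exp_add]
  gcongr
  rw [← mul_add]
  exact mul_le_mul_of_nonneg_left (norm_mixr lev j z w) ha

/-- the average over the higher levels of a function of the first copy -/
lemma J_z1 (lev : ι → ℕ) (j : ℕ) (F : (ι → ℝ) → ℝ) (z : ι ⊕ ι → ℝ) :
    Lv.J (Sum.elim lev lev) j (fun z => F (z1 z)) z = Lv.J lev j F (z1 z) := by
  unfold Lv.J
  simp only [z1_mix]
  exact int_z1 (F := fun u => F (mix lev j (z1 z) u))

/-- the average over the higher levels of a function of the second copy -/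
lemma J_z2 (lev : ι → ℕ) (l j : ℕ) {F : (ι → ℝ) → ℝ} (hF : EG F) (z : ι ⊕ ι → ℝ) :
    Lv.J (Sum.elim lev lev) j (fun z => F (z2 lev l z)) z = Lv.J lev j F (z2 lev l z) := by
  unfold Lv.J
  simp only [z2_mix]
  exact int_z2 (F := fun u => F (mix lev j (z2 lev l z) u)) (eg_mixr hF lev j _) lev l

/-- above the splitting level the copies are independent -/
lemma J_prod {lev : ι → ℕ} {l j : ℕ} (h : l ≤ j) (F G : (ι → ℝ) → ℝ) (z : ι ⊕ ι → ℝ) :
    Lv.J (Sum.elim lev lev) j (fun z => F (z1 z) * G (z2 lev l z)) z =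
      Lv.J lev j F (z1 z) * Lv.J lev j G (z2 lev l z) := by
  unfold Lv.J
  simp only [z1_mix, z2_mix, mix_z2 h]
  exact int_prod (F := fun u => F (mix lev j (z1 z) u)) (G := fun u => G (mix lev j (z2 lev l z) u))

/-! ### Regularity -/

lemma lip_z1 {F : (ι → ℝ) → ℝ} (hF : Lip F) : Lip fun z => F (z1 z) := by
  obtain ⟨L, hL, h⟩ := hF
  refine ⟨L, hL, fun y y' => (h _ _).trans ?_⟩
  exact mul_le_mul_of_nonneg_left (norm_z1 (y - y')) hL

lemma lip_z2 {F : (ι → ℝ) → ℝ} (hF : Lip F) (lev : ι → ℕ) (l : ℕ) :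
    Lip fun z => F (z2 lev l z) := by
  obtain ⟨L, hL, h⟩ := hF
  refine ⟨L, hL, fun y y' => (h _ _).trans ?_⟩
  refine mul_le_mul_of_nonneg_left (le_trans (le_of_eq ?_) (norm_z2 lev l (y - y'))) hL
  congr 1
  funext e
  unfold z2 mix
  simp only [Pi.sub_apply]
  split_ifs <;> rfl

lemma dbl_reg (hS : S.Reg) (hl : l ≤ S.K) : (dbl S l).Reg where
  m0 := by
    show (if 0 ≤ l then S.m 0 / 2 else S.m 0) = 0
    rw [if_pos (Nat.zero_le _), hS.m0, zero_div]
  mK := by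
    show (if S.K + 1 ≤ l then S.m (S.K + 1) / 2 else S.m (S.K + 1)) = 1
    rw [if_neg (by omega), hS.mK]
  mono := fun j hj => by
    show (if j ≤ l then S.m j / 2 else S.m j) ≤ (if j + 1 ≤ l then S.m (j + 1) / 2 else S.m (j + 1))
    have hj' : j ≤ S.K := hj
    have h1 := hS.mono j hj'
    have h0 : 0 ≤ S.m j := by
      have := hS.m_mono (Nat.zero_le j) (by omega)
      rwa [hS.m0] at this
    split_ifs
    · linarith
    · linarith
    · omega
    · exact h1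
  pos := by
    show 0 < (if 1 ≤ l then S.m 1 / 2 else S.m 1)
    have := hS.pos
    split_ifs <;> linarith
  lev := fun e => by
    rcases e with e | e
    · exact hS.lev e
    · exact hS.lev e
  lip := fun x => (lip_z1 (hS.lip x.1)).add (lip_z2 (hS.lip x.2) S.lev l)

/-! ### The recursion -/

lemma dbl_top (S : Sy ι X) (l : ℕ) (z : ι ⊕ ι → ℝ) :
    (dbl S l).top z = S.top (z1 z) + S.top (z2 S.lev l z) := by
  unfold top
  rw [← Real.log_mul (sum_exp_pos (z1 z)).ne' (sum_exp_pos _).ne', Finset.sum_mul_sum,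
    Fintype.sum_prod_type]
  congr 1
  refine Finset.sum_congr rfl fun x _ => Finset.sum_congr rfl fun x' _ => ?_
  rw [← Real.exp_add]
  rfl

/-- above the splitting level -/
lemma dbl_lg_hi (hS : S.Reg) (hj : j ≤ S.K) : l ≤ j → ∀ z,
    (dbl S l).lg j z = S.lg j (z1 z) + S.lg j (z2 S.lev l z) := by
  refine down_ind (K := S.K) (P := fun j => l ≤ j → ∀ z,
    (dbl S l).lg j z = S.lg j (z1 z) + S.lg j (z2 S.lev l z)) ?_ ?_ j hj
  · intro _ z
    have h1 : (dbl S l).lg S.K = (dbl S l).top := lg_top (dbl S l)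
    rw [h1, lg_top S]
    exact dbl_top S l z
  · intro j hj ih hlj z
    rw [lg_step S hj, lg_step (dbl S l) (show j < (dbl S l).K from hj)]
    unfold stp
    have em : (dbl S l).m (j + 1) = S.m (j + 1) := if_neg (by omega)
    have e1 : (fun z => Real.exp ((dbl S l).m (j + 1) * (dbl S l).lg (j + 1) z)) =
        fun z => (fun u => Real.exp (S.m (j + 1) * S.lg (j + 1) u)) (z1 z) *
          (fun u => Real.exp (S.m (j + 1) * S.lg (j + 1) u)) (z2 S.lev l z) := by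
      funext y
      rw [em, ih (by omega) y, ← Real.exp_add]
      congr 1
      ring
    rw [e1, em]
    have h2 := J_prod (lev := S.lev) hlj (fun u => Real.exp (S.m (j + 1) * S.lg (j + 1) u))
      (fun u => Real.exp (S.m (j + 1) * S.lg (j + 1) u)) z
    have e2 : (dbl S l).lev = Sum.elim S.lev S.lev := rfl
    have hpos : ∀ u, 0 < Lv.J S.lev j (fun u => Real.exp (S.m (j + 1) * S.lg (j + 1) u)) u :=
      fun u => J_pos (Lip.exp_eg (hS.lip_lg (show j + 1 ≤ S.K from hj)) _)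
        (fun _ => Real.exp_pos _) u
    rw [e2, h2, Real.log_mul (hpos _).ne' (hpos _).ne', mul_add]

/-- below the splitting level -/
lemma dbl_lg_lo (hS : S.Reg) (hl : l ≤ S.K) (hj : j ≤ l) (z : ι ⊕ ι → ℝ) :
    (dbl S l).lg j z = 2 * S.lg j (z1 z) := by
  revert z
  refine down_ind (K := l) (P := fun j => ∀ z, (dbl S l).lg j z = 2 * S.lg j (z1 z)) ?_ ?_ j hj
  · intro z
    rw [dbl_lg_hi hS hl le_rfl, dep_z2 le_rfl (hS.dep_lg hl)]
    ring
  · intro j hj ih z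
    have hjK : j < S.K := by omega
    rw [lg_step S hjK, lg_step (dbl S l) (show j < (dbl S l).K from hjK)]
    unfold stp
    have em : (dbl S l).m (j + 1) = S.m (j + 1) / 2 := if_pos (by omega)
    have e1 : (fun z => Real.exp ((dbl S l).m (j + 1) * (dbl S l).lg (j + 1) z)) =
        fun z => (fun u => Real.exp (S.m (j + 1) * S.lg (j + 1) u)) (z1 z) := by
      funext y
      rw [em, ih y]
      congr 1
      ring
    rw [e1, em]
    have e2 : (dbl S l).lev = Sum.elim S.lev S.lev := rfl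
    have h2 := J_z1 S.lev j (fun u => Real.exp (S.m (j + 1) * S.lg (j + 1) u)) z
    rw [e2, h2]
    have hm : S.m (j + 1) ≠ 0 := (hS.m_pos (by omega) (by omega)).ne'
    field_simp

/-- the density above the splitting level -/
lemma dbl_dn_hi (hS : S.Reg) (hj : j ≤ S.K) (hlj : l ≤ j) (z : ι ⊕ ι → ℝ) :
    (dbl S l).dn j z = S.dn j (z1 z) * S.dn j (z2 S.lev l z) := by
  unfold dn
  rw [← Real.exp_add, ← Finset.sum_add_distrib]
  congr 1
  refine Finset.sum_congr rfl fun i hi => ?_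
  obtain ⟨h1, h2⟩ := Finset.mem_Ico.1 hi
  have h2' : i < S.K := h2
  rw [dbl_lg_hi hS (show i + 1 ≤ S.K from h2') (by omega), dbl_lg_hi hS h2'.le (by omega)]
  have em : (dbl S l).m (i + 1) = S.m (i + 1) := if_neg (by omega)
  rw [em]
  ring

/-- the part of the density of the shared levels -/
noncomputable def cm (S : Sy ι X) (j l : ℕ) (z : ι → ℝ) : ℝ :=
  Real.exp (∑ i ∈ Finset.Ico j l, S.m (i + 1) * (S.lg (i + 1) z - S.lg i z))

lemma dn_cm (S : Sy ι X) (hj : j ≤ l) (hl : l ≤ S.K) (z : ι → ℝ) :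
    S.dn j z = cm S j l z * S.dn l z := by
  unfold dn cm
  rw [← Real.exp_add, Finset.sum_Ico_consecutive _ hj hl]

lemma dep_cm (hS : S.Reg) (hl : l ≤ S.K) : Dep S.lev l (cm S j l) := by
  intro z w
  unfold cm
  congr 1
  refine Finset.sum_congr rfl fun i hi => ?_
  obtain ⟨h1, h2⟩ := Finset.mem_Ico.1 hi
  have h3 := (hS.dep_lg (show i + 1 ≤ S.K by omega)).mono (show i + 1 ≤ l by omega)
  have h4 := (hS.dep_lg (show i ≤ S.K by omega)).mono (show i ≤ l by omega)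
  rw [h3 z w, h4 z w]

lemma eg_cm (hS : S.Reg) (hl : l ≤ S.K) : EG (cm S j l) := by
  unfold cm
  exact lc_eg_exp (lc_lip_sum hS (a := j) (b := l) hl)

/-- the density below the splitting level -/
lemma dbl_dn_lo (hS : S.Reg) (hl : l ≤ S.K) (hj : j ≤ l) (z : ι ⊕ ι → ℝ) :
    (dbl S l).dn j z = cm S j l (z1 z) * (S.dn l (z1 z) * S.dn l (z2 S.lev l z)) := by
  rw [← dbl_dn_hi hS hl le_rfl]
  unfold dn cm
  rw [← Real.exp_add, ← Finset.sum_Ico_consecutive _ hj (show l ≤ (dbl S l).K from hl)]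
  congr 2
  refine Finset.sum_congr rfl fun i hi => ?_
  obtain ⟨h1, h2⟩ := Finset.mem_Ico.1 hi
  rw [dbl_lg_lo hS hl (by omega), dbl_lg_lo hS hl (by omega)]
  have em : (dbl S l).m (i + 1) = S.m (i + 1) / 2 := if_pos (by omega)
  rw [em]
  ring

lemma dbl_gb (S : Sy ι X) (l : ℕ) (z : ι ⊕ ι → ℝ) (x : X × X) :
    (dbl S l).gb z x = S.gb (z1 z) x.1 * S.gb (z2 S.lev l z) x.2 := by
  rw [gb_eq, gb_eq, gb_eq, dbl_top, ← Real.exp_add]
  congr 1
  show S.H (z1 z) x.1 + S.H (z2 S.lev l z) x.2 - _ = _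
  ring

lemma dbl_av (S : Sy ι X) (l : ℕ) (A B : (ι → ℝ) → X → ℝ) (z : ι ⊕ ι → ℝ) :
    (dbl S l).av (fun z y => A (z1 z) y.1 * B (z2 S.lev l z) y.2) z =
      S.av A (z1 z) * S.av B (z2 S.lev l z) := by
  unfold av
  rw [Finset.sum_mul_sum, Fintype.sum_prod_type]
  refine Finset.sum_congr rfl fun x _ => Finset.sum_congr rfl fun x' _ => ?_
  rw [dbl_gb]
  ring

/-- the averages above the splitting level -/
theorem dbl_T_hi (hS : S.Reg) (hj : j ≤ S.K) (hlj : l ≤ j) (A B : (ι → ℝ) → X → ℝ)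
    (z : ι ⊕ ι → ℝ) :
    (dbl S l).T j (fun z y => A (z1 z) y.1 * B (z2 S.lev l z) y.2) z =
      S.T j A (z1 z) * S.T j B (z2 S.lev l z) := by
  unfold T
  rw [← J_prod hlj]
  have e2 : (dbl S l).lev = Sum.elim S.lev S.lev := rfl
  rw [e2]
  congr 1
  funext y
  rw [dbl_dn_hi hS hj hlj, dbl_av]
  ring

/-- the averages below the splitting level -/
theorem dbl_T_lo (hS : S.Reg) (hl : l ≤ S.K) (hj : j ≤ l) {A B : (ι → ℝ) → X → ℝ}
    (hA : Nh A) (hB : Nh B) (z : ι ⊕ ι → ℝ) :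
    (dbl S l).T j (fun z y => A (z1 z) y.1 * B (z2 S.lev l z) y.2) z =
      S.T j (fun z _ => S.T l A z * S.T l B z) (z1 z) := by
  have e2 : (dbl S l).lev = Sum.elim S.lev S.lev := rfl
  have hR := dbl_reg hS hl
  have h1 : (dbl S l).T j (fun z y => A (z1 z) y.1 * B (z2 S.lev l z) y.2) z =
      Lv.J (Sum.elim S.lev S.lev) j (Lv.J (Sum.elim S.lev S.lev) l (fun z =>
        (fun u => cm S j l u * (S.dn l u * S.av A u)) (z1 z) *
          (fun u => S.dn l u * S.av B u) (z2 S.lev l z))) z := by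
    rw [J_J hj]
    · unfold T
      rw [e2]
      congr 1
      funext y
      rw [dbl_dn_lo hS hl hj, dbl_av]
      ring
    · exact (eg_z1 ((eg_cm hS hl).mul ((hS.eg_dn hl).mul (hS.eg_av hA)))).mul
        (eg_z2 ((hS.eg_dn hl).mul (hS.eg_av hB)) S.lev l)
  rw [h1]
  have h2 : (Lv.J (Sum.elim S.lev S.lev) l (fun z =>
        (fun u => cm S j l u * (S.dn l u * S.av A u)) (z1 z) *
          (fun u => S.dn l u * S.av B u) (z2 S.lev l z))) =
      fun z => (fun u => cm S j l u * (S.T l A u * S.T l B u)) (z1 z) := by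
    funext y
    have h4 := J_prod (lev := S.lev) (le_refl l) (fun u => cm S j l u * (S.dn l u * S.av A u))
      (fun u => S.dn l u * S.av B u) y
    rw [h4, (dep_cm hS hl).J_mul]
    have h3 : Lv.J S.lev l (fun u => S.dn l u * S.av B u) (z2 S.lev l y) = S.T l B (z1 y) :=
      dep_z2 le_rfl (S.dep_T l B) y
    rw [h3]
    show cm S j l (z1 y) * S.T l A (z1 y) * S.T l B (z1 y) = _
    ring
  rw [h2]
  have h5 := J_z1 S.lev j (fun u => cm S j l u * (S.T l A u * S.T l B u)) z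
  rw [h5]
  unfold T
  have e3 : (fun z => S.dn j z * S.av (fun z _ => S.T l A z * S.T l B z) z) =
      fun z => cm S j l z * (S.T l A z * S.T l B z) * S.dn l z := by
    funext y
    rw [av_fst, dn_cm S hj hl]
    ring
  show Lv.J S.lev j (fun u => cm S j l u * (S.T l A u * S.T l B u)) (z1 z) =
    Lv.J S.lev j (fun z => S.dn j z * S.av (fun z _ => S.T l A z * S.T l B z) z) (z1 z)
  rw [e3]
  have hdep : Dep S.lev l (fun u => cm S j l u * (S.T l A u * S.T l B u)) :=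
    lc_dep_mul (dep_cm hS hl) (lc_dep_mul (S.dep_T l A) (S.dep_T l B))
  rw [← J_J hj (((eg_cm hS hl).mul ((hS.eg_T hl hA).mul (hS.eg_T hl hB))).mul (hS.eg_dn hl))]
  congr 1
  funext y
  rw [hdep.J_mul, hS.J_dn hl, mul_one]

/-- **The average of the doubled system.** -/
theorem dbl_Ex (hS : S.Reg) (hl : l ≤ S.K) {A B : (ι → ℝ) → X → ℝ} (hA : Nh A) (hB : Nh B) :
    (dbl S l).Ex (fun z y => A (z1 z) y.1 * B (z2 S.lev l z) y.2) =
      S.Ex (fun z _ => S.T l A z * S.T l B z) := by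
  have hR := dbl_reg hS hl
  have hAB : Nh fun (z : ι ⊕ ι → ℝ) (y : X × X) => A (z1 z) y.1 * B (z2 S.lev l z) y.2 :=
    Nh.mul (nh_z1 hA) (nh_z2 hB S.lev l)
  rw [hR.Ex_eq_T hAB, hS.Ex_eq_T (Nh.fst ((hS.eg_T hl hA).mul (hS.eg_T hl hB)))]
  have e : (dbl S l).T 0 (fun z y => A (z1 z) y.1 * B (z2 S.lev l z) y.2) =
      fun z => S.T 0 (fun z _ => S.T l A z * S.T l B z) (z1 z) := by
    funext z
    exact dbl_T_lo hS hl (Nat.zero_le _) hA hB z
  rw [e]
  exact int_z1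

/-! ### The marginals -/

lemma dbl_T_fst (hS : S.Reg) (hl : l ≤ S.K) (hj : j ≤ S.K) {A : (ι → ℝ) → X → ℝ} (hA : Nh A)
    (z : ι ⊕ ι → ℝ) : (dbl S l).T j (fun z y => A (z1 z) y.1) z = S.T j A (z1 z) := by
  have h1 : (fun (z : ι ⊕ ι → ℝ) (y : X × X) => A (z1 z) y.1) =
      fun z y => A (z1 z) y.1 * (fun (_ : ι → ℝ) (_ : X) => (1 : ℝ)) (z2 S.lev l z) y.2 := by
    funext z y
    simp
  rcases le_total l j with h | h
  · have h2 := dbl_T_hi hS hj h A (fun _ _ => 1) z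
    rw [hS.T_const hj, mul_one] at h2
    rw [h1]
    exact h2
  · have h2 := dbl_T_lo hS hl h hA (B := fun _ _ => 1) (fun _ => EG.const 1) z
    rw [h1]
    refine h2.trans ?_
    have e : (fun (z : ι → ℝ) (_ : X) => S.T l A z * S.T l (fun _ _ => 1) z) =
        fun z _ => S.T l A z := by
      funext z _
      rw [hS.T_const hl, mul_one]
    rw [e, hS.T_T h hl hA]

lemma dbl_T_snd (hS : S.Reg) (hl : l ≤ S.K) (hj : j ≤ S.K) {A : (ι → ℝ) → X → ℝ} (hA : Nh A)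
    (z : ι ⊕ ι → ℝ) :
    (dbl S l).T j (fun z y => A (z2 S.lev l z) y.2) z = S.T j A (z2 S.lev l z) := by
  have h1 : (fun (z : ι ⊕ ι → ℝ) (y : X × X) => A (z2 S.lev l z) y.2) =
      fun z y => (fun (_ : ι → ℝ) (_ : X) => (1 : ℝ)) (z1 z) y.1 * A (z2 S.lev l z) y.2 := by
    funext z y
    simp
  rcases le_total l j with h | h
  · have h2 := dbl_T_hi hS hj h (fun _ _ => 1) A z
    rw [hS.T_const hj, one_mul] at h2
    rw [h1]
    exact h2
  · have h2 := dbl_T_lo hS hl h (A := fun _ _ => 1) (fun _ => EG.const 1) hA z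
    rw [h1]
    refine h2.trans ?_
    have e : (fun (z : ι → ℝ) (_ : X) => S.T l (fun _ _ => 1) z * S.T l A z) =
        fun z _ => S.T l A z := by
      funext z _
      rw [hS.T_const hl, one_mul]
    rw [e, hS.T_T h hl hA, dep_z2 h (S.dep_T j A)]

lemma dbl_Ex_z1 (hS : S.Reg) (hl : l ≤ S.K) {A : (ι → ℝ) → X → ℝ} (hA : Nh A) :
    (dbl S l).Ex (fun z y => A (z1 z) y.1) = S.Ex A := by
  have h := dbl_Ex hS hl hA (B := fun _ _ => 1) (fun _ => EG.const 1)
  simp only [mul_one] at h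
  rw [h]
  have e : (fun (z : ι → ℝ) (_ : X) => S.T l A z * S.T l (fun _ _ => 1) z) =
      fun z _ => S.T l A z := by
    funext z _
    rw [hS.T_const hl, mul_one]
  rw [e, hS.Ex_T hl hA]

lemma dbl_Ex_z2 (hS : S.Reg) (hl : l ≤ S.K) {A : (ι → ℝ) → X → ℝ} (hA : Nh A) :
    (dbl S l).Ex (fun z y => A (z2 S.lev l z) y.2) = S.Ex A := by
  have h := dbl_Ex hS hl (A := fun _ _ => 1) (fun _ => EG.const 1) hA
  simp only [one_mul] at h
  rw [h]
  have e : (fun (z : ι → ℝ) (_ : X) => S.T l (fun _ _ => 1) z * S.T l A z) =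
      fun z _ => S.T l A z := by
    funext z _
    rw [hS.T_const hl, one_mul]
  rw [e, hS.Ex_T hl hA]

/-- rank one -/
lemma pairEx_prod (hS : S.Reg) (hl : l ≤ S.K) (u v : X → ℝ) :
    S.pairEx l (fun x x' => u x * v x') =
      S.Ex (fun z _ => S.T l (fun _ x => u x) z * S.T l (fun _ x => v x) z) := by
  unfold pairEx
  congr 1
  funext z _
  rw [hS.T_pr hl, hS.T_pr hl, Finset.sum_mul_sum]
  refine Finset.sum_congr rfl fun x _ => Finset.sum_congr rfl fun x' _ => ?_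
  ring

lemma pairEx_sum (hS : S.Reg) (hl : l ≤ S.K) {κ : Type} (s : Finset κ) (ψ : κ → X → X → ℝ) :
    S.pairEx l (fun x x' => ∑ i ∈ s, ψ i x x') = ∑ i ∈ s, S.pairEx l (ψ i) := by
  classical
  induction s using Finset.induction_on with
  | empty => simpa using hS.pairEx_const hl 0
  | insert i s hi ih =>
    rw [Finset.sum_insert hi, ← ih, ← hS.pairEx_add hl]
    simp only [Finset.sum_insert hi]

/-- the indicator -/
def dl (a x : X) : ℝ := if x = a then 1 else 0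

lemma sum_dl (ψ : X → X → ℝ) (x x' : X) :
    ψ x x' = ∑ a, ∑ b, ψ a b * (dl a x * dl b x') := by
  unfold dl
  simp

lemma pairEx_dl (hS : S.Reg) (hl : l ≤ S.K) (ψ : X → X → ℝ) :
    S.pairEx l ψ = ∑ a, ∑ b, ψ a b *
      S.Ex (fun z _ => S.T l (fun _ x => dl a x) z * S.T l (fun _ x => dl b x) z) := by
  have e : ψ = fun x x' => ∑ a, ∑ b, ψ a b * (dl a x * dl b x') := by
    funext x x'
    exact sum_dl ψ x x'
  conv_lhs => rw [e]
  rw [pairEx_sum hS hl]
  refine Finset.sum_congr rfl fun a _ => ?_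
  rw [pairEx_sum hS hl]
  refine Finset.sum_congr rfl fun b _ => ?_
  rw [hS.pairEx_const_mul, pairEx_prod hS hl]

lemma pairEx_fst (hS : S.Reg) (hl : l ≤ S.K) (f : X → ℝ) :
    S.pairEx l (fun x _ => f x) = S.Ex (fun _ x => f x) := by
  have h := pairEx_prod hS hl f (fun _ => 1)
  simp only [mul_one] at h
  rw [h]
  have e : (fun (z : ι → ℝ) (_ : X) => S.T l (fun _ x => f x) z * S.T l (fun _ _ => 1) z) =
      fun z _ => S.T l (fun _ x => f x) z := by
    funext z _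
    rw [hS.T_const hl, mul_one]
  rw [e, hS.Ex_T hl (Nh.snd f)]

lemma pairEx_snd (hS : S.Reg) (hl : l ≤ S.K) (f : X → ℝ) :
    S.pairEx l (fun _ x => f x) = S.Ex (fun _ x => f x) := by
  have h := pairEx_prod hS hl (fun _ => 1) f
  simp only [one_mul] at h
  rw [h]
  have e : (fun (z : ι → ℝ) (_ : X) => S.T l (fun _ _ => 1) z * S.T l (fun _ x => f x) z) =
      fun z _ => S.T l (fun _ x => f x) z := by
    funext z _
    rw [hS.T_const hl, one_mul]
  rw [e, hS.Ex_T hl (Nh.snd f)]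

lemma Ex_sum2 (hS : S.Reg) (c : X → X → ℝ) (F : X → X → (ι → ℝ) → X → ℝ)
    (hF : ∀ a b, Nh (F a b)) :
    S.Ex (fun z x => ∑ a, ∑ b, c a b * F a b z x) = ∑ a, ∑ b, c a b * S.Ex (F a b) := by
  rw [hS.Ex_sum _ fun a _ => Nh.sum _ fun b _ => Nh.const_mul _ (hF a b)]
  refine Finset.sum_congr rfl fun a _ => ?_
  rw [hS.Ex_sum _ fun b _ => Nh.const_mul _ (hF a b)]
  refine Finset.sum_congr rfl fun b _ => ?_
  rw [Sy.Ex_const_mul]

/-- **The average of the doubled system is the pair average.** -/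
theorem dbl_Ex_pair (hS : S.Reg) (hl : l ≤ S.K) (ψ : X → X → ℝ) :
    (dbl S l).Ex (fun _ (y : X × X) => ψ y.1 y.2) = S.pairEx l ψ := by
  have hR := dbl_reg hS hl
  rw [pairEx_dl hS hl]
  have e : (fun (_ : ι ⊕ ι → ℝ) (y : X × X) => ψ y.1 y.2) =
      fun z y => ∑ a, ∑ b, ψ a b * (dl a y.1 * dl b y.2) := by
    funext z y
    exact sum_dl ψ y.1 y.2
  rw [e, hR.Ex_sum _ fun a _ => Nh.snd fun (y : X × X) => ∑ b, ψ a b * (dl a y.1 * dl b y.2)]
  refine Finset.sum_congr rfl fun a _ => ?_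
  rw [hR.Ex_sum _ fun b _ => Nh.snd fun (y : X × X) => ψ a b * (dl a y.1 * dl b y.2)]
  refine Finset.sum_congr rfl fun b _ => ?_
  rw [Sy.Ex_const_mul]
  congr 1
  exact dbl_Ex hS hl (A := fun _ x => dl a x) (B := fun _ x => dl b x) (Nh.snd _) (Nh.snd _)

/-- the pairs `(1, 3)` -/
theorem dbl_pair11 (hS : S.Reg) (hl : l ≤ S.K) (hj : j ≤ S.K) (ψ : X → X → ℝ) :
    (dbl S l).pairEx j (fun y y' => ψ y.1 y'.1) = S.pairEx j ψ := by
  have hR := dbl_reg hS hl
  have hj' : j ≤ (dbl S l).K := hj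
  rw [pairEx_dl hS hj]
  have e : (fun (y y' : X × X) => ψ y.1 y'.1) =
      fun y y' => ∑ a, ∑ b, ψ a b * (dl a y.1 * dl b y'.1) := by
    funext y y'
    exact sum_dl ψ y.1 y'.1
  rw [e, pairEx_sum hR hj']
  refine Finset.sum_congr rfl fun a _ => ?_
  rw [pairEx_sum hR hj']
  refine Finset.sum_congr rfl fun b _ => ?_
  rw [hR.pairEx_const_mul]
  congr 1
  rw [pairEx_prod hR hj' (fun y => dl a y.1) (fun y => dl b y.1)]
  have h1 : ∀ (c : X) (z : ι ⊕ ι → ℝ), (dbl S l).T j (fun _ y => dl c y.1) z =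
      S.T j (fun _ x => dl c x) (z1 z) := fun c z =>
    dbl_T_fst hS hl hj (A := fun _ x => dl c x) (Nh.snd _) z
  simp only [h1]
  exact dbl_Ex_z1 hS hl (A := fun z _ => S.T j (fun _ x => dl a x) z * S.T j (fun _ x => dl b x) z)
    (Nh.fst ((hS.eg_T hj (Nh.snd _)).mul (hS.eg_T hj (Nh.snd _))))

/-- the pairs `(2, 4)` -/
theorem dbl_pair22 (hS : S.Reg) (hl : l ≤ S.K) (hj : j ≤ S.K) (ψ : X → X → ℝ) :
    (dbl S l).pairEx j (fun y y' => ψ y.2 y'.2) = S.pairEx j ψ := by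
  have hR := dbl_reg hS hl
  have hj' : j ≤ (dbl S l).K := hj
  rw [pairEx_dl hS hj]
  have e : (fun (y y' : X × X) => ψ y.2 y'.2) =
      fun y y' => ∑ a, ∑ b, ψ a b * (dl a y.2 * dl b y'.2) := by
    funext y y'
    exact sum_dl ψ y.2 y'.2
  rw [e, pairEx_sum hR hj']
  refine Finset.sum_congr rfl fun a _ => ?_
  rw [pairEx_sum hR hj']
  refine Finset.sum_congr rfl fun b _ => ?_
  rw [hR.pairEx_const_mul]
  congr 1
  rw [pairEx_prod hR hj' (fun y => dl a y.2) (fun y => dl b y.2)]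
  have h1 : ∀ (c : X) (z : ι ⊕ ι → ℝ), (dbl S l).T j (fun _ y => dl c y.2) z =
      S.T j (fun _ x => dl c x) (z2 S.lev l z) := fun c z =>
    dbl_T_snd hS hl hj (A := fun _ x => dl c x) (Nh.snd _) z
  simp only [h1]
  exact dbl_Ex_z2 hS hl (A := fun z _ => S.T j (fun _ x => dl a x) z * S.T j (fun _ x => dl b x) z)
    (Nh.fst ((hS.eg_T hj (Nh.snd _)).mul (hS.eg_T hj (Nh.snd _))))

lemma T_min (hS : S.Reg) (hl : l ≤ S.K) (hj : j ≤ S.K) (a : X) (z : ι → ℝ) :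
    S.T l (fun z _ => S.T j (fun _ x => dl a x) z) z = S.T (min j l) (fun _ x => dl a x) z := by
  rcases le_total l j with h | h
  · rw [hS.T_T h hj (Nh.snd _), min_eq_right h]
  · rw [hS.T_fst hl ((S.dep_T j _).mono h), min_eq_left h]

/-- the pairs `(1, 4)` -/
theorem dbl_pair12 (hS : S.Reg) (hl : l ≤ S.K) (hj : j ≤ S.K) (ψ : X → X → ℝ) :
    (dbl S l).pairEx j (fun y y' => ψ y.1 y'.2) = S.pairEx (min j l) ψ := by
  have hR := dbl_reg hS hl
  have hj' : j ≤ (dbl S l).K := hj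
  have hm : min j l ≤ S.K := (min_le_left _ _).trans hj
  rw [pairEx_dl hS hm]
  have e : (fun (y y' : X × X) => ψ y.1 y'.2) =
      fun y y' => ∑ a, ∑ b, ψ a b * (dl a y.1 * dl b y'.2) := by
    funext y y'
    exact sum_dl ψ y.1 y'.2
  rw [e, pairEx_sum hR hj']
  refine Finset.sum_congr rfl fun a _ => ?_
  rw [pairEx_sum hR hj']
  refine Finset.sum_congr rfl fun b _ => ?_
  rw [hR.pairEx_const_mul]
  congr 1
  rw [pairEx_prod hR hj' (fun y => dl a y.1) (fun y => dl b y.2)]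
  have h1 : ∀ (c : X) (z : ι ⊕ ι → ℝ), (dbl S l).T j (fun _ y => dl c y.1) z =
      S.T j (fun _ x => dl c x) (z1 z) := fun c z =>
    dbl_T_fst hS hl hj (A := fun _ x => dl c x) (Nh.snd _) z
  have h2 : ∀ (c : X) (z : ι ⊕ ι → ℝ), (dbl S l).T j (fun _ y => dl c y.2) z =
      S.T j (fun _ x => dl c x) (z2 S.lev l z) := fun c z =>
    dbl_T_snd hS hl hj (A := fun _ x => dl c x) (Nh.snd _) z
  simp only [h1, h2]
  rw [dbl_Ex hS hl (A := fun z _ => S.T j (fun _ x => dl a x) z)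
    (B := fun z _ => S.T j (fun _ x => dl b x) z) (Nh.fst (hS.eg_T hj (Nh.snd _)))
    (Nh.fst (hS.eg_T hj (Nh.snd _)))]
  simp only [T_min hS hl hj]

lemma pairEx_symm (hS : S.Reg) (hl : l ≤ S.K) (ψ : X → X → ℝ) :
    S.pairEx l (fun x x' => ψ x' x) = S.pairEx l ψ := by
  unfold pairEx
  congr 1
  funext z _
  rw [Finset.sum_comm]
  refine Finset.sum_congr rfl fun x _ => Finset.sum_congr rfl fun x' _ => ?_
  ring

/-- the pairs `(2, 3)` -/
theorem dbl_pair21 (hS : S.Reg) (hl : l ≤ S.K) (hj : j ≤ S.K) (ψ : X → X → ℝ) :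
    (dbl S l).pairEx j (fun y y' => ψ y.2 y'.1) = S.pairEx (min j l) ψ := by
  have hm : min j l ≤ S.K := (min_le_left _ _).trans hj
  have h := pairEx_symm (dbl_reg hS hl) (show j ≤ (dbl S l).K from hj)
    (fun y y' => ψ y.2 y'.1)
  rw [← h, ← pairEx_symm hS hm ψ]
  exact dbl_pair12 hS hl hj (fun x x' => ψ x' x)

end Vale.Agent.P146.H784
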