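import Vale.Agent.P146.H712.EnCalc

/-!
Calculus of the normalised mean `Ei φ f = ∫ φ f / ∫ φ` for a general nonnegative density `φ` of
the class `EG` on the coordinates `K4 κ` (no positivity of the total mass is needed), and the
abstract law change `LLowI` from which the rows of the bulk transfer follow.
-/

open MeasureTheory ProbabilityTheory

namespace Vale.Agent.P146.H784

open Vale.Agent.P157.Lv Vale.Agent.P146.H425 Vale.Agent.P146.H325 Vale.Agent.P146.H332
  Vale.Agent.P146.H712 Vale.Agent.P146.R1 Vale.Agent.P146.R1C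

set_option linter.unusedSectionVars false

section mean

variable {κ : Type} [Fintype κ] [DecidableEq κ]

/-- The normalised mean for the density `φ`. -/
noncomputable def Ei (φ f : (K4 κ → ℝ) → ℝ) : ℝ :=
  (∫ w, φ w * f w ∂(gI (K4 κ))) / ∫ w, φ w * 1 ∂(gI (K4 κ))

variable {φ f g : (K4 κ → ℝ) → ℝ}

lemma int_Ei (h : EG φ) (hf : EG f) : Integrable (fun w => φ w * f w) (gI (K4 κ)) :=
  (h.mul hf).integrable

lemma Z_nonneg (h0 : ∀ w, 0 ≤ φ w) : 0 ≤ ∫ w, φ w * 1 ∂(gI (K4 κ)) :=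
  integral_nonneg fun w => mul_nonneg (h0 w) zero_le_one

lemma Ei_add (h : EG φ) (hf : EG f) (hg : EG g) :
    Ei φ (fun w => f w + g w) = Ei φ f + Ei φ g := by
  unfold Ei
  rw [← add_div, ← integral_add (int_Ei h hf) (int_Ei h hg)]
  congr 1
  exact integral_congr_ae (Filter.Eventually.of_forall fun w => mul_add _ _ _)

lemma Ei_sub (h : EG φ) (hf : EG f) (hg : EG g) :
    Ei φ (fun w => f w - g w) = Ei φ f - Ei φ g := by
  unfold Ei
  rw [← sub_div, ← integral_sub (int_Ei h hf) (int_Ei h hg)]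
  congr 1
  exact integral_congr_ae (Filter.Eventually.of_forall fun w => mul_sub _ _ _)

lemma Ei_const_mul (c : ℝ) (f : (K4 κ → ℝ) → ℝ) : Ei φ (fun w => c * f w) = c * Ei φ f := by
  unfold Ei
  rw [← mul_div_assoc, ← integral_const_mul]
  congr 1
  exact integral_congr_ae (Filter.Eventually.of_forall fun w => mul_left_comm _ _ _)

lemma Ei_congr (hfg : ∀ w, f w = g w) : Ei φ f = Ei φ g := by
  rw [show f = g from funext hfg]

lemma Ei_mono (h : EG φ) (h0 : ∀ w, 0 ≤ φ w) (hf : EG f) (hg : EG g) (hle : ∀ w, f w ≤ g w) :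
    Ei φ f ≤ Ei φ g :=
  div_le_div_of_nonneg_right (integral_mono (int_Ei h hf) (int_Ei h hg)
    fun w => mul_le_mul_of_nonneg_left (hle w) (h0 w)) (Z_nonneg h0)

lemma Ei_nonneg (h0 : ∀ w, 0 ≤ φ w) (hle : ∀ w, 0 ≤ f w) : 0 ≤ Ei φ f :=
  div_nonneg (integral_nonneg fun w => mul_nonneg (h0 w) (hle w)) (Z_nonneg h0)

lemma Ei_sum (h : EG φ) {α : Type*} (s : Finset α) {f : α → (K4 κ → ℝ) → ℝ}
    (hf : ∀ i ∈ s, EG (f i)) : Ei φ (fun w => ∑ i ∈ s, f i w) = ∑ i ∈ s, Ei φ (f i) := by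
  unfold Ei
  rw [← Finset.sum_div, ← integral_finsetSum _ fun i hi => int_Ei h (hf i hi)]
  congr 1
  exact integral_congr_ae (Filter.Eventually.of_forall fun w => by simp only [Finset.mul_sum])

/-- the mean of a constant (`1` or `0`: no positivity of the total mass is used) -/
lemma Ei_const_le {c : ℝ} (hc : 0 ≤ c) : Ei φ (fun _ => c) ≤ c := by
  have h1 := Ei_const_mul (φ := φ) c fun _ => 1
  simp only [mul_one] at h1
  rw [h1]
  have h2 : Ei φ (fun _ => 1) ≤ 1 := by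
    unfold Ei
    exact div_self_le_one _
  nlinarith

lemma Ei_le_const (h : EG φ) (h0 : ∀ w, 0 ≤ φ w) (hf : EG f) {c : ℝ} (hc : 0 ≤ c)
    (hle : ∀ w, f w ≤ c) : Ei φ f ≤ c :=
  (Ei_mono h h0 hf (EG.const c) hle).trans (Ei_const_le hc)

/-- Cauchy-Schwarz -/
lemma Ei_cs (h : EG φ) (h0 : ∀ w, 0 ≤ φ w) (hf : EG f) (hg : EG g) :
    Ei φ (fun w => f w * g w) ^ 2 ≤ Ei φ (fun w => f w ^ 2) * Ei φ (fun w => g w ^ 2) := by
  have key : ∀ r : ℝ, 0 ≤ Ei φ (fun w => g w ^ 2) * (r * r) +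
      (-2 * Ei φ (fun w => f w * g w)) * r + Ei φ (fun w => f w ^ 2) := by
    intro r
    have h1 : 0 ≤ Ei φ fun w => (f w - r * g w) ^ 2 := Ei_nonneg h0 fun w => sq_nonneg _
    have h2 : Ei φ (fun w => (f w - r * g w) ^ 2) =
        Ei φ (fun w => f w ^ 2) + (r * r) * Ei φ (fun w => g w ^ 2) -
          (2 * r) * Ei φ (fun w => f w * g w) := by
      rw [← Ei_const_mul (r * r), ← Ei_const_mul (2 * r),
        ← Ei_add h (hf.pow 2) ((hg.pow 2).const_mul _),
        ← Ei_sub h ((hf.pow 2).add ((hg.pow 2).const_mul _)) ((hf.mul hg).const_mul _)]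
      exact Ei_congr fun w => by ring
    rw [h2] at h1
    linarith
  have h3 := discrim_le_zero key
  unfold discrim at h3
  nlinarith

/-- Cauchy-Schwarz, in the form of a square root -/
lemma Ei_mul_le (h : EG φ) (h0 : ∀ w, 0 ≤ φ w) (hf : EG f) (hg : EG g) :
    |Ei φ (fun w => f w * g w)| ≤
      √(Ei φ (fun w => f w ^ 2)) * √(Ei φ (fun w => g w ^ 2)) := by
  rw [← Real.sqrt_mul (Ei_nonneg h0 fun w => sq_nonneg _)]
  exact Real.abs_le_sqrt (Ei_cs h h0 hf hg)

/-- bounded functions which are rarely large -/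
lemma Ei_pow_le (h : EG φ) (hφ : ∀ w, 0 ≤ φ w) (hf : EG f)
    (h0 : ∀ w, 0 ≤ f w) {K M δ : ℝ} (hK : ∀ w, f w ≤ K) (hM : 0 ≤ M)
    (hδ : Ei φ (fun w => if M < f w then (1 : ℝ) else 0) ≤ δ) (p : ℕ) :
    Ei φ (fun w => f w ^ p) ≤ M ^ p + K ^ p * δ := by
  have hi : EG fun w => if M < f w then (1 : ℝ) else 0 := by
    refine EG.of_bdd (C := 1) ?_ fun w => ?_
    · exact Measurable.ite (measurableSet_lt measurable_const hf.meas) measurable_const
        measurable_const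
    · split_ifs <;> simp
  have hK0 : 0 ≤ K := (h0 0).trans (hK 0)
  refine (Ei_mono h hφ (hf.pow p) ((EG.const (M ^ p)).add (hi.const_mul (K ^ p)))
    fun w => ?_).trans ?_
  · split_ifs with h1
    · have := pow_le_pow_left₀ (h0 w) (hK w) p
      have h2 : 0 ≤ M ^ p := by positivity
      linarith
    · rw [mul_zero, add_zero]
      exact pow_le_pow_left₀ (h0 w) (not_lt.1 h1) p
  · rw [Ei_add h (EG.const _) (hi.const_mul _), Ei_const_mul]
    have := mul_le_mul_of_nonneg_left hδ (pow_nonneg hK0 p)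
    have h2 := Ei_const_le (φ := φ) (pow_nonneg hM p)
    linarith

/-- The law change in the direction clean at most full, for a set `R` of couplings. -/
def LLowI (φ : (K4 κ → ℝ) → ℝ) (R : Finset κ) (ε : ℝ) : Prop :=
  ∀ f : (K4 κ → ℝ) → ℝ, EG f → ∀ K : ℝ, (∀ w, 0 ≤ f w) → (∀ w, f w ≤ K) →
    Ei φ (Av (lf R) f) ≤ 2 * Ei φ f + ε * K

/-- The law change in the direction full at most clean, for a set `R` of couplings. -/
def LUpI (φ : (K4 κ → ℝ) → ℝ) (R : Finset κ) (ε : ℝ) : Prop :=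
  ∀ f : (K4 κ → ℝ) → ℝ, EG f → ∀ K : ℝ, (∀ w, 0 ≤ f w) → (∀ w, f w ≤ K) →
    Ei φ f ≤ 2 * Ei φ (Av (lf R) f) + ε * K

end mean

end Vale.Agent.P146.H784
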