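import Vale.Agent.P146.H713.Deep
import Vale.Agent.P146.H425.SyLg
import Vale.Agent.P146.H826.LawP
import Vale.Agent.P146.H941.DeepR
import Vale.Agent.P146.H785.PairD

/-!
Dictionary between the deep functional `FD` (layers, the innermost first) and the systems with
levels: the log-weight of the level `l` is the deep functional with `J - l` layers at the position
of the level `l`, the tilted averages are the deep means.
-/

open MeasureTheory ProbabilityTheory

namespace Vale.Agent.P146.H784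

open Vale.Agent.P157.Lv Vale.Agent.P157.Lv.Sy Vale.Agent.P146.H425 Vale.Agent.P146.R1
open Vale.Agent.P146.H785 (Ax)

set_option linter.unusedSectionVars false

variable {κ ι X : Type} [Fintype κ] [Fintype ι] [Fintype X] [Nonempty X]

/-- The position at the level `l`; `ϕ l` are the coordinates of the level `l + 1`, `σ` the
standard deviations of the layers (the layer `J - 1 - l` has the level `l + 1`). -/
def Ps (ϕ : ℕ → κ → ι) (σ : ℕ → ℝ) (J : ℕ) (p0 : (ι → ℝ) → κ → ℝ) : ℕ → (ι → ℝ) → κ → ℝ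
  | 0 => p0
  | l + 1 => fun ζ e => Ps ϕ σ J p0 l ζ e + σ (J - 1 - l) * ζ (ϕ l e)

/-- The system `S` represents the deep functional of `F` at the positions `Ps`. -/
structure Rp (S : Sy ι X) (F : (κ → ℝ) → ℝ) (c : ℝ) (m σ : ℕ → ℝ) (J : ℕ) (ϕ : ℕ → κ → ι)
    (p0 : (ι → ℝ) → κ → ℝ) : Prop where
  reg : S.Reg
  K : S.K = J
  m : ∀ l < J, S.m (l + 1) = m (J - 1 - l)
  inj : ∀ l < J, Function.Injective (ϕ l)
  lev : ∀ l < J, ∀ e, S.lev (ϕ l e) = l + 1
  dep : ∀ ζ w : ι → ℝ, (∀ e, S.lev e ≤ 0 → ζ e = w e) → p0 ζ = p0 w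
  top : ∀ ζ, S.top ζ = F (Ps ϕ σ J p0 J ζ) + c

variable {S : Sy ι X} {F : (κ → ℝ) → ℝ} {D : κ → (κ → ℝ) → ℝ} {B L c : ℝ} {m σ : ℕ → ℝ} {J : ℕ}
  {ϕ : ℕ → κ → ι} {p0 : (ι → ℝ) → κ → ℝ} {φ g : (κ → ℝ) → ℝ} {l : ℕ}

namespace Rp

lemma mpos (h : Rp S F c m σ J ϕ p0) : ∀ j < J, 0 < m j := by
  intro j hj
  have h1 := h.m (J - 1 - j) (by omega)
  rw [show J - 1 - (J - 1 - j) = j by omega] at h1
  rw [← h1]
  have hK := h.K
  exact h.reg.m_pos (by omega) (by omega)

lemma dep_Ps (h : Rp S F c m σ J ϕ p0) : ∀ l ≤ J, ∀ ζ w : ι → ℝ,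
    (∀ e, S.lev e ≤ l → ζ e = w e) → Ps ϕ σ J p0 l ζ = Ps ϕ σ J p0 l w
  | 0, _, ζ, w, hw => h.dep ζ w hw
  | l + 1, hl, ζ, w, hw => by
    funext e
    have h1 := congrFun (h.dep_Ps l (by omega) ζ w fun e he => hw e (by omega)) e
    have h2 := hw (ϕ l e) (h.lev l (by omega) e).le
    simp only [Ps, h1, h2]

lemma Ps_mix (h : Rp S F c m σ J ϕ p0) (hl : l < J) (ζ w : ι → ℝ) :
    Ps ϕ σ J p0 (l + 1) (mix S.lev l ζ w) =
      Ps ϕ σ J p0 l ζ + σ (J - 1 - l) • fun e => w (ϕ l e) := by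
  have h1 := h.dep_Ps l hl.le (mix S.lev l ζ w) ζ fun e he => by simp [mix, he]
  funext e
  have h2 := h.lev l hl e
  simp only [Ps, h1, Pi.add_apply, Pi.smul_apply, smul_eq_mul]
  congr 2
  simp only [mix, h2]
  rw [if_neg (by omega)]

lemma dep_l (h : Rp S F c m σ J ϕ p0) (hl : l ≤ J) (g : (κ → ℝ) → ℝ) :
    Dep S.lev l fun ζ => g (Ps ϕ σ J p0 l ζ) := by
  intro z w
  show g (Ps ϕ σ J p0 l (mix S.lev l z w)) = g (Ps ϕ σ J p0 l z)
  rw [h.dep_Ps l hl (mix S.lev l z w) z fun e he => by simp [mix, he]]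

/-- one level -/
lemma J_step (h : Rp S F c m σ J ϕ p0) (hl : l < J) {f : (κ → ℝ) → ℝ} (hf : Measurable f)
    (ζ : ι → ℝ) : Vale.Agent.P157.Lv.J S.lev l (fun z => f (Ps ϕ σ J p0 (l + 1) z)) ζ =
      ∫ u, f (Ps ϕ σ J p0 l ζ + σ (J - 1 - l) • u) ∂(gI κ) := by
  have hm : Measurable fun u : κ → ℝ => f (Ps ϕ σ J p0 l ζ + σ (J - 1 - l) • u) :=
    hf.comp (by fun_prop)
  have h1 := R1C.int_inj (h.inj l hl) hm
  rw [← h1]
  unfold Vale.Agent.P157.Lv.J
  simp only [h.Ps_mix hl]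

/-- **The log-weights are the deep functionals.** -/
theorem lg (h : Rp S F c m σ J ϕ p0) (hF : C11 F D B L) : ∀ l ≤ J, ∀ ζ,
    S.lg l ζ = FD F m σ (J - l) (Ps ϕ σ J p0 l ζ) + c := by
  have hK := h.K
  refine down_ind (P := fun l => ∀ ζ, S.lg l ζ = FD F m σ (J - l) (Ps ϕ σ J p0 l ζ) + c) ?_ ?_
  · intro ζ
    have h1 := h.top ζ
    rw [← lg_top, hK] at h1
    rw [h1, Nat.sub_self]
    rfl
  · intro l hl ih ζ
    have hlK : l < S.K := by omega
    have hx := h.m l hl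
    have hx0 : 0 < m (J - 1 - l) := h.mpos _ (by omega)
    have hc := c11_FD (σ := σ) hF (J - (l + 1)) fun j hj => h.mpos j (by omega)
    have hmf : Measurable fun u => Real.exp (m (J - 1 - l) * (FD F m σ (J - (l + 1)) u + c)) :=
      Real.measurable_exp.comp (((hc.lip.lip hc.B0).measurable.add_const _).const_mul _)
    rw [lg_step S hlK]
    unfold stp
    rw [hx]
    have e1 : (fun z => Real.exp (m (J - 1 - l) * S.lg (l + 1) z)) = fun z =>
        (fun u => Real.exp (m (J - 1 - l) * (FD F m σ (J - (l + 1)) u + c)))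
          (Ps ϕ σ J p0 (l + 1) z) := by
      funext z
      simp only [ih z]
    rw [e1, h.J_step hl hmf, show J - l = (J - (l + 1)) + 1 by omega, FD_succ]
    have e2 : (fun u : κ → ℝ => Real.exp (m (J - 1 - l) * (FD F m σ (J - (l + 1))
        (Ps ϕ σ J p0 l ζ + σ (J - 1 - l) • u) + c))) = fun u : κ → ℝ =>
        Real.exp (m (J - 1 - l) * FD F m σ (J - (l + 1))
          (Ps ϕ σ J p0 l ζ + σ (J - 1 - l) • u)) * Real.exp (m (J - 1 - l) * c) := by
      funext u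
      rw [← Real.exp_add, mul_add]
    simp only [e2]
    rw [integral_mul_const, show J - 1 - l = J - (l + 1) by omega]
    unfold W
    have hpos : 0 < ∫ u : κ → ℝ, Real.exp (m (J - (l + 1)) * FD F m σ (J - (l + 1))
        (Ps ϕ σ J p0 l ζ + σ (J - (l + 1)) • u)) ∂(gI κ) := C11.posx hc _ _ _
    rw [Real.log_mul hpos.ne' (Real.exp_pos _).ne', Real.log_exp, mul_add]
    rw [show J - 1 - l = J - (l + 1) by omega] at hx0
    field_simp

end Rp

lemma FD_add (F : (κ → ℝ) → ℝ) (m σ : ℕ → ℝ) (i : ℕ) : ∀ j,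
    FD (FD F m σ i) (fun j => m (i + j)) (fun j => σ (i + j)) j = FD F m σ (i + j)
  | 0 => rfl
  | j + 1 => by
    rw [FD_succ, FD_add F m σ i j]
    rfl

namespace Rp

/-- **The tilted averages are the deep means.** -/
theorem T_from (h : Rp S F c m σ J ϕ p0) (hF : C11 F D B L) {f : (ι → ℝ) → X → ℝ} (hf : Nh f)
    (hφ : EG φ) (hl : l ≤ J) (ht : ∀ ζ, S.T l f ζ = φ (Ps ϕ σ J p0 l ζ)) : ∀ j ≤ l, ∀ ζ,
    S.T j f ζ = TD (FD F m σ (J - l)) (fun i => m (J - l + i)) (fun i => σ (J - l + i)) φ (l - j)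
      (Ps ϕ σ J p0 j ζ) := by
  classical
  have hK := h.K
  refine down_ind (P := fun j => ∀ ζ, S.T j f ζ = TD (FD F m σ (J - l)) (fun i => m (J - l + i))
    (fun i => σ (J - l + i)) φ (l - j) (Ps ϕ σ J p0 j ζ)) ?_ ?_
  · intro ζ
    rw [ht ζ, Nat.sub_self]
    rfl
  · intro j hj ih ζ
    have hjK : j < S.K := by omega
    have hx := h.m j (by omega)
    have hc := c11_FD (σ := σ) hF (J - (j + 1)) fun i hi => h.mpos i (by omega)
    have hc' := c11_FD (σ := σ) hF (J - l) fun i hi => h.mpos i (by omega)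
    have hpos : ∀ i < l - (j + 1), 0 < m (J - l + i) := fun i hi => h.mpos _ (by omega)
    have hT := eg_TD (m := fun i => m (J - l + i)) (σ := fun i => σ (J - l + i)) hc' hφ
      (l - (j + 1)) hpos
    have hE : Measurable fun u => Real.exp (m (J - 1 - j) * (FD F m σ (J - (j + 1)) u + c)) :=
      Real.measurable_exp.comp (((hc.lip.lip hc.B0).measurable.add_const _).const_mul _)
    rw [T_ratio h.reg hjK hf ζ, hx]
    have e1 : (fun z => Real.exp (m (J - 1 - j) * S.lg (j + 1) z)) = fun z =>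
        (fun u => Real.exp (m (J - 1 - j) * (FD F m σ (J - (j + 1)) u + c)))
          (Ps ϕ σ J p0 (j + 1) z) := by
      funext z
      simp only [h.lg hF (j + 1) (by omega) z]
    have e2 : (fun z => Real.exp (m (J - 1 - j) * S.lg (j + 1) z) * S.T (j + 1) f z) = fun z =>
        (fun u => Real.exp (m (J - 1 - j) * (FD F m σ (J - (j + 1)) u + c)) *
          TD (FD F m σ (J - l)) (fun i => m (J - l + i)) (fun i => σ (J - l + i)) φ
            (l - (j + 1)) u) (Ps ϕ σ J p0 (j + 1) z) := by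
      funext z
      simp only [h.lg hF (j + 1) (by omega) z, ih z]
    have hE2 : Measurable fun u => Real.exp (m (J - 1 - j) * (FD F m σ (J - (j + 1)) u + c)) *
        TD (FD F m σ (J - l)) (fun i => m (J - l + i)) (fun i => σ (J - l + i)) φ
          (l - (j + 1)) u := hE.mul hT.meas
    rw [e1, e2, h.J_step (l := j) (by omega) hE, h.J_step (l := j) (by omega) hE2,
      show l - j = (l - (j + 1)) + 1 by omega, TD_succ, FD_add,
      show J - l + (l - (j + 1)) = J - (j + 1) by omega, show J - 1 - j = J - (j + 1) by omega]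
    have e3 : ∀ u : κ → ℝ, Real.exp (m (J - (j + 1)) * (FD F m σ (J - (j + 1))
        (Ps ϕ σ J p0 j ζ + σ (J - (j + 1)) • u) + c)) = Real.exp (m (J - (j + 1)) * c) *
        Real.exp (m (J - (j + 1)) * FD F m σ (J - (j + 1))
          (Ps ϕ σ J p0 j ζ + σ (J - (j + 1)) • u)) := by
      intro u
      rw [← Real.exp_add, mul_add, add_comm]
    simp only [e3, mul_assoc]
    rw [integral_const_mul, integral_const_mul, mul_div_mul_left _ _ (Real.exp_pos _).ne']
    rfl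

/-- the average of an observable of the configuration -/
theorem T_top (h : Rp S F c m σ J ϕ p0) (hF : C11 F D B L) {f : (ι → ℝ) → X → ℝ} (hf : Nh f)
    (hφ : EG φ) (ht : ∀ ζ, S.av f ζ = φ (Ps ϕ σ J p0 J ζ)) (hl : l ≤ J) (ζ : ι → ℝ) :
    S.T l f ζ = TD F m σ φ (J - l) (Ps ϕ σ J p0 l ζ) := by
  have hK := h.K
  have h1 := h.T_from hF hf hφ (l := J) le_rfl (fun ζ => by
    rw [← hK, h.reg.T_top, ht, hK]) l hl ζ
  rw [h1, Nat.sub_self]
  simp only [Nat.zero_add]
  rfl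

/-- the average of a function of the position of the level `l` -/
theorem Ex_pos (h : Rp S F c m σ J ϕ p0) (hF : C11 F D B L) (hg : EG g) (hl : l ≤ J)
    (hgp : EG fun ζ => g (Ps ϕ σ J p0 l ζ)) :
    S.Ex (fun ζ _ => g (Ps ϕ σ J p0 l ζ)) = ∫ ζ, TD (FD F m σ (J - l)) (fun i => m (J - l + i))
      (fun i => σ (J - l + i)) g l (p0 ζ) ∂(gI ι) := by
  have hK := h.K
  rw [h.reg.Ex_eq_T (fun _ => hgp)]
  refine integral_congr_ae (Filter.Eventually.of_forall fun ζ => ?_)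
  have h1 := h.T_from hF (f := fun ζ _ => g (Ps ϕ σ J p0 l ζ)) (fun _ => hgp) hg hl
    (fun ζ => h.reg.T_fst (by omega) (h.dep_l hl g) ζ) 0 (Nat.zero_le _) ζ
  rw [Nat.sub_zero] at h1
  exact h1

end Rp

variable {μ : X → (κ → ℝ) → ℝ}

lemma eg_pr (hF : C11 F D B L) (hμ : ∀ x, EG (μ x)) {i : ℕ} (hi : ∀ j < i, 0 < m j)
    (ψ : X → X → ℝ) : EG fun z => ∑ x, ∑ x', TD F m σ (μ x) i z * TD F m σ (μ x') i z * ψ x x' :=
  EG.sum _ fun x _ => EG.sum _ fun x' _ =>
    ((eg_TD hF (hμ x) i hi).mul (eg_TD hF (hμ x') i hi)).mul (EG.const _)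

/-- **The pairs.** -/
theorem Rp.pairEx [DecidableEq X] (h : Rp S F c m σ J ϕ p0) (hF : C11 F D B L) (hμ : ∀ x, EG (μ x))
    (hgb : ∀ ζ x, S.gb ζ x = μ x (Ps ϕ σ J p0 J ζ)) (hl : l ≤ J) (ψ : X → X → ℝ) :
    S.pairEx l ψ = ∫ ζ, pairD F μ m σ J (J - l) ψ (p0 ζ) ∂(gI ι) := by
  classical
  have hK := h.K
  have hlK : l ≤ S.K := by omega
  have e1 : ∀ x ζ, S.pr l ζ x = TD F m σ (μ x) (J - l) (Ps ϕ σ J p0 l ζ) := by
    intro x ζ
    unfold Sy.pr
    refine h.T_top hF (Nh.snd _) (hμ x) (fun ζ => ?_) hl ζ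
    show ∑ y, S.gb ζ y * (if y = x then 1 else 0) = _
    rw [Finset.sum_eq_single x (fun y _ hy => by rw [if_neg hy, mul_zero])
      (fun hx => absurd (Finset.mem_univ x) hx), if_pos rfl, mul_one, hgb]
  have hnh := h.reg.nh_pair hlK ψ
  unfold Sy.pairEx
  simp only [e1] at hnh ⊢
  rw [h.Ex_pos hF (g := fun z => ∑ x, ∑ x', TD F m σ (μ x) (J - l) z *
    TD F m σ (μ x') (J - l) z * ψ x x') (eg_pr hF hμ (fun j hj => h.mpos j (by omega)) ψ) hl hnh]
  unfold pairD
  rw [show J - (J - l) = l by omega]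

/-! ### the base system -/

/-- the exponents of the system -/
noncomputable def mS (m : ℕ → ℝ) (J l : ℕ) : ℝ := if l = 0 then 0 else if J < l then 1 else m (J - l)

lemma mS_succ (m : ℕ → ℝ) {J l : ℕ} (hl : l < J) : mS m J (l + 1) = m (J - 1 - l) := by
  unfold mS
  rw [if_neg (by omega), if_neg (by omega)]
  congr 1
  omega

lemma mS_mono {m : ℕ → ℝ} {J : ℕ} {x : ℝ} (h : Exs m J x) (l : ℕ) (hl : l ≤ J) :
    mS m J l ≤ mS m J (l + 1) := by
  rcases Nat.eq_or_lt_of_le hl with rfl | hlt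
  · have e : mS m l (l + 1) = 1 := by
      unfold mS
      rw [if_neg (by omega), if_pos (by omega)]
    rw [e]
    unfold mS
    split_ifs with h1 h2
    · exact zero_le_one
    · exact le_rfl
    · rw [Nat.sub_self]
      exact h.le 0 (by omega)
  · rw [mS_succ m hlt]
    unfold mS
    rw [if_neg (show ¬ J < l by omega)]
    split_ifs with h1
    · exact (h.pos _ (by omega)).le
    · have h2 := h.anti (J - 1 - l) (by omega)
      rwa [show J - 1 - l + 1 = J - l by omega] at h2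

lemma mS_one {m : ℕ → ℝ} {J : ℕ} {x : ℝ} (h : Exs m J x) : 0 < mS m J 1 := by
  rcases Nat.eq_zero_or_pos J with rfl | hJ
  · unfold mS
    simp
  · rw [mS_succ m hJ]
    exact h.pos _ (by omega)

/-- the coordinates of the levels -/
def cd (κ : Type) (J l : ℕ) (e : κ) : Fin (J + 1) × κ := (Fin.ofNat (J + 1) (l + 1), e)

lemma cd_inj (κ : Type) (J l : ℕ) : Function.Injective (cd κ J l) := fun _ _ h =>
  (Prod.ext_iff.1 h).2

lemma cd_lev {J l : ℕ} (hl : l < J) (e : κ) : ((cd κ J l e).1 : ℕ) = l + 1 :=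
  Nat.mod_eq_of_lt (by omega)

variable {p0' : (ι → ℝ) → κ → ℝ}

lemma lip_Ps (h0 : ∀ e, Lip fun ζ => p0' ζ e) (e : κ) : ∀ l, Lip fun ζ => Ps ϕ σ J p0' l ζ e
  | 0 => h0 e
  | l + 1 => (lip_Ps h0 e l).add ((Lip.coord _).const_mul _)

/-- The deep system of the Gibbs measure at the position `z`. -/
noncomputable def DS (k : ℝ) (S : κ → X → ℝ) (m σ : ℕ → ℝ) (J : ℕ) (z : κ → ℝ) :
    Sy (Fin (J + 1) × κ) X where
  lev p := p.1
  K := J
  m := mS m J
  H ζ x := k * ∑ e, S e x * Ps (cd κ J) σ J (fun _ => z) J ζ e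

section base

variable (k : ℝ) (S : κ → X → ℝ) {x : ℝ} (z : κ → ℝ)

lemma DS_reg (h : Exs m J x) (σ : ℕ → ℝ) : (DS k S m σ J z).Reg where
  m0 := by simp [DS, mS]
  mK := by
    show mS m J (J + 1) = 1
    unfold mS
    rw [if_neg (by omega), if_pos (by omega)]
  mono l hl := mS_mono h l hl
  pos := mS_one h
  lev p := Nat.lt_succ_iff.1 p.1.isLt
  lip x := by
    refine Lip.const_mul (Lip.sum _ fun e _ => ?_) k
    exact Lip.const_mul (lip_Ps (fun e => Lip.const (z e)) e J) _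

variable [DecidableEq κ]

lemma DS_rp (h : Exs m J x) (σ : ℕ → ℝ) :
    Rp (DS k S m σ J z) (H332.lz k S) 0 m σ J (cd κ J) (fun _ => z) where
  reg := DS_reg k S z h σ
  K := rfl
  m l hl := mS_succ m hl
  inj l _ := cd_inj κ J l
  lev l hl e := cd_lev hl e
  dep _ _ _ := rfl
  top ζ := by
    rw [add_zero]
    rfl

lemma DS_gb (σ : ℕ → ℝ) (ζ : Fin (J + 1) × κ → ℝ) (a : X) : (DS k S m σ J z).gb ζ a =
    H941.gm k S (Ps (cd κ J) σ J (fun _ => z) J ζ) a := rfl

/-- **The deep functional is the free energy of a system.** -/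
theorem DS_fe (h : Exs m J x) (σ : ℕ → ℝ) : (DS k S m σ J z).fe = FD (H332.lz k S) m σ J z := by
  have h1 := (DS_rp k S z h σ).lg (H332.c11_lz k S) 0 (Nat.zero_le _)
  unfold Sy.fe
  simp only [h1, Nat.sub_zero, add_zero]
  show ∫ _, FD (H332.lz k S) m σ J z ∂_ = _
  simp

/-- **The averages over pairs of replicas.** -/
theorem DS_pair [DecidableEq X] (h : Exs m J x) (σ : ℕ → ℝ) (hl : l ≤ J) (ψ : X → X → ℝ) :
    (DS k S m σ J z).pairEx l ψ =
      pairD (H332.lz k S) (fun a u => H941.gm k S u a) m σ J (J - l) ψ z := by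
  have h1 := (DS_rp k S z h σ).pairEx (H332.c11_lz k S) (μ := fun a u => H941.gm k S u a)
    (fun a => EG.of_bdd (C := 1) ((H941.rt_lz k S).meas a) fun y => by
      have h2 := (H941.rt_lz k S).m0 y a
      rw [abs_of_nonneg h2]
      exact (H941.rt_lz k S).le_one y a)
    (fun ζ a => DS_gb k S z σ ζ a) hl ψ
  rw [h1]
  show ∫ _, pairD (H332.lz k S) (fun a u => H941.gm k S u a) m σ J (J - l) ψ z ∂_ = _
  simp

end base

end Vale.Agent.P146.H784
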