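import Vale.Agent.P146.H784.Pert
import Vale.Agent.P146.Bdl.B25

set_option linter.all false

/-!
Second order Gaussian interpolation for linear systems. `hh l = cov_l alpha - cov_l beta` is the
difference of the covariances at the level `l`; along the interpolation the pair averages
`sum_l p_l E_l hh_l` change at most by a constant times `sum_l p_l E_l (hh_l - c_l)^2`.
-/

open MeasureTheory ProbabilityTheory Filter Topology

namespace Vale.Agent.P146.H784

open Vale.Agent.P157 Vale.Agent.P157.Lv Vale.Agent.P157.Lv.Sy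
open Vale.Agent.P157.Par (Path Exponents incr)
open Vale.Agent.P146.Ub (ls cv ith ls_regD ls_wH lin_add' lin_smul' lin_ith ls_interp ls_pair_sum
  ls_T_sq)

variable {ι X : Type} [Fintype ι] [DecidableEq ι] [Fintype X] [DecidableEq X] [Nonempty X]
  {S : Sy ι X} {l j K : ℕ} {lev : ι → ℕ} {m : ℕ → ℝ} {c : ℝ} {a α β : X → ι → ℝ}

/-- the difference of the covariances at the level `l` -/
noncomputable def hh (lev : ι → ℕ) (α β : X → ι → ℝ) (l : ℕ) (x x' : X) : ℝ :=
  cv lev l α α x x' - cv lev l β β x x'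

/-- the interpolating system -/
noncomputable def iS (S : Sy ι X) (α β : X → ι → ℝ) (θ : ℝ) : Sy ι X :=
  S.wH (it S.H (fun x => x) α β θ)

/-- the difference of the variances -/
noncomputable def dg (α β : X → ι → ℝ) (x : X) : ℝ := ∑ e, (α x e ^ 2 - β x e ^ 2)

/-- the derivative along the interpolation, without the factor `sin cos` -/
noncomputable def bk (S : Sy ι X) (α β : X → ι → ℝ) (θ : ℝ) : ℝ :=
  (iS S α β θ).Ex (fun _ x => dg α β x) -
    ∑ l ∈ Finset.range (S.K + 1), S.p l * (iS S α β θ).pairEx l (hh S.lev α β l)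

lemma pot_id' : Pot (fun x : ℝ => x) (fun _ => 1) (fun _ => 0) 1 0 :=
  ⟨fun x => hasDerivAt_id x, fun x => hasDerivAt_const x 1, fun _ => by simp, fun _ => by simp⟩

lemma iS_reg {D : ι → (ι → ℝ) → X → ℝ} (hS : S.RegD D) (α β : X → ι → ℝ) (θ : ℝ) :
    (iS S α β θ).Reg := (regD_it (α := α) (β := β) hS pot_id' θ).toReg

lemma brk_eq {D : ι → (ι → ℝ) → X → ℝ} (hS : S.RegD D) (α β : X → ι → ℝ) (θ : ℝ) :
    brk S (fun x : ℝ => x) (fun _ => 1) (fun _ => 0) α β θ = bk S α β θ := by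
  have hR := iS_reg hS α β θ
  unfold brk bk
  change (iS S α β θ).Ex _ - _ = _
  have hK : (iS S α β θ).K = S.K := rfl
  congr 1
  · congr 1
    funext z x
    unfold dg
    rw [Finset.sum_sub_distrib]
    ring
  · refine Finset.sum_congr rfl fun l hl' => ?_
    have hl'' : l ≤ (iS S α β θ).K := by
      have := Finset.mem_range.1 hl'
      show l ≤ S.K
      omega
    congr 1
    have e1 : hh S.lev α β l =
        fun x x' => ∑ e, if S.lev e ≤ l then α x e * α x' e - β x e * β x' e else 0 := by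
      funext x x'
      unfold hh cv
      rw [← Finset.sum_sub_distrib]
      refine Finset.sum_congr rfl fun e _ => ?_
      split_ifs
      · rfl
      · rw [sub_zero]
    rw [e1, pairEx_sum hR hl'']
    refine Finset.sum_congr rfl fun e _ => ?_
    change (if S.lev e ≤ l then (iS S α β θ).Ex (fun z _ =>
        (iS S α β θ).T l (fun z x => 1 * α x e) z ^ 2) -
      (iS S α β θ).Ex (fun z _ => (iS S α β θ).T l (fun z x => 1 * β x e) z ^ 2) else 0) = _
    split_ifs
    · simp only [one_mul]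
      rw [ls_T_sq hR hl'' (fun x => α x e), ls_T_sq hR hl'' (fun x => β x e)]
      have h5 := hR.pairEx_add hl'' (fun x x' => α x e * α x' e)
        (fun x x' => -1 * (β x e * β x' e))
      rw [hR.pairEx_const_mul l (-1)] at h5
      have e2 : (fun x x' => α x e * α x' e + -1 * (β x e * β x' e)) =
          fun x x' => α x e * α x' e - β x e * β x' e := by
        funext x x'
        ring
      rw [e2] at h5
      rw [h5]
      ring
    · rw [hR.pairEx_const hl'']

lemma iS_swap (S : Sy ι X) (α β : X → ι → ℝ) (θ : ℝ) :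
    iS S β α (Real.pi / 2 - θ) = iS S α β θ := by
  unfold iS it itU
  congr 1
  funext z x
  rw [Real.sin_pi_div_two_sub, Real.cos_pi_div_two_sub]
  ring

lemma bk_swap {D : ι → (ι → ℝ) → X → ℝ} (hS : S.RegD D) (α β : X → ι → ℝ) (θ : ℝ) :
    bk S β α (Real.pi / 2 - θ) = -bk S α β θ := by
  have hR := iS_reg hS α β θ
  unfold bk
  rw [iS_swap, neg_sub]
  have e1 : (fun (_ : ι → ℝ) x => dg β α x) = fun _ x => -1 * dg α β x := by
    funext _ x
    unfold dg
    rw [Finset.mul_sum]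
    refine Finset.sum_congr rfl fun e _ => ?_
    ring
  have e2 : ∀ l ∈ Finset.range (S.K + 1), S.p l * (iS S α β θ).pairEx l (hh S.lev β α l) =
      -(S.p l * (iS S α β θ).pairEx l (hh S.lev α β l)) := by
    intro l hl
    have e3 : hh S.lev β α l = fun x x' => -1 * hh S.lev α β l x x' := by
      funext x x'
      unfold hh
      ring
    rw [e3, hR.pairEx_const_mul]
    ring
  rw [e1, Sy.Ex_const_mul, Finset.sum_congr rfl e2, Finset.sum_neg_distrib]
  ring

/-- **One step of the interpolation**, both sides. -/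
theorem step2 {D : ι → (ι → ℝ) → X → ℝ} (hS : S.RegD D) (hs : Lv.Sep D α β) :
    ∃ M : ℝ, 0 ≤ M ∧ ∀ t t', t ≤ t' →
      (iS S α β t').fe - (iS S α β t).fe ≤
        (t' - t) * (Real.sin t' * Real.cos t' * bk S α β t') + (t' - t) ^ 2 * M ∧
      (t' - t) * (Real.sin t * Real.cos t * bk S α β t) - (t' - t) ^ 2 * M ≤
        (iS S α β t').fe - (iS S α β t).fe := by
  have hs' : Lv.Sep D β α := ⟨fun e x x' => by rw [mul_comm]; exact hs.disj e x' x,
    fun e x h => hs.indep e x (Or.symm h)⟩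
  obtain ⟨M1, h1, hM1⟩ := li2_ExM hS pot_id' α β
  obtain ⟨M2, h2, hM2⟩ := li2_ExM hS pot_id' β α
  refine ⟨M1 + M2, by positivity, fun t t' htt => ⟨?_, ?_⟩⟩
  · have h3 := li2_step hS pot_id' hs hM1 htt
    rw [brk_eq hS] at h3
    refine h3.trans ?_
    have := mul_nonneg (sq_nonneg (t' - t)) h2
    linarith
  · have h3 := li2_step hS pot_id' hs' hM2 (t := Real.pi / 2 - t') (t' := Real.pi / 2 - t)
      (by linarith)
    rw [brk_eq hS, bk_swap hS, Real.sin_pi_div_two_sub, Real.cos_pi_div_two_sub] at h3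
    change (iS S β α (Real.pi / 2 - t)).fe - (iS S β α (Real.pi / 2 - t')).fe ≤ _ at h3
    rw [iS_swap, iS_swap] at h3
    have := mul_nonneg (sq_nonneg (t' - t)) h1
    have e : (Real.pi / 2 - t - (Real.pi / 2 - t')) = t' - t := by ring
    rw [e] at h3
    linarith

/-! ### The doubled linear system -/

/-- the doubled exponents -/
noncomputable def m2 (l : ℕ) (m : ℕ → ℝ) : ℕ → ℝ := fun j => if j ≤ l then m j / 2 else m j

/-- the doubled coefficients -/
noncomputable def a2 (lev : ι → ℕ) (l : ℕ) (a : X → ι → ℝ) : X × X → ι ⊕ ι → ℝ := fun y =>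
  Sum.elim (fun e => a y.1 e + if lev e ≤ l then a y.2 e else 0)
    (fun e => if lev e ≤ l then 0 else a y.2 e)

lemma lin_a2 (lev : ι → ℕ) (l : ℕ) (a : X → ι → ℝ) (y : X × X) (z : ι ⊕ ι → ℝ) :
    lin (a2 lev l a y) z = lin (a y.1) (z1 z) + lin (a y.2) (z2 lev l z) := by
  unfold lin a2 z2 mix z1
  rw [Fintype.sum_sum_type, ← Finset.sum_add_distrib, ← Finset.sum_add_distrib]
  refine Finset.sum_congr rfl fun e _ => ?_
  simp only [Sum.elim_inl, Sum.elim_inr]
  split_ifs <;> ring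

lemma dbl_ls (lev : ι → ℕ) (K : ℕ) (m : ℕ → ℝ) (c : ℝ) (a : X → ι → ℝ) (l : ℕ) :
    dbl (ls lev K m c a) l = ls (Sum.elim lev lev) K (m2 l m) (2 * c) (a2 lev l a) := by
  unfold dbl ls m2
  congr 1
  funext z y
  show lin (a y.1) (z1 z) + c + (lin (a y.2) (z2 lev l z) + c) = lin (a2 lev l a y) z + 2 * c
  rw [lin_a2]
  ring

lemma exp_pos' (hm : Exponents K m) {l : ℕ} (hl : l ≤ K + 1) : 0 ≤ m l := by
  induction l with
  | zero => rw [hm.1]
  | succ l ih => exact (ih (by omega)).trans (hm.2.2 l (by omega)).le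

lemma exp_le_one (hm : Exponents K m) {l : ℕ} (hl : l ≤ K + 1) : m l ≤ 1 := by
  have : ∀ i, l + i ≤ K + 1 → m l ≤ m (l + i) := by
    intro i
    induction i with
    | zero => intro _; exact le_rfl
    | succ i ih => intro h; exact (ih (by omega)).trans (hm.2.2 (l + i) (by omega)).le
  have h := this (K + 1 - l) (by omega)
  rwa [show l + (K + 1 - l) = K + 1 by omega, hm.2.1] at h

lemma m2_exp (hm : Exponents K m) {l : ℕ} (hl : l ≤ K) : Exponents K (m2 l m) := by
  unfold m2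
  refine ⟨by simp [hm.1], by
    show (if K + 1 ≤ l then m (K + 1) / 2 else m (K + 1)) = 1
    rw [if_neg (by omega), hm.2.1], fun j hj => ?_⟩
  have h1 := hm.2.2 j hj
  have h0 := exp_pos' hm (l := j) (by omega)
  show (if j ≤ l then m j / 2 else m j) < (if j + 1 ≤ l then m (j + 1) / 2 else m (j + 1))
  split_ifs
  · linarith
  · linarith
  · omega
  · exact h1

lemma a2_ith (lev : ι → ℕ) (l : ℕ) (a α β : X → ι → ℝ) (θ : ℝ) :
    a2 lev l (ith a α β θ) = ith (a2 lev l a) (a2 lev l α) (a2 lev l β) θ := by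
  funext y e
  unfold a2 ith
  rcases e with e | e
  · simp only [Sum.elim_inl]
    split_ifs <;> ring
  · simp only [Sum.elim_inr]
    split_ifs <;> ring

lemma lev2_le (hl : ∀ e, lev e ≤ K) : ∀ e, Sum.elim lev lev e ≤ K := by
  rintro (e | e)
  · exact hl e
  · exact hl e

/-- the covariances of the doubled fields -/
lemma cv_a2 (lev : ι → ℕ) (l j : ℕ) (α β : X → ι → ℝ) (y y' : X × X) :
    cv (Sum.elim lev lev) j (a2 lev l α) (a2 lev l β) y y' =
      cv lev j α β y.1 y'.1 + cv lev j α β y.2 y'.2 + cv lev (min j l) α β y.1 y'.2 +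
        cv lev (min j l) α β y.2 y'.1 := by
  unfold cv a2
  rw [Fintype.sum_sum_type, ← Finset.sum_add_distrib, ← Finset.sum_add_distrib,
    ← Finset.sum_add_distrib, ← Finset.sum_add_distrib]
  refine Finset.sum_congr rfl fun e _ => ?_
  simp only [Sum.elim_inl, Sum.elim_inr, le_min_iff]
  by_cases h : lev e ≤ j
  · by_cases h' : lev e ≤ l
    · simp only [h, h', if_true, and_self, and_true]
      ring
    · simp only [h, h', if_true, if_false, and_false]
      ring
  · simp only [h, if_false, false_and]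
    ring

lemma hh_a2 (lev : ι → ℕ) (l j : ℕ) (α β : X → ι → ℝ) (y y' : X × X) :
    hh (Sum.elim lev lev) (a2 lev l α) (a2 lev l β) j y y' =
      hh lev α β j y.1 y'.1 + hh lev α β j y.2 y'.2 + hh lev α β (min j l) y.1 y'.2 +
        hh lev α β (min j l) y.2 y'.1 := by
  unfold hh
  rw [cv_a2, cv_a2]
  ring

lemma dg_a2 (lev : ι → ℕ) (l : ℕ) (α β : X → ι → ℝ) (y : X × X) :
    dg (a2 lev l α) (a2 lev l β) y = dg α β y.1 + dg α β y.2 + 2 * hh lev α β l y.1 y.2 := by
  unfold dg hh cv a2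
  rw [Fintype.sum_sum_type, ← Finset.sum_sub_distrib, Finset.mul_sum, ← Finset.sum_add_distrib,
    ← Finset.sum_add_distrib, ← Finset.sum_add_distrib]
  refine Finset.sum_congr rfl fun e _ => ?_
  simp only [Sum.elim_inl, Sum.elim_inr]
  split_ifs <;> ring

lemma sep_a2 (lev : ι → ℕ) (l : ℕ) (hαβ : ∀ e x x', α x e * β x' e = 0)
    (hαa : ∀ e x x', α x e * a x' e = 0) (hβa : ∀ e x x', β x e * a x' e = 0) :
    Lv.Sep (fun e (_ : ι ⊕ ι → ℝ) y => a2 lev l a y e) (a2 lev l α) (a2 lev l β) := by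
  have key : ∀ {u v : X → ι → ℝ}, (∀ e x x', u x e * v x' e = 0) →
      ∀ e y y', a2 lev l u y e * a2 lev l v y' e = 0 := by
    intro u v h e y y'
    unfold a2
    rcases e with e | e
    · simp only [Sum.elim_inl]
      split_ifs
      · linear_combination h e y.1 y'.1 + h e y.1 y'.2 + h e y.2 y'.1 + h e y.2 y'.2
      · linear_combination h e y.1 y'.1
    · simp only [Sum.elim_inr]
      split_ifs
      · ring
      · exact h e y.2 y'.2
  refine ⟨key hαβ, fun e x h z y => ?_⟩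
  rcases h with h | h
  · exact (mul_eq_zero.mp (key hαa e x y)).resolve_left h
  · exact (mul_eq_zero.mp (key hβa e x y)).resolve_left h

/-- the doubled system with a perturbation, regularity -/
lemma ad_regD {D : ι → (ι → ℝ) → X → ℝ} (hS : S.RegD D) (f : X → ℝ) : (ad S f).RegD D where
  toReg := ad_reg hS.toReg f
  pd := fun e x => by
    have h := (hS.pd e x).add (PD.const (e := e) (f x))
    exact h.congr fun _ => add_zero _
  md := hS.md
  bd := hS.bd

/-- the interpolating linear system -/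
noncomputable def Lth (lev : ι → ℕ) (K : ℕ) (m : ℕ → ℝ) (c : ℝ) (a α β : X → ι → ℝ) (θ : ℝ) :
    Sy ι X := ls lev K m c (ith a α β θ)

lemma iS_ls (lev : ι → ℕ) (K : ℕ) (m : ℕ → ℝ) (c : ℝ) (a α β : X → ι → ℝ) (θ : ℝ) :
    iS (ls lev K m c a) α β θ = Lth lev K m c a α β θ := by
  unfold iS Lth
  refine ls_wH _ _ _ _ _ _ _ fun z x => ?_
  rw [lin_ith]
  show lin (a x) z + c + itU α β θ z x = _
  ring

lemma iS_ad (S : Sy ι X) (f : X → ℝ) (α β : X → ι → ℝ) (θ : ℝ) :
    iS (ad S f) α β θ = ad (iS S α β θ) f := by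
  unfold iS ad Sy.wH it
  congr 1
  funext z x
  show S.H z x + f x + itU α β θ z x = S.H z x + itU α β θ z x + f x
  ring

/-- the doubled interpolating system -/
lemma iS_dbl (lev : ι → ℕ) (K : ℕ) (m : ℕ → ℝ) (c : ℝ) (a α β : X → ι → ℝ) (θ : ℝ) (l : ℕ) :
    iS (ls (Sum.elim lev lev) K (m2 l m) (2 * c) (a2 lev l a)) (a2 lev l α) (a2 lev l β) θ =
      dbl (Lth lev K m c a α β θ) l := by
  rw [iS_ls]
  unfold Lth
  rw [dbl_ls, a2_ith]

/-! ### The change of the pair averages under a perturbation -/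

lemma dbl_ad (S : Sy ι X) (f : X → ℝ) (j : ℕ) :
    dbl (ad S f) j = ad (dbl S j) (fun w => f w.1 + f w.2) := by
  unfold dbl ad Sy.wH
  congr 1
  funext z y
  show S.H (z1 z) y.1 + f y.1 + (S.H (z2 S.lev j z) y.2 + f y.2) =
    S.H (z1 z) y.1 + S.H (z2 S.lev j z) y.2 + (f y.1 + f y.2)
  ring

theorem abs_ad_pair_le (hS : S.Reg) (hj : j ≤ S.K) (f : X → ℝ) (G : X → X → ℝ) {C δ : ℝ}
    (hδ : 0 < δ) (hC : δ * (2 * C) ≤ 1) (hf : ∀ x, 2 * |f x| ≤ C) (hG : ∀ x x', |G x x'| ≤ C) :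
    |(ad S (fun x => δ * f x)).pairEx j G - S.pairEx j G| ≤
      2 * δ * (4 * S.Ex (fun _ x => f x ^ 2) + S.pairEx j (fun x x' => G x x' ^ 2)) := by
  have hR := dbl_reg hS hj
  have h1 := abs_ad_Ex_le hR (fun w => f w.1 + f w.2) (fun w => G w.1 w.2) hδ hC
    (fun w => (abs_add_le _ _).trans (by linarith [hf w.1, hf w.2])) (fun w => hG _ _)
  have e1 : (ad (dbl S j) (fun w => δ * (f w.1 + f w.2))) = dbl (ad S (fun x => δ * f x)) j := by
    rw [dbl_ad]
    congr 1
    funext w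
    ring
  rw [e1, dbl_Ex_pair (ad_reg hS _) (show j ≤ (ad S (fun x => δ * f x)).K from hj) G,
    dbl_Ex_pair hS hj G] at h1
  refine h1.trans (mul_le_mul_of_nonneg_left ?_ (by linarith))
  have e2 : (dbl S j).Ex (fun _ (w : X × X) => G w.1 w.2 ^ 2) =
      S.pairEx j (fun x x' => G x x' ^ 2) := dbl_Ex_pair hS hj (fun x x' => G x x' ^ 2)
  have e3 : (dbl S j).Ex (fun _ (w : X × X) => (f w.1 + f w.2) ^ 2) =
      S.pairEx j (fun x x' => (f x + f x') ^ 2) := dbl_Ex_pair hS hj (fun x x' => (f x + f x') ^ 2)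
  rw [e2, e3]
  have h2 : S.pairEx j (fun x x' => (f x + f x') ^ 2) ≤
      S.pairEx j (fun x x' => 2 * f x ^ 2 + 2 * f x' ^ 2) :=
    hS.pairEx_mono hj fun x x' => by nlinarith [sq_nonneg (f x - f x')]
  rw [hS.pairEx_add hj (fun x _ => 2 * f x ^ 2) (fun _ x' => 2 * f x' ^ 2),
    pairEx_fst hS hj (fun x => 2 * f x ^ 2), pairEx_snd hS hj (fun x => 2 * f x ^ 2),
    Sy.Ex_const_mul] at h2
  linarith

/-! ### The main estimate -/

/-- the quadratic error at the level `j` -/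
noncomputable def vv (lev : ι → ℕ) (K : ℕ) (m : ℕ → ℝ) (c : ℝ) (a α β : X → ι → ℝ) (cc : ℕ → ℝ)
    (θ : ℝ) (j : ℕ) : ℝ :=
  (Lth lev K m c a α β θ).pairEx j (fun x x' => (hh lev α β j x x' - cc j) ^ 2)

lemma Lth_reg (hm : Exponents K m) (hlev : ∀ e, lev e ≤ K) (c : ℝ) (a α β : X → ι → ℝ) (θ : ℝ) :
    (Lth lev K m c a α β θ).Reg := (ls_regD hm hlev c _).toReg

lemma vv_nonneg (hm : Exponents K m) (hlev : ∀ e, lev e ≤ K) (cc : ℕ → ℝ) (θ : ℝ) {j : ℕ}
    (hj : j ≤ K) : 0 ≤ vv lev K m c a α β cc θ j :=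
  (Lth_reg hm hlev c a α β θ).pairEx_nonneg (show j ≤ (Lth lev K m c a α β θ).K from hj)
    fun _ _ => sq_nonneg _

/-- the square of the doubled covariance difference -/
lemma pair_hh2 (hm : Exponents K m) (hlev : ∀ e, lev e ≤ K) (cc : ℕ → ℝ) (θ : ℝ) {l j : ℕ}
    (hl : l ≤ K) (hj : j ≤ K) :
    (dbl (Lth lev K m c a α β θ) l).pairEx j (fun y y' =>
      (hh (Sum.elim lev lev) (a2 lev l α) (a2 lev l β) j y y' -
        (2 * cc j + 2 * cc (min j l))) ^ 2) ≤
      8 * vv lev K m c a α β cc θ j + 8 * vv lev K m c a α β cc θ (min j l) := by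
  have hL := Lth_reg hm hlev c a α β θ
  have hl' : l ≤ (Lth lev K m c a α β θ).K := hl
  have hj' : j ≤ (Lth lev K m c a α β θ).K := hj
  have hR := dbl_reg hL hl'
  have hjR : j ≤ (dbl (Lth lev K m c a α β θ) l).K := hj
  obtain ⟨ψ, hψ⟩ : ∃ ψ : ℕ → X → X → ℝ, ψ = fun j x x' => (hh lev α β j x x' - cc j) ^ 2 := ⟨_, rfl⟩
  have h1 : (dbl (Lth lev K m c a α β θ) l).pairEx j (fun y y' =>
      (hh (Sum.elim lev lev) (a2 lev l α) (a2 lev l β) j y y' -
        (2 * cc j + 2 * cc (min j l))) ^ 2) ≤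
      (dbl (Lth lev K m c a α β θ) l).pairEx j (fun y y' =>
        ((4 * ψ j y.1 y'.1 + 4 * ψ j y.2 y'.2) + 4 * ψ (min j l) y.1 y'.2) +
          4 * ψ (min j l) y.2 y'.1) := by
    refine hR.pairEx_mono hjR fun y y' => ?_
    rw [hh_a2, hψ]
    simp only
    obtain ⟨A, hA⟩ : ∃ A, A = hh lev α β j y.1 y'.1 - cc j := ⟨_, rfl⟩
    obtain ⟨B, hB⟩ : ∃ B, B = hh lev α β j y.2 y'.2 - cc j := ⟨_, rfl⟩
    obtain ⟨C, hC⟩ : ∃ C, C = hh lev α β (min j l) y.1 y'.2 - cc (min j l) := ⟨_, rfl⟩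
    obtain ⟨D, hD⟩ : ∃ D, D = hh lev α β (min j l) y.2 y'.1 - cc (min j l) := ⟨_, rfl⟩
    rw [← hA, ← hB, ← hC, ← hD]
    have e : hh lev α β j y.1 y'.1 + hh lev α β j y.2 y'.2 + hh lev α β (min j l) y.1 y'.2 +
        hh lev α β (min j l) y.2 y'.1 - (2 * cc j + 2 * cc (min j l)) = A + B + C + D := by
      rw [hA, hB, hC, hD]
      ring
    rw [e]
    nlinarith [sq_nonneg (A - B), sq_nonneg (C - D), sq_nonneg (A - C), sq_nonneg (A - D),
      sq_nonneg (B - C), sq_nonneg (B - D)]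
  rw [hR.pairEx_add hjR (fun y y' => (4 * ψ j y.1 y'.1 + 4 * ψ j y.2 y'.2) +
      4 * ψ (min j l) y.1 y'.2) (fun y y' => 4 * ψ (min j l) y.2 y'.1),
    hR.pairEx_add hjR (fun y y' => 4 * ψ j y.1 y'.1 + 4 * ψ j y.2 y'.2)
      (fun y y' => 4 * ψ (min j l) y.1 y'.2),
    hR.pairEx_add hjR (fun y y' => 4 * ψ j y.1 y'.1) (fun y y' => 4 * ψ j y.2 y'.2),
    hR.pairEx_const_mul, hR.pairEx_const_mul, hR.pairEx_const_mul, hR.pairEx_const_mul,
    dbl_pair11 hL hl' hj' (ψ j), dbl_pair22 hL hl' hj' (ψ j),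
    dbl_pair12 hL hl' hj' (ψ (min j l)), dbl_pair21 hL hl' hj' (ψ (min j l))] at h1
  have e1 : (Lth lev K m c a α β θ).pairEx j (ψ j) = vv lev K m c a α β cc θ j := by
    rw [hψ]; rfl
  have e2 : (Lth lev K m c a α β θ).pairEx (min j l) (ψ (min j l)) =
      vv lev K m c a α β cc θ (min j l) := by
    rw [hψ]; rfl
  rw [e1, e2] at h1
  linarith

/-- the exponent weights of the doubled system -/
lemma p2_le (hm : Exponents K m) {l j : ℕ} (hl : l ≤ K) (hj : j ≤ K) :
    m2 l m (j + 1) - m2 l m j ≤ m (j + 1) - m j + if j = l then 1 / 2 else 0 := by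
  unfold m2
  have h1 := hm.2.2 j hj
  have h0 := exp_pos' hm (l := j) (by omega)
  have h2 := exp_le_one hm (l := j) (by omega)
  show (if j + 1 ≤ l then m (j + 1) / 2 else m (j + 1)) - (if j ≤ l then m j / 2 else m j) ≤ _
  by_cases h3 : j + 1 ≤ l
  · rw [if_pos h3, if_pos (by omega), if_neg (by omega)]
    linarith
  · by_cases h4 : j ≤ l
    · have h5 : j = l := by omega
      rw [if_neg h3, if_pos h4, if_pos h5]
      linarith
    · rw [if_neg h3, if_neg h4, if_neg (by omega)]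
      linarith

lemma p2_nonneg (hm : Exponents K m) {l j : ℕ} (hl : l ≤ K) (hj : j ≤ K) :
    0 ≤ m2 l m (j + 1) - m2 l m j := by
  have := (m2_exp hm hl).2.2 j hj
  linarith

lemma sum_p (hm : Exponents K m) : ∑ j ∈ Finset.range (K + 1), (m (j + 1) - m j) = 1 := by
  rw [Finset.sum_range_sub, hm.1, hm.2.1]
  ring

/-- **The change of the bracket under a perturbation.** -/
theorem bk_diff (hm : Exponents K m) (hlev : ∀ e, lev e ≤ K) (cc : ℕ → ℝ) (θ : ℝ) {l : ℕ}
    (hl : l ≤ K) {κ : ℝ} (hκ : ∀ x, dg α β x = κ) (f : X → X → ℝ) {C δ : ℝ} (hδ : 0 < δ)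
    (hC : δ * (2 * C) ≤ 1) (hf : ∀ x x', 2 * |f x x'| ≤ C)
    (hh1 : ∀ j ≤ K, ∀ x x', 4 * |hh lev α β j x x' - cc j| ≤ C) :
    |bk (ad (ls (Sum.elim lev lev) K (m2 l m) (2 * c) (a2 lev l a)) (fun y => δ * f y.1 y.2))
        (a2 lev l α) (a2 lev l β) θ -
      bk (ls (Sum.elim lev lev) K (m2 l m) (2 * c) (a2 lev l a)) (a2 lev l α) (a2 lev l β) θ| ≤
    δ * (12 * (Lth lev K m c a α β θ).pairEx l (fun x x' => f x x' ^ 2) +
      36 * vv lev K m c a α β cc θ l +
      32 * ∑ j ∈ Finset.range (K + 1), (m (j + 1) - m j) * vv lev K m c a α β cc θ j) := by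
  have hL := Lth_reg hm hlev c a α β θ
  have hl' : l ≤ (Lth lev K m c a α β θ).K := hl
  have hR := dbl_reg hL hl'
  obtain ⟨U, hU⟩ : ∃ U, U = dbl (Lth lev K m c a α β θ) l := ⟨_, rfl⟩
  have hC0 : 0 ≤ C := by
    obtain ⟨x⟩ := ‹Nonempty X›
    have := hf x x
    have h2 := abs_nonneg (f x x)
    linarith
  have hm2 := m2_exp hm hl
  unfold bk
  rw [iS_ad, iS_dbl]
  change |(ad (dbl (Lth lev K m c a α β θ) l) (fun y => δ * f y.1 y.2)).Ex
      (fun _ x => dg (a2 lev l α) (a2 lev l β) x) -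
    ∑ j ∈ Finset.range (K + 1), (m2 l m (j + 1) - m2 l m j) *
      (ad (dbl (Lth lev K m c a α β θ) l) (fun y => δ * f y.1 y.2)).pairEx j
        (hh (Sum.elim lev lev) (a2 lev l α) (a2 lev l β) j) -
    ((dbl (Lth lev K m c a α β θ) l).Ex (fun _ x => dg (a2 lev l α) (a2 lev l β) x) -
    ∑ j ∈ Finset.range (K + 1), (m2 l m (j + 1) - m2 l m j) *
      (dbl (Lth lev K m c a α β θ) l).pairEx j
        (hh (Sum.elim lev lev) (a2 lev l α) (a2 lev l β) j))| ≤ _
  rw [← hU] at hR ⊢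
  have hV := ad_reg hR (fun y => δ * f y.1 y.2)
  obtain ⟨V, hVd⟩ : ∃ V, V = ad U (fun y => δ * f y.1 y.2) := ⟨_, rfl⟩
  rw [← hVd] at hV ⊢
  obtain ⟨φ, hφ⟩ : ∃ φ, φ = (Lth lev K m c a α β θ).pairEx l (fun x x' => f x x' ^ 2) := ⟨_, rfl⟩
  have hEf : U.Ex (fun _ y => f y.1 y.2 ^ 2) = φ := by
    rw [hU, hφ]
    exact dbl_Ex_pair hL hl' (fun x x' => f x x' ^ 2)
  have hφ0 : 0 ≤ φ := by
    rw [hφ]
    exact hL.pairEx_nonneg hl' fun _ _ => sq_nonneg _
  rw [← hφ]
  -- the diagonal part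
  have d1 : |V.Ex (fun _ y => dg (a2 lev l α) (a2 lev l β) y) -
      U.Ex (fun _ y => dg (a2 lev l α) (a2 lev l β) y)| ≤
        2 * (2 * δ * (φ + vv lev K m c a α β cc θ l)) := by
    have e1 : (fun (_ : ι ⊕ ι → ℝ) (y : X × X) => dg (a2 lev l α) (a2 lev l β) y) =
        fun _ y => (2 * κ + 2 * cc l) + 2 * (hh lev α β l y.1 y.2 - cc l) := by
      funext _ y
      rw [dg_a2, hκ, hκ]
      ring
    have e2 : ∀ W : Sy (ι ⊕ ι) (X × X), W.Reg → W.Ex (fun _ y => (2 * κ + 2 * cc l) +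
        2 * (hh lev α β l y.1 y.2 - cc l)) = (2 * κ + 2 * cc l) +
          2 * W.Ex (fun _ y => hh lev α β l y.1 y.2 - cc l) := by
      intro W hW
      rw [hW.Ex_add (fun _ => EG.const _) (Nh.snd fun (y : X × X) =>
        2 * (hh lev α β l y.1 y.2 - cc l)), hW.Ex_const, Sy.Ex_const_mul]
    rw [e1, e2 V hV, e2 U hR]
    have h1 := abs_ad_Ex_le hR (fun y => f y.1 y.2) (fun y => hh lev α β l y.1 y.2 - cc l) hδ hC
      (fun y => by
        have := hf y.1 y.2
        have := abs_nonneg (f y.1 y.2)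
        linarith)
      (fun y => by
        have := hh1 l hl y.1 y.2
        have := abs_nonneg (hh lev α β l y.1 y.2 - cc l)
        linarith)
    rw [← hVd, hEf] at h1
    have e3 : U.Ex (fun _ y => (hh lev α β l y.1 y.2 - cc l) ^ 2) = vv lev K m c a α β cc θ l := by
      rw [hU]
      exact dbl_Ex_pair hL hl' (fun x x' => (hh lev α β l x x' - cc l) ^ 2)
    rw [e3] at h1
    have e4 : 2 * κ + 2 * cc l + 2 * V.Ex (fun _ y => hh lev α β l y.1 y.2 - cc l) -
        (2 * κ + 2 * cc l + 2 * U.Ex (fun _ y => hh lev α β l y.1 y.2 - cc l)) =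
        2 * (V.Ex (fun _ y => hh lev α β l y.1 y.2 - cc l) -
          U.Ex (fun _ y => hh lev α β l y.1 y.2 - cc l)) := by ring
    rw [e4, abs_mul, abs_two]
    exact mul_le_mul_of_nonneg_left h1 zero_le_two
  -- the pairs
  have d2 : ∀ j ∈ Finset.range (K + 1),
      |V.pairEx j (hh (Sum.elim lev lev) (a2 lev l α) (a2 lev l β) j) -
        U.pairEx j (hh (Sum.elim lev lev) (a2 lev l α) (a2 lev l β) j)| ≤
        2 * δ * (4 * φ + 8 * vv lev K m c a α β cc θ j + 8 * vv lev K m c a α β cc θ (min j l)) := by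
    intro j hj
    have hjK : j ≤ K := by have := Finset.mem_range.1 hj; omega
    have hjU : j ≤ U.K := by rw [hU]; exact hjK
    have hjV : j ≤ V.K := by rw [hVd]; exact hjU
    obtain ⟨G, hG⟩ : ∃ G : X × X → X × X → ℝ, G = fun y y' =>
      hh (Sum.elim lev lev) (a2 lev l α) (a2 lev l β) j y y' - (2 * cc j + 2 * cc (min j l)) :=
      ⟨_, rfl⟩
    have e1 : hh (Sum.elim lev lev) (a2 lev l α) (a2 lev l β) j = fun y y' => G y y' +
        (fun _ _ => (2 * cc j + 2 * cc (min j l))) y y' := by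
      funext y y'
      rw [hG]
      ring
    have hGb : ∀ y y', |G y y'| ≤ C := by
      intro y y'
      rw [hG]
      simp only
      rw [hh_a2]
      have b1 := hh1 j hjK y.1 y'.1
      have b2 := hh1 j hjK y.2 y'.2
      have b3 := hh1 (min j l) (by omega) y.1 y'.2
      have b4 := hh1 (min j l) (by omega) y.2 y'.1
      have c1 := abs_le.1 (show |hh lev α β j y.1 y'.1 - cc j| ≤ C / 4 by linarith)
      have c2 := abs_le.1 (show |hh lev α β j y.2 y'.2 - cc j| ≤ C / 4 by linarith)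
      have c3 := abs_le.1 (show |hh lev α β (min j l) y.1 y'.2 - cc (min j l)| ≤ C / 4 by linarith)
      have c4 := abs_le.1 (show |hh lev α β (min j l) y.2 y'.1 - cc (min j l)| ≤ C / 4 by linarith)
      rw [abs_le]
      constructor <;> linarith [c1.1, c1.2, c2.1, c2.2, c3.1, c3.2, c4.1, c4.2]
    have h1 := abs_ad_pair_le hR hjU (fun y => f y.1 y.2) G hδ hC (fun y => hf y.1 y.2) hGb
    rw [← hVd, hEf] at h1
    rw [e1, hV.pairEx_add hjV G (fun _ _ => (2 * cc j + 2 * cc (min j l))),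
      hR.pairEx_add hjU G (fun _ _ => (2 * cc j + 2 * cc (min j l))),
      hV.pairEx_const hjV, hR.pairEx_const hjU, add_sub_add_right_eq_sub]
    refine h1.trans (mul_le_mul_of_nonneg_left ?_ (by linarith))
    have h2 := pair_hh2 (c := c) (a := a) (α := α) (β := β) hm hlev cc θ hl hjK
    rw [← hU] at h2
    have e2 : U.pairEx j (fun y y' => G y y' ^ 2) ≤ 8 * vv lev K m c a α β cc θ j +
        8 * vv lev K m c a α β cc θ (min j l) := by
      rw [hG]
      exact h2
    linarith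
  -- together
  obtain ⟨v, hv⟩ : ∃ v, v = vv lev K m c a α β cc θ := ⟨_, rfl⟩
  rw [← hv] at d1 d2 ⊢
  have hv0 : ∀ j ≤ K, 0 ≤ v j := fun j hj => by rw [hv]; exact vv_nonneg hm hlev cc θ hj
  have e5 : V.Ex (fun _ y => dg (a2 lev l α) (a2 lev l β) y) -
      ∑ j ∈ Finset.range (K + 1), (m2 l m (j + 1) - m2 l m j) *
        V.pairEx j (hh (Sum.elim lev lev) (a2 lev l α) (a2 lev l β) j) -
      (U.Ex (fun _ y => dg (a2 lev l α) (a2 lev l β) y) -
      ∑ j ∈ Finset.range (K + 1), (m2 l m (j + 1) - m2 l m j) *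
        U.pairEx j (hh (Sum.elim lev lev) (a2 lev l α) (a2 lev l β) j)) =
      (V.Ex (fun _ y => dg (a2 lev l α) (a2 lev l β) y) -
        U.Ex (fun _ y => dg (a2 lev l α) (a2 lev l β) y)) -
      ∑ j ∈ Finset.range (K + 1), (m2 l m (j + 1) - m2 l m j) *
        (V.pairEx j (hh (Sum.elim lev lev) (a2 lev l α) (a2 lev l β) j) -
          U.pairEx j (hh (Sum.elim lev lev) (a2 lev l α) (a2 lev l β) j)) := by
    have : ∀ j ∈ Finset.range (K + 1), (m2 l m (j + 1) - m2 l m j) *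
        (V.pairEx j (hh (Sum.elim lev lev) (a2 lev l α) (a2 lev l β) j) -
          U.pairEx j (hh (Sum.elim lev lev) (a2 lev l α) (a2 lev l β) j)) =
        (m2 l m (j + 1) - m2 l m j) *
          V.pairEx j (hh (Sum.elim lev lev) (a2 lev l α) (a2 lev l β) j) -
        (m2 l m (j + 1) - m2 l m j) *
          U.pairEx j (hh (Sum.elim lev lev) (a2 lev l α) (a2 lev l β) j) := fun j _ => by ring
    rw [Finset.sum_congr rfl this, Finset.sum_sub_distrib]
    ring
  rw [e5]
  refine (abs_sub _ _).trans ?_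
  have d3 : |∑ j ∈ Finset.range (K + 1), (m2 l m (j + 1) - m2 l m j) *
        (V.pairEx j (hh (Sum.elim lev lev) (a2 lev l α) (a2 lev l β) j) -
          U.pairEx j (hh (Sum.elim lev lev) (a2 lev l α) (a2 lev l β) j))| ≤
      ∑ j ∈ Finset.range (K + 1), (2 * δ) * ((m2 l m (j + 1) - m2 l m j) * (4 * φ + 8 * v l) +
        ((m (j + 1) - m j) * (16 * v j) + if j = l then 8 * v j else 0)) := by
    refine (Finset.abs_sum_le_sum_abs _ _).trans (Finset.sum_le_sum fun j hj => ?_)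
    have hjK : j ≤ K := by have := Finset.mem_range.1 hj; omega
    have hp := p2_nonneg hm hl hjK
    have hp2 := p2_le hm hl hjK
    rw [abs_mul, abs_of_nonneg hp]
    have h1 := mul_le_mul_of_nonneg_left (d2 j hj) hp
    refine h1.trans ?_
    have h2 : v (min j l) ≤ v j + v l := by
      rcases le_total j l with h | h
      · rw [min_eq_left h]
        linarith [hv0 l hl]
      · rw [min_eq_right h]
        linarith [hv0 j hjK]
    have h3 : (m2 l m (j + 1) - m2 l m j) * (16 * v j) ≤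
        (m (j + 1) - m j) * (16 * v j) + if j = l then 8 * v j else 0 := by
      have h4 := mul_le_mul_of_nonneg_right hp2 (show 0 ≤ 16 * v j by linarith [hv0 j hjK])
      refine h4.trans (le_of_eq ?_)
      split_ifs
      · ring
      · ring
    have h5 := mul_le_mul_of_nonneg_left h2 hp
    have h6 : (m2 l m (j + 1) - m2 l m j) * (4 * φ + 8 * v j + 8 * v (min j l)) ≤
        (m2 l m (j + 1) - m2 l m j) * (4 * φ + 8 * v l) +
          (m2 l m (j + 1) - m2 l m j) * (16 * v j) := by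
      nlinarith
    have h7 := mul_le_mul_of_nonneg_left (h6.trans (add_le_add_right h3 _))
      (show 0 ≤ 2 * δ by linarith)
    refine le_trans (le_of_eq ?_) h7
    ring
  have e6 : ∑ j ∈ Finset.range (K + 1), (2 * δ) * ((m2 l m (j + 1) - m2 l m j) *
        (4 * φ + 8 * v l) + ((m (j + 1) - m j) * (16 * v j) + if j = l then 8 * v j else 0)) =
      2 * δ * (4 * φ + 16 * v l + 16 * ∑ j ∈ Finset.range (K + 1), (m (j + 1) - m j) * v j) := by
    rw [← Finset.mul_sum, Finset.sum_add_distrib, Finset.sum_add_distrib, ← Finset.sum_mul,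
      sum_p hm2, Finset.sum_ite_eq' (Finset.range (K + 1)) l,
      if_pos (Finset.mem_range.2 (by omega)), Finset.mul_sum]
    have : ∀ j ∈ Finset.range (K + 1), (m (j + 1) - m j) * (16 * v j) =
        16 * ((m (j + 1) - m j) * v j) := fun j _ => by ring
    rw [Finset.sum_congr rfl this]
    ring
  rw [e6] at d3
  linarith

end Vale.Agent.P146.H784
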