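import Vale.Agent.P146.H784.Int2

set_option linter.all false

/-!
Second order Gaussian interpolation for linear systems, the main theorem.
-/

open MeasureTheory ProbabilityTheory Filter Topology

namespace Vale.Agent.P146.H784

open Vale.Agent.P157 Vale.Agent.P157.Lv Vale.Agent.P157.Lv.Sy
open Vale.Agent.P157.Par (Path Exponents incr)
open Vale.Agent.P146.Ub (ls cv ith ls_regD ls_wH lin_add' lin_smul' lin_ith ls_interp ls_pair_sum
  ls_T_sq)

/-- Riemann sums with the values at the right resp. left ends. -/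
lemma grid {U W u w : ℝ → ℝ} {lo hi M B0 b : ℝ} (hlh : lo ≤ hi)
    (hU : ∀ t t', lo ≤ t → t ≤ t' → t' ≤ hi → U t' - U t ≤ (t' - t) * u t' + (t' - t) ^ 2 * M)
    (hW : ∀ t t', lo ≤ t → t ≤ t' → t' ≤ hi → (t' - t) * w t - (t' - t) ^ 2 * M ≤ W t' - W t)
    (hb : ∀ t, lo ≤ t → t ≤ hi → u t - w t ≤ b)
    (hu : ∀ t, lo ≤ t → t ≤ hi → |u t| ≤ B0) (hw : ∀ t, lo ≤ t → t ≤ hi → |w t| ≤ B0) :
    (U hi - W hi) - (U lo - W lo) ≤ (hi - lo) * b := by
  obtain ⟨E, hE⟩ : ∃ E : ℝ, E = (hi - lo) * (2 * B0) - (hi - lo) * b + 2 * (hi - lo) ^ 2 * M :=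
    ⟨_, rfl⟩
  have key : ∀ n : ℕ, 0 < n → (U hi - W hi) - (U lo - W lo) - (hi - lo) * b ≤ E / n := by
    intro n hn
    have hn' : (0 : ℝ) < n := by exact_mod_cast hn
    obtain ⟨Δ, hΔ⟩ : ∃ Δ, Δ = (hi - lo) / n := ⟨_, rfl⟩
    have hΔ0 : 0 ≤ Δ := by rw [hΔ]; exact div_nonneg (by linarith) hn'.le
    have hnΔ : n * Δ = hi - lo := by rw [hΔ]; field_simp
    have ht : ∀ k : ℕ, k ≤ n → lo ≤ lo + k * Δ ∧ lo + k * Δ ≤ hi := by
      intro k hk
      have hk' : (k : ℝ) ≤ n := by exact_mod_cast hk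
      have h1 := mul_le_mul_of_nonneg_right hk' hΔ0
      have h2 : 0 ≤ (k : ℝ) * Δ := by positivity
      constructor <;> linarith
    have ind : ∀ k : ℕ, k + 1 ≤ n →
        U (lo + ((k + 1 : ℕ) : ℝ) * Δ) - U lo - (W (lo + ((k + 1 : ℕ) : ℝ) * Δ) - W lo) ≤
          Δ * u (lo + ((k + 1 : ℕ) : ℝ) * Δ) - Δ * w lo + k * (Δ * b) +
            2 * ((k + 1 : ℕ) : ℝ) * (Δ ^ 2 * M) := by
      intro k
      induction k with
      | zero =>
        intro hk
        have h1 := ht 1 hk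
        have h2 := hU lo (lo + ((0 + 1 : ℕ) : ℝ) * Δ) le_rfl (by push_cast; linarith)
          (by simpa using h1.2)
        have h3 := hW lo (lo + ((0 + 1 : ℕ) : ℝ) * Δ) le_rfl (by push_cast; linarith)
          (by simpa using h1.2)
        have e : lo + ((0 + 1 : ℕ) : ℝ) * Δ - lo = Δ := by push_cast; ring
        rw [e] at h2 h3
        push_cast at h2 h3 ⊢
        linarith
      | succ k ih =>
        intro hk
        have h1 := ht (k + 1) (by omega)
        have h1' := ht (k + 1 + 1) hk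
        have hle : lo + ((k + 1 : ℕ) : ℝ) * Δ ≤ lo + ((k + 1 + 1 : ℕ) : ℝ) * Δ := by
          push_cast
          linarith
        have h2 := hU _ _ h1.1 hle h1'.2
        have h3 := hW _ _ h1.1 hle h1'.2
        have e : lo + ((k + 1 + 1 : ℕ) : ℝ) * Δ - (lo + ((k + 1 : ℕ) : ℝ) * Δ) = Δ := by
          push_cast; ring
        rw [e] at h2 h3
        have h4 := ih (by omega)
        have h5 := mul_le_mul_of_nonneg_left (hb _ h1.1 h1.2) hΔ0
        push_cast at h2 h3 h4 h5 ⊢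
        linarith
    obtain ⟨k, rfl⟩ : ∃ k, n = k + 1 := ⟨n - 1, by omega⟩
    have h1 := ind k le_rfl
    have e1 : lo + ((k + 1 : ℕ) : ℝ) * Δ = hi := by rw [hnΔ]; ring
    rw [e1] at h1
    have h2 := (abs_le.1 (hu hi hlh le_rfl)).2
    have h3 := (abs_le.1 (hw lo le_rfl hlh)).1
    have h4 := mul_le_mul_of_nonneg_left h2 hΔ0
    have h5 := mul_le_mul_of_nonneg_left h3 hΔ0
    have e2 : E / ((k + 1 : ℕ) : ℝ) = Δ * (2 * B0) - Δ * b + 2 * (((k + 1 : ℕ) : ℝ) * Δ) * Δ * M := by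
      rw [hnΔ, hE, hΔ]
      field_simp
    have e3 : (hi - lo) * b = (k : ℝ) * (Δ * b) + Δ * b := by
      rw [← hnΔ]
      push_cast
      ring
    rw [e2, e3]
    have e4 : 2 * (((k + 1 : ℕ) : ℝ) * Δ) * Δ * M = 2 * ((k + 1 : ℕ) : ℝ) * (Δ ^ 2 * M) := by ring
    rw [e4]
    linarith
  by_contra hcon
  push Not at hcon
  obtain ⟨q, hq⟩ : ∃ q, q = (U hi - W hi) - (U lo - W lo) - (hi - lo) * b := ⟨_, rfl⟩
  have hq0 : 0 < q := by rw [hq]; linarith
  obtain ⟨n, hn⟩ := exists_nat_gt (|E| / q)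
  have hn0 : (0 : ℝ) < n := lt_of_le_of_lt (by positivity) hn
  have h1 := key n (by exact_mod_cast hn0)
  rw [← hq, le_div_iff₀ hn0] at h1
  rw [div_lt_iff₀ hq0] at hn
  have := le_abs_self E
  nlinarith

variable {ι X : Type} [Fintype ι] [DecidableEq ι] [Fintype X] [DecidableEq X] [Nonempty X]
  {S : Sy ι X} {l j K : ℕ} {lev : ι → ℕ} {m : ℕ → ℝ} {c : ℝ} {a α β : X → ι → ℝ}

lemma abs_Ex_le_sum (hS : S.Reg) (g : X → ℝ) : |S.Ex (fun _ x => g x)| ≤ ∑ x, |g x| := by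
  have h1 : ∀ x, |g x| ≤ ∑ x, |g x| := fun x =>
    Finset.single_le_sum (f := fun x => |g x|) (fun x _ => abs_nonneg _) (Finset.mem_univ x)
  rw [abs_le]
  constructor
  · rw [← hS.Ex_const (-∑ x, |g x|)]
    exact hS.Ex_mono (fun _ => EG.const _) (Nh.snd g) fun z x => (abs_le.1 (h1 x)).1
  · rw [← hS.Ex_const (∑ x, |g x|)]
    exact hS.Ex_mono (Nh.snd g) (fun _ => EG.const _) fun z x => (abs_le.1 (h1 x)).2

lemma abs_pair_le_sum (hS : S.Reg) (hl : l ≤ S.K) (G : X → X → ℝ) :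
    |S.pairEx l G| ≤ ∑ x, ∑ x', |G x x'| := by
  have h1 : ∀ x x', |G x x'| ≤ ∑ x, ∑ x', |G x x'| := fun x x' =>
    (Finset.single_le_sum (f := fun x' => |G x x'|) (fun x' _ => abs_nonneg _)
      (Finset.mem_univ x')).trans
      (Finset.single_le_sum (f := fun x => ∑ x', |G x x'|)
        (fun x _ => Finset.sum_nonneg fun x' _ => abs_nonneg _) (Finset.mem_univ x))
  rw [abs_le]
  constructor
  · rw [← hS.pairEx_const hl (-∑ x, ∑ x', |G x x'|)]
    exact hS.pairEx_mono hl fun x x' => (abs_le.1 (h1 x x')).1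
  · rw [← hS.pairEx_const hl (∑ x, ∑ x', |G x x'|)]
    exact hS.pairEx_mono hl fun x x' => (abs_le.1 (h1 x x')).2

lemma bk_bdd {D : ι → (ι → ℝ) → X → ℝ} (hS : S.RegD D) (α β : X → ι → ℝ) :
    ∃ B : ℝ, 0 ≤ B ∧ ∀ θ, |bk S α β θ| ≤ B := by
  refine ⟨∑ x, |dg α β x| + ∑ l ∈ Finset.range (S.K + 1), |S.p l| * ∑ x, ∑ x', |hh S.lev α β l x x'|,
    ?_, fun θ => ?_⟩
  · refine add_nonneg (Finset.sum_nonneg fun _ _ => abs_nonneg _) (Finset.sum_nonneg fun l _ =>
      mul_nonneg (abs_nonneg _) (Finset.sum_nonneg fun _ _ => Finset.sum_nonneg fun _ _ =>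
        abs_nonneg _))
  · have hR := iS_reg hS α β θ
    unfold bk
    refine (abs_sub _ _).trans (add_le_add (abs_Ex_le_sum hR _) ?_)
    refine (Finset.abs_sum_le_sum_abs _ _).trans (Finset.sum_le_sum fun l hl => ?_)
    rw [abs_mul]
    refine mul_le_mul_of_nonneg_left (abs_pair_le_sum hR ?_ _) (abs_nonneg _)
    have := Finset.mem_range.1 hl
    show l ≤ S.K
    omega

/-- `grid` for weighted sums -/
lemma sum_grid {K : ℕ} {p : ℕ → ℝ} (hp : ∀ l ∈ Finset.range (K + 1), 0 ≤ p l)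
    {Ul Wl ul wl : ℕ → ℝ → ℝ} {Ml Bl : ℕ → ℝ} {lo hi b : ℝ} (hlh : lo ≤ hi)
    (hU : ∀ l ∈ Finset.range (K + 1), ∀ t t', lo ≤ t → t ≤ t' → t' ≤ hi →
      Ul l t' - Ul l t ≤ (t' - t) * ul l t' + (t' - t) ^ 2 * Ml l)
    (hW : ∀ l ∈ Finset.range (K + 1), ∀ t t', lo ≤ t → t ≤ t' → t' ≤ hi →
      (t' - t) * wl l t - (t' - t) ^ 2 * Ml l ≤ Wl l t' - Wl l t)
    (hb : ∀ t, lo ≤ t → t ≤ hi → ∑ l ∈ Finset.range (K + 1), p l * (ul l t - wl l t) ≤ b)
    (hu : ∀ l ∈ Finset.range (K + 1), ∀ t, lo ≤ t → t ≤ hi → |ul l t| ≤ Bl l)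
    (hw : ∀ l ∈ Finset.range (K + 1), ∀ t, lo ≤ t → t ≤ hi → |wl l t| ≤ Bl l) :
    ∑ l ∈ Finset.range (K + 1), p l * ((Ul l hi - Wl l hi) - (Ul l lo - Wl l lo)) ≤
      (hi - lo) * b := by
  have h := grid (U := fun t => ∑ l ∈ Finset.range (K + 1), p l * Ul l t)
    (W := fun t => ∑ l ∈ Finset.range (K + 1), p l * Wl l t)
    (u := fun t => ∑ l ∈ Finset.range (K + 1), p l * ul l t)
    (w := fun t => ∑ l ∈ Finset.range (K + 1), p l * wl l t)
    (M := ∑ l ∈ Finset.range (K + 1), p l * Ml l)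
    (B0 := ∑ l ∈ Finset.range (K + 1), p l * Bl l) (b := b) hlh
    (fun t t' h1 h2 h3 => by
      rw [← Finset.sum_sub_distrib, Finset.mul_sum, Finset.mul_sum, ← Finset.sum_add_distrib]
      refine Finset.sum_le_sum fun l hl => ?_
      have h6 := mul_le_mul_of_nonneg_left (hU l hl t t' h1 h2 h3) (hp l hl)
      linarith)
    (fun t t' h1 h2 h3 => by
      rw [← Finset.sum_sub_distrib, Finset.mul_sum, Finset.mul_sum, ← Finset.sum_sub_distrib]
      refine Finset.sum_le_sum fun l hl => ?_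
      have h6 := mul_le_mul_of_nonneg_left (hW l hl t t' h1 h2 h3) (hp l hl)
      linarith)
    (fun t h1 h2 => by
      rw [← Finset.sum_sub_distrib]
      refine le_trans (le_of_eq ?_) (hb t h1 h2)
      refine Finset.sum_congr rfl fun l _ => ?_
      ring)
    (fun t h1 h2 => by
      refine (Finset.abs_sum_le_sum_abs _ _).trans (Finset.sum_le_sum fun l hl => ?_)
      rw [abs_mul, abs_of_nonneg (hp l hl)]
      exact mul_le_mul_of_nonneg_left (hu l hl t h1 h2) (hp l hl))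
    (fun t h1 h2 => by
      refine (Finset.abs_sum_le_sum_abs _ _).trans (Finset.sum_le_sum fun l hl => ?_)
      rw [abs_mul, abs_of_nonneg (hp l hl)]
      exact mul_le_mul_of_nonneg_left (hw l hl t h1 h2) (hp l hl))
  refine le_trans (le_of_eq ?_) h
  rw [← Finset.sum_sub_distrib, ← Finset.sum_sub_distrib, ← Finset.sum_sub_distrib]
  refine Finset.sum_congr rfl fun l _ => ?_
  ring

/-- the doubled bracket with a perturbation -/
noncomputable def bf (lev : ι → ℕ) (K : ℕ) (m : ℕ → ℝ) (c : ℝ) (a α β : X → ι → ℝ)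
    (g : X → X → ℝ) (l : ℕ) (θ : ℝ) : ℝ :=
  bk (ad (ls (Sum.elim lev lev) K (m2 l m) (2 * c) (a2 lev l a)) (fun y => g y.1 y.2))
    (a2 lev l α) (a2 lev l β) θ

/-- the doubled bracket -/
noncomputable def b0 (lev : ι → ℕ) (K : ℕ) (m : ℕ → ℝ) (c : ℝ) (a α β : X → ι → ℝ)
    (l : ℕ) (θ : ℝ) : ℝ :=
  bk (ls (Sum.elim lev lev) K (m2 l m) (2 * c) (a2 lev l a)) (a2 lev l α) (a2 lev l β) θ

/-- the doubled free energy with a perturbation -/
noncomputable def Ff (lev : ι → ℕ) (K : ℕ) (m : ℕ → ℝ) (c : ℝ) (a α β : X → ι → ℝ)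
    (g : X → X → ℝ) (l : ℕ) (θ : ℝ) : ℝ :=
  (ad (dbl (Lth lev K m c a α β θ) l) (fun y => g y.1 y.2)).fe

/-- the doubled free energy -/
noncomputable def F0 (lev : ι → ℕ) (K : ℕ) (m : ℕ → ℝ) (c : ℝ) (a α β : X → ι → ℝ)
    (l : ℕ) (θ : ℝ) : ℝ := (dbl (Lth lev K m c a α β θ) l).fe

/-- one level -/
lemma lev_step (hm : Exponents K m) (hlev : ∀ e, lev e ≤ K)
    (hαβ : ∀ e x x', α x e * β x' e = 0) (hαa : ∀ e x x', α x e * a x' e = 0)
    (hβa : ∀ e x x', β x e * a x' e = 0) (g : X → X → ℝ) {l : ℕ} (hl : l ≤ K) :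
    ∃ M B : ℝ, 0 ≤ B ∧
      (∀ t t', t ≤ t' → Ff lev K m c a α β g l t' - Ff lev K m c a α β g l t ≤
        (t' - t) * (Real.sin t' * Real.cos t' * bf lev K m c a α β g l t') + (t' - t) ^ 2 * M) ∧
      (∀ t t', t ≤ t' → (t' - t) * (Real.sin t * Real.cos t * b0 lev K m c a α β l t) -
        (t' - t) ^ 2 * M ≤ F0 lev K m c a α β l t' - F0 lev K m c a α β l t) ∧
      (∀ t, |bf lev K m c a α β g l t| ≤ B) ∧ (∀ t, |b0 lev K m c a α β l t| ≤ B) := by
  have hD : (ls (Sum.elim lev lev) K (m2 l m) (2 * c) (a2 lev l a)).RegD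
      (fun e _ y => a2 lev l a y e) := ls_regD (m2_exp hm hl) (lev2_le hlev) _ _
  have hDa := ad_regD hD (fun y : X × X => g y.1 y.2)
  have hsep := sep_a2 lev l hαβ hαa hβa
  have hiS : ∀ θ, iS (ls (Sum.elim lev lev) K (m2 l m) (2 * c) (a2 lev l a)) (a2 lev l α)
      (a2 lev l β) θ = dbl (Lth lev K m c a α β θ) l := fun θ => iS_dbl lev K m c a α β θ l
  have hiSa : ∀ θ, iS (ad (ls (Sum.elim lev lev) K (m2 l m) (2 * c) (a2 lev l a))
      (fun y => g y.1 y.2)) (a2 lev l α) (a2 lev l β) θ =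
      ad (dbl (Lth lev K m c a α β θ) l) (fun y => g y.1 y.2) := fun θ => by
    rw [iS_ad, hiS]
  obtain ⟨M1, h1, hM1⟩ := step2 hDa hsep
  obtain ⟨M2, h2, hM2⟩ := step2 hD hsep
  obtain ⟨C1, h3, hC1⟩ := bk_bdd hDa (a2 lev l α) (a2 lev l β)
  obtain ⟨C2, h4, hC2⟩ := bk_bdd hD (a2 lev l α) (a2 lev l β)
  refine ⟨M1 + M2, C1 + C2, by positivity, fun t t' htt => ?_, fun t t' htt => ?_,
    fun t => (hC1 t).trans (by linarith), fun t => (hC2 t).trans (by linarith)⟩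
  · have h5 := (hM1 t t' htt).1
    rw [hiSa, hiSa] at h5
    have h6 := mul_nonneg (sq_nonneg (t' - t)) h2
    unfold Ff bf
    linarith
  · have h5 := (hM2 t t' htt).2
    rw [hiS, hiS] at h5
    have h6 := mul_nonneg (sq_nonneg (t' - t)) h1
    unfold F0 b0
    linarith

/-- the constant -/
lemma exists_C (K : ℕ) (f h : ℕ → X → X → ℝ) : ∃ C : ℝ, 1 ≤ C ∧ ∀ l ≤ K, ∀ x x',
    2 * |f l x x'| ≤ C ∧ 4 * |h l x x'| ≤ C := by
  refine ⟨1 + ∑ l ∈ Finset.range (K + 1), ∑ x, ∑ x', (2 * |f l x x'| + 4 * |h l x x'|), ?_, ?_⟩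
  · have : 0 ≤ ∑ l ∈ Finset.range (K + 1), ∑ x, ∑ x', (2 * |f l x x'| + 4 * |h l x x'|) :=
      Finset.sum_nonneg fun l _ => Finset.sum_nonneg fun x _ => Finset.sum_nonneg fun x' _ => by
        positivity
    linarith
  · intro l hl x x'
    have h1 : 2 * |f l x x'| + 4 * |h l x x'| ≤
        ∑ l ∈ Finset.range (K + 1), ∑ x, ∑ x', (2 * |f l x x'| + 4 * |h l x x'|) := by
      have a1 := Finset.single_le_sum (f := fun x' => 2 * |f l x x'| + 4 * |h l x x'|)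
        (s := Finset.univ) (a := x') (fun l _ => by positivity) (Finset.mem_univ x')
      have a2 := Finset.single_le_sum (f := fun x => ∑ x', (2 * |f l x x'| + 4 * |h l x x'|))
        (s := Finset.univ) (a := x)
        (fun l _ => Finset.sum_nonneg fun x' _ => by positivity) (Finset.mem_univ x)
      have a3 := Finset.single_le_sum
        (f := fun l => ∑ x, ∑ x', (2 * |f l x x'| + 4 * |h l x x'|))
        (s := Finset.range (K + 1)) (a := l)
        (fun l _ => Finset.sum_nonneg fun x _ => Finset.sum_nonneg fun x' _ => by positivity)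
        (Finset.mem_range.2 (by omega))
      exact a1.trans (a2.trans a3)
    have h2 := abs_nonneg (f l x x')
    have h3 := abs_nonneg (h l x x')
    constructor <;> linarith

lemma sc_le {t : ℝ} (h0 : 0 ≤ t) (h1 : t ≤ Real.pi / 2) :
    0 ≤ Real.sin t * Real.cos t ∧ Real.sin t * Real.cos t ≤ 1 / 2 := by
  have hpi := Real.pi_pos
  refine ⟨mul_nonneg (Real.sin_nonneg_of_nonneg_of_le_pi h0 (by linarith))
    (Real.cos_nonneg_of_mem_Icc ⟨by linarith, h1⟩), ?_⟩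
  nlinarith [sq_nonneg (Real.sin t - Real.cos t), Real.sin_sq_add_cos_sq t]

/-- the difference of the brackets, summed -/
lemma sum_diff (hm : Exponents K m) (hlev : ∀ e, lev e ≤ K) (c : ℝ) {κ : ℝ}
    (hκ : ∀ x, dg α β x = κ) (cc : ℕ → ℝ) (f : ℕ → X → X → ℝ) {B1 B2 C δ t : ℝ}
    (ht0 : 0 ≤ t) (ht1 : t ≤ Real.pi / 2)
    (hB1 : ∑ l ∈ Finset.range (K + 1), (m (l + 1) - m l) *
      (Lth lev K m c a α β t).pairEx l (fun x x' => f l x x' ^ 2) ≤ B1)
    (hB2 : ∑ l ∈ Finset.range (K + 1), (m (l + 1) - m l) * vv lev K m c a α β cc t l ≤ B2)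
    (hδ : 0 < δ) (hδC : δ * (2 * C) ≤ 1)
    (hC : ∀ l ≤ K, ∀ x x', 2 * |f l x x'| ≤ C ∧ 4 * |hh lev α β l x x' - cc l| ≤ C) :
    ∑ l ∈ Finset.range (K + 1), (m (l + 1) - m l) *
      (Real.sin t * Real.cos t * bf lev K m c a α β (fun x x' => δ * f l x x') l t -
        Real.sin t * Real.cos t * b0 lev K m c a α β l t) ≤ δ * (6 * B1 + 34 * B2) := by
  have hs := sc_le ht0 ht1
  obtain ⟨Q, hQ⟩ : ∃ Q, Q = ∑ j ∈ Finset.range (K + 1), (m (j + 1) - m j) *
    vv lev K m c a α β cc t j := ⟨_, rfl⟩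
  have h5 : ∀ l ∈ Finset.range (K + 1), (m (l + 1) - m l) *
      (Real.sin t * Real.cos t * bf lev K m c a α β (fun x x' => δ * f l x x') l t -
        Real.sin t * Real.cos t * b0 lev K m c a α β l t) ≤
      (1 / 2) * δ * (12 * ((m (l + 1) - m l) *
        (Lth lev K m c a α β t).pairEx l (fun x x' => f l x x' ^ 2)) +
        36 * ((m (l + 1) - m l) * vv lev K m c a α β cc t l) + 32 * Q * (m (l + 1) - m l)) := by
    intro l hl
    have hlK : l ≤ K := by have := Finset.mem_range.1 hl; omega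
    have hp : 0 ≤ m (l + 1) - m l := by
      have := hm.2.2 l hlK
      linarith
    have h6 := bk_diff (c := c) (a := a) hm hlev cc t hlK hκ (f l) hδ hδC
      (fun x x' => (hC l hlK x x').1) (fun j hj x x' => (hC j hj x x').2)
    rw [← hQ] at h6
    obtain ⟨P, hP⟩ : ∃ P, P = δ * (12 * (Lth lev K m c a α β t).pairEx l
        (fun x x' => f l x x' ^ 2) + 36 * vv lev K m c a α β cc t l + 32 * Q) := ⟨_, rfl⟩
    rw [← hP] at h6
    have hP0 : 0 ≤ P := le_trans (abs_nonneg _) h6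
    have h7 := (abs_le.1 h6).2
    have h8 := mul_le_mul_of_nonneg_left h7 hs.1
    have h9 : Real.sin t * Real.cos t * P ≤ 1 / 2 * P := mul_le_mul_of_nonneg_right hs.2 hP0
    have h10 := mul_le_mul_of_nonneg_left (h8.trans h9) hp
    have e2 : (m (l + 1) - m l) * (1 / 2 * P) = (1 / 2) * δ * (12 * ((m (l + 1) - m l) *
        (Lth lev K m c a α β t).pairEx l (fun x x' => f l x x' ^ 2)) +
        36 * ((m (l + 1) - m l) * vv lev K m c a α β cc t l) +
          32 * Q * (m (l + 1) - m l)) := by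
      rw [hP]
      ring
    rw [← e2]
    refine le_trans (le_of_eq ?_) h10
    unfold bf b0
    ring
  refine (Finset.sum_le_sum h5).trans ?_
  rw [← Finset.mul_sum, Finset.sum_add_distrib, Finset.sum_add_distrib, ← Finset.mul_sum,
    ← Finset.mul_sum, ← Finset.mul_sum, sum_p hm, ← hQ]
  rw [← hQ] at hB2
  have h8 : 12 * ∑ l ∈ Finset.range (K + 1), (m (l + 1) - m l) *
        (Lth lev K m c a α β t).pairEx l (fun x x' => f l x x' ^ 2) + 36 * Q + 32 * Q * 1 ≤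
      12 * B1 + 68 * B2 := by linarith
  have h9 := mul_le_mul_of_nonneg_left h8 (show 0 ≤ 1 / 2 * δ by positivity)
  refine h9.trans (le_of_eq ?_)
  ring

/-- the perturbed free energy at the two ends -/
lemma ends (hm : Exponents K m) (hlev : ∀ e, lev e ≤ K) (c : ℝ) (f : ℕ → X → X → ℝ) {C δ : ℝ}
    (hδ : 0 < δ) (hδC : δ * (2 * C) ≤ 1) (hC1 : 1 ≤ C) {l : ℕ} (hl : l ≤ K)
    (hC : ∀ x x', 2 * |f l x x'| ≤ C) (θ : ℝ) :
    δ * (Lth lev K m c a α β θ).pairEx l (f l) ≤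
      Ff lev K m c a α β (fun x x' => δ * f l x x') l θ - F0 lev K m c a α β l θ ∧
    Ff lev K m c a α β (fun x x' => δ * f l x x') l θ - F0 lev K m c a α β l θ ≤
      δ * (Lth lev K m c a α β θ).pairEx l (f l) +
        δ ^ 2 * (Lth lev K m c a α β θ).pairEx l (fun x x' => f l x x' ^ 2) := by
  have hL := Lth_reg (m := m) (lev := lev) hm hlev c a α β θ
  have hl' : l ≤ (Lth lev K m c a α β θ).K := hl
  have hfδ : ∀ y : X × X, |δ * f l y.1 y.2| ≤ 1 := by
    intro y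
    rw [abs_mul, abs_of_pos hδ]
    have h7 := hC y.1 y.2
    have h9 : |f l y.1 y.2| ≤ 2 * C := by linarith [abs_nonneg (f l y.1 y.2)]
    exact (mul_le_mul_of_nonneg_left h9 hδ.le).trans hδC
  unfold Ff F0
  constructor
  · have h6 := le_ad (dbl_reg hL hl') (fun y => δ * f l y.1 y.2)
    rw [dbl_Ex_pair hL hl' (fun x x' => δ * f l x x'), hL.pairEx_const_mul] at h6
    exact h6
  · have h6 := ad_le (dbl_reg hL hl') (fun y => δ * f l y.1 y.2) hfδ
    have e1 : (fun (_ : ι ⊕ ι → ℝ) (y : X × X) => (δ * f l y.1 y.2) ^ 2) =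
        fun _ y => δ ^ 2 * f l y.1 y.2 ^ 2 := by
      funext _ y
      ring
    rw [dbl_Ex_pair hL hl' (fun x x' => δ * f l x x'), hL.pairEx_const_mul, e1,
      Sy.Ex_const_mul, dbl_Ex_pair hL hl' (fun x x' => f l x x' ^ 2)] at h6
    exact h6

/-- **Second order interpolation**: the pair averages along the interpolation. -/
theorem avg_change (hm : Exponents K m) (hlev : ∀ e, lev e ≤ K) (c : ℝ)
    (hαβ : ∀ e x x', α x e * β x' e = 0) (hαa : ∀ e x x', α x e * a x' e = 0)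
    (hβa : ∀ e x x', β x e * a x' e = 0) {κ : ℝ} (hκ : ∀ x, dg α β x = κ) (cc : ℕ → ℝ)
    (f : ℕ → X → X → ℝ) {B1 B2 : ℝ}
    (hB1 : ∀ θ, 0 ≤ θ → θ ≤ Real.pi / 2 → ∑ l ∈ Finset.range (K + 1), (m (l + 1) - m l) *
      (Lth lev K m c a α β θ).pairEx l (fun x x' => f l x x' ^ 2) ≤ B1)
    (hB2 : ∀ θ, 0 ≤ θ → θ ≤ Real.pi / 2 → ∑ l ∈ Finset.range (K + 1), (m (l + 1) - m l) *
      vv lev K m c a α β cc θ l ≤ B2)
    {θ₁ θ₂ : ℝ} (h0 : 0 ≤ θ₁) (h12 : θ₁ ≤ θ₂) (h2 : θ₂ ≤ Real.pi / 2) :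
    ∑ l ∈ Finset.range (K + 1), (m (l + 1) - m l) * (Lth lev K m c a α β θ₂).pairEx l (f l) -
      ∑ l ∈ Finset.range (K + 1), (m (l + 1) - m l) * (Lth lev K m c a α β θ₁).pairEx l (f l) ≤
    10 * B1 + 54 * B2 := by
  have hlK : ∀ l ∈ Finset.range (K + 1), l ≤ K := fun l hl => by
    have h1 := Finset.mem_range.1 hl
    omega
  have hp : ∀ l ∈ Finset.range (K + 1), 0 ≤ m (l + 1) - m l := fun l hl => by
    have := hm.2.2 l (hlK l hl)
    linarith
  have hpi := Real.pi_pos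
  obtain ⟨C, hC1, hC⟩ := exists_C K f (fun l x x' => hh lev α β l x x' - cc l)
  obtain ⟨δ, hδ⟩ : ∃ δ : ℝ, δ = 1 / (2 * C) := ⟨_, rfl⟩
  have hδ0 : 0 < δ := by rw [hδ]; positivity
  have hδC : δ * (2 * C) ≤ 1 := by rw [hδ]; field_simp; exact le_rfl
  have hδ1 : δ ≤ 1 / 2 := by
    rw [hδ]
    exact one_div_le_one_div_of_le (by norm_num) (by linarith)
  have hst : ∀ l : ℕ, ∃ M B : ℝ, l ≤ K → 0 ≤ B ∧
      (∀ t t', t ≤ t' → Ff lev K m c a α β (fun x x' => δ * f l x x') l t' -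
        Ff lev K m c a α β (fun x x' => δ * f l x x') l t ≤
        (t' - t) * (Real.sin t' * Real.cos t' *
          bf lev K m c a α β (fun x x' => δ * f l x x') l t') + (t' - t) ^ 2 * M) ∧
      (∀ t t', t ≤ t' → (t' - t) * (Real.sin t * Real.cos t * b0 lev K m c a α β l t) -
        (t' - t) ^ 2 * M ≤ F0 lev K m c a α β l t' - F0 lev K m c a α β l t) ∧
      (∀ t, |bf lev K m c a α β (fun x x' => δ * f l x x') l t| ≤ B) ∧
      (∀ t, |b0 lev K m c a α β l t| ≤ B) := by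
    intro l
    by_cases hl : l ≤ K
    · obtain ⟨M, B, h⟩ := lev_step (c := c) hm hlev hαβ hαa hβa (fun x x' => δ * f l x x') hl
      exact ⟨M, B, fun _ => h⟩
    · exact ⟨0, 0, fun h => absurd h hl⟩
  choose Mf Bf hMf using hst
  have hB1' : 0 ≤ B1 := by
    refine le_trans (Finset.sum_nonneg fun l hl => mul_nonneg (hp l hl) ?_)
      (hB1 0 le_rfl (by linarith))
    exact (Lth_reg hm hlev c a α β 0).pairEx_nonneg (hlK l hl) fun _ _ => sq_nonneg _
  have hB2' : 0 ≤ B2 :=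
    le_trans (Finset.sum_nonneg fun l hl => mul_nonneg (hp l hl)
      (vv_nonneg hm hlev cc 0 (hlK l hl))) (hB2 0 le_rfl (by linarith))
  have hgrid := sum_grid (K := K) (p := fun l => m (l + 1) - m l) hp
    (Ul := fun l => Ff lev K m c a α β (fun x x' => δ * f l x x') l)
    (Wl := fun l => F0 lev K m c a α β l)
    (ul := fun l t => Real.sin t * Real.cos t *
      bf lev K m c a α β (fun x x' => δ * f l x x') l t)
    (wl := fun l t => Real.sin t * Real.cos t * b0 lev K m c a α β l t)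
    (Ml := Mf) (Bl := Bf) (lo := θ₁) (hi := θ₂) (b := δ * (6 * B1 + 34 * B2)) h12
    (fun l hl t t' _ h4 _ => (hMf l (hlK l hl)).2.1 t t' h4)
    (fun l hl t t' _ h4 _ => (hMf l (hlK l hl)).2.2.1 t t' h4)
    (fun t h3 h4 => sum_diff hm hlev c hκ cc f (h0.trans h3) (h4.trans h2)
      (hB1 t (h0.trans h3) (h4.trans h2)) (hB2 t (h0.trans h3) (h4.trans h2)) hδ0 hδC hC)
    (fun l hl t h3 h4 => by
      have hs := sc_le (h0.trans h3) (h4.trans h2)
      rw [abs_mul, abs_of_nonneg hs.1]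
      have h6 := (hMf l (hlK l hl)).2.2.2.1 t
      have h7 := mul_le_mul hs.2 h6 (abs_nonneg _) (by norm_num)
      linarith [(hMf l (hlK l hl)).1])
    (fun l hl t h3 h4 => by
      have hs := sc_le (h0.trans h3) (h4.trans h2)
      rw [abs_mul, abs_of_nonneg hs.1]
      have h6 := (hMf l (hlK l hl)).2.2.2.2 t
      have h7 := mul_le_mul hs.2 h6 (abs_nonneg _) (by norm_num)
      linarith [(hMf l (hlK l hl)).1])
  have hend : δ * ((∑ l ∈ Finset.range (K + 1), (m (l + 1) - m l) *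
      (Lth lev K m c a α β θ₂).pairEx l (f l)) - ∑ l ∈ Finset.range (K + 1), (m (l + 1) - m l) *
      (Lth lev K m c a α β θ₁).pairEx l (f l)) ≤
      ∑ l ∈ Finset.range (K + 1), (m (l + 1) - m l) *
        ((Ff lev K m c a α β (fun x x' => δ * f l x x') l θ₂ - F0 lev K m c a α β l θ₂) -
        (Ff lev K m c a α β (fun x x' => δ * f l x x') l θ₁ - F0 lev K m c a α β l θ₁)) +
      δ ^ 2 * B1 := by
    have hb1 := mul_le_mul_of_nonneg_left (hB1 θ₁ h0 (h12.trans h2)) (sq_nonneg δ)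
    refine le_trans ?_ (add_le_add_right hb1 _)
    rw [← Finset.sum_sub_distrib, Finset.mul_sum, Finset.mul_sum, ← Finset.sum_add_distrib]
    refine Finset.sum_le_sum fun l hl => ?_
    have h6 := (ends (a := a) (α := α) (β := β) hm hlev c f hδ0 hδC hC1 (hlK l hl)
      (fun x x' => (hC l (hlK l hl) x x').1) θ₂).1
    have h7 := (ends (a := a) (α := α) (β := β) hm hlev c f hδ0 hδC hC1 (hlK l hl)
      (fun x x' => (hC l (hlK l hl) x x').1) θ₁).2
    have h8 : δ * (Lth lev K m c a α β θ₂).pairEx l (f l) -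
        δ * (Lth lev K m c a α β θ₁).pairEx l (f l) ≤
        ((Ff lev K m c a α β (fun x x' => δ * f l x x') l θ₂ - F0 lev K m c a α β l θ₂) -
        (Ff lev K m c a α β (fun x x' => δ * f l x x') l θ₁ - F0 lev K m c a α β l θ₁)) +
        δ ^ 2 * (Lth lev K m c a α β θ₁).pairEx l (fun x x' => f l x x' ^ 2) := by linarith
    have h9 := mul_le_mul_of_nonneg_left h8 (hp l hl)
    linarith
  have hpi2 : Real.pi < 3.15 := Real.pi_lt_d2
  have h10 : (θ₂ - θ₁) * (δ * (6 * B1 + 34 * B2)) ≤ 1.575 * (δ * (6 * B1 + 34 * B2)) := by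
    refine mul_le_mul_of_nonneg_right ?_ (by positivity)
    linarith
  have h11 : δ ^ 2 * B1 ≤ δ * (1 / 2 * B1) := by
    have := mul_le_mul_of_nonneg_right hδ1 (mul_nonneg hδ0.le hB1')
    linarith
  have h12' : δ * (∑ l ∈ Finset.range (K + 1), (m (l + 1) - m l) *
      (Lth lev K m c a α β θ₂).pairEx l (f l) - ∑ l ∈ Finset.range (K + 1), (m (l + 1) - m l) *
      (Lth lev K m c a α β θ₁).pairEx l (f l)) ≤ δ * (10 * B1 + 54 * B2) := by
    have hδB1 := mul_nonneg hδ0.le hB1'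
    have hδB2 := mul_nonneg hδ0.le hB2'
    linarith
  exact le_of_mul_le_mul_left h12' hδ0

end Vale.Agent.P146.H784
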