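import Vale.Agent.P146.H784.SkRow
import Vale.Agent.P146.H722.Jet3
import Vale.Agent.P146.H826.KDef
import Vale.Agent.P146.H826.Adk
import Vale.Agent.P146.H327.Deep6

/-!
Preparations for the fourth derivative of the deep functional averaged over a Gaussian row: the
derivative and the row average, the regularity of the base system, the pair bookkeeping.
-/

open MeasureTheory ProbabilityTheory

namespace Vale.Agent.P146.H784

open Vale.Agent.P157.Lv Vale.Agent.P157.Lv.Sy Vale.Agent.P146.H425 Vale.Agent.P146.R1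
  Vale.Agent.P146.H325 Vale.Agent.P146.H332 Vale.Agent.P146.R1C
open Vale.Agent.P146.H327 (Sb Rb Vb sgb PB)

set_option linter.unusedSectionVars false

/-! ### the row average of a fourth derivative -/

section row

variable {n : ℕ} {k : ℝ} {F : (Pair n → ℝ) → ℝ} {μ : (Pair n → ℝ) → (Fin n → ℤˣ) → ℝ} {Γ : ℝ}

/-- **The fourth derivative of the row average is the row average of the fourth derivative.** -/
theorem it_row (hF : Cum.Fn k SkS F μ Γ) (b : Fin n) (v : Fin n → ℝ) (s a : ℝ)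
    (z : Pair n → ℝ) : iteratedDeriv 4 (fun h : ℝ =>
      ∫ y : Fin n → ℝ, F (put b (√s • y + h • a • v) z) ∂(gI (Fin n))) 0 =
      a ^ 4 * AvP s (row b)
        (fun u => iteratedDeriv 4 (fun h : ℝ => F (u + h • H722.nuv b v)) 0) z := by
  obtain ⟨f1, f2, f3, f4, D1, D2, D3, hj, h1⟩ := H722.fn_jet hF (H722.nuv b v)
  have bd : ∀ (c : ℝ) {f : (Pair n → ℝ) → ℝ}, (∃ C, ∀ z, |f z| ≤ C) →
      ∃ C, ∀ z, |c * f z| ≤ C := by
    rintro c f ⟨C, hC⟩
    exact ⟨|c| * C, fun z => by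
      rw [abs_mul]
      exact mul_le_mul_of_nonneg_left (hC z) (abs_nonneg _)⟩
  have l1 : H722.LnD (a • H722.nuv b v) F fun z => (a * k) * f1 z :=
    (hj.l0.scale a).congr fun z => by ring
  have l2 : H722.LnD (a • H722.nuv b v) (fun z => (a * k) * f1 z) fun z => (a * k) ^ 2 * f2 z :=
    ((hj.l1.scale a).const_mul (a * k)).congr fun z => by ring
  have l3 : H722.LnD (a • H722.nuv b v) (fun z => (a * k) ^ 2 * f2 z)
      fun z => (a * k) ^ 3 * f3 z :=
    ((hj.l2.scale a).const_mul ((a * k) ^ 2)).congr fun z => by ring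
  have l4 : H722.LnD (a • H722.nuv b v) (fun z => (a * k) ^ 3 * f3 z)
      fun z => (a * k) ^ 4 * f4 z :=
    ((hj.l3.scale a).const_mul ((a * k) ^ 3)).congr fun z => by ring
  have key := (H722.it_AvP (s := s) (R := row b) l1 l2 l3 l4 hj.g0
    (hj.g1.const_mul _) (hj.g2.const_mul _) (hj.g3.const_mul _) (hj.g4.const_mul _)
    (bd _ hj.b1) (bd _ hj.b2) (bd _ hj.b3) (bd _ hj.b4) z).2
  have e0 : (fun h : ℝ => ∫ y : Fin n → ℝ, F (put b (√s • y + h • a • v) z)
      ∂(gI (Fin n))) = fun h => AvP s (row b) (fun z => F (z + h • a • H722.nuv b v)) z := by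
    funext h
    rw [AvP_row (H722.EG.shift hj.g0 (h • a • H722.nuv b v))]
    simp only [smul_smul, H722.put_add]
  have m1 : H722.LnD (H722.nuv b v) (fun z => k * f1 z) fun z => k ^ 2 * f2 z :=
    (hj.l1.const_mul k).congr fun z => by ring
  have m2 : H722.LnD (H722.nuv b v) (fun z => k ^ 2 * f2 z) fun z => k ^ 3 * f3 z :=
    (hj.l2.const_mul (k ^ 2)).congr fun z => by ring
  have m3 : H722.LnD (H722.nuv b v) (fun z => k ^ 3 * f3 z) fun z => k ^ 4 * f4 z :=
    (hj.l3.const_mul (k ^ 3)).congr fun z => by ring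
  have e1 : (fun u => iteratedDeriv 4 (fun h : ℝ => F (u + h • H722.nuv b v)) 0) =
      fun u => k ^ 4 * f4 u := by
    funext u
    rw [H722.LnD.it4 hj.l0 m1 m2 m3 u]
    simp
  rw [e0, key, e1, ← AvP_const_mul]
  congr 1
  funext u
  ring

end row

section fn

variable {ι X : Type} [Fintype ι] [DecidableEq ι] [Fintype X] [DecidableEq X]

/-- the deep functionals are cascades -/
lemma fn_FD {k Γ : ℝ} {φ : ι → X → ℝ} {F : (ι → ℝ) → ℝ} {μ : (ι → ℝ) → X → ℝ}
    (h : Cum.Fn k φ F μ Γ) {m σ : ℕ → ℝ} {J : ℕ} (h0 : ∀ i < J, 0 < m i) (h1 : ∀ i < J, m i ≤ 1) :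
    ∀ i : ℕ, i ≤ J → Cum.Fn k φ (R1.FD F m σ i)
      (fun z v => TD F m σ (fun u => μ u v) i z) (Γ + 2 * i) := by
  intro i
  induction i with
  | zero =>
    intro _
    simp only [Nat.cast_zero, mul_zero, add_zero]
    exact h
  | succ i ih =>
    intro hi
    have h2 := (ih (by omega)).layer (h0 i (by omega)) (h1 i (by omega)) (σ i)
    have h3 : Γ + 2 * ((i + 1 : ℕ) : ℝ) = Γ + 2 * i + 2 := by
      push_cast
      ring
    rw [h3]
    exact h2

end fn

/-! ### the base system -/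

section base

variable {κ X : Type} [Fintype κ] [DecidableEq κ] [Fintype X] [Nonempty X] {m σ : ℕ → ℝ} {J : ℕ}
  {x : ℝ}

/-- the coefficients of the position -/
noncomputable def cP (κ : Type) [DecidableEq κ] (σ : ℕ → ℝ) (J : ℕ) (p : Fin (J + 1) × κ) :
    ℕ → κ → ℝ
  | 0 => fun _ => 0
  | l + 1 => fun e => cP κ σ J p l e + σ (J - 1 - l) * (if cd κ J l e = p then 1 else 0)

lemma pd_Ps (z : κ → ℝ) (p : Fin (J + 1) × κ) (e : κ) : ∀ l,
    PD p (fun ζ => Ps (cd κ J) σ J (fun _ => z) l ζ e) fun _ => cP κ σ J p l e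
  | 0 => PD.const _
  | l + 1 => (pd_Ps z p e l).add ((PD.coord (cd κ J l e)).const_mul _)

/-- the partial derivatives of the energy -/
noncomputable def Dn (k : ℝ) (S : κ → X → ℝ) (σ : ℕ → ℝ) (J : ℕ) (p : Fin (J + 1) × κ)
    (_ : Fin (J + 1) × κ → ℝ) (a : X) : ℝ := k * ∑ e, S e a * cP κ σ J p J e

lemma DS_regD (k : ℝ) (S : κ → X → ℝ) (z : κ → ℝ) (h : Exs m J x) (σ : ℕ → ℝ) :
    (DS k S m σ J z).RegD (Dn k S σ J) where
  toReg := DS_reg k S z h σ
  pd p a := by
    refine PD.const_mul ?_ k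
    exact PD.sum _ fun e _ => (pd_Ps z p e J).const_mul _
  md p a := measurable_const
  bd := by
    refine ⟨∑ p, ∑ a, |k * ∑ e, S e a * cP κ σ J p J e|, fun p _ a => ?_⟩
    refine le_trans ?_ (Finset.single_le_sum (f := fun p => ∑ a, |k * ∑ e, S e a * cP κ σ J p J e|)
      (fun p _ => Finset.sum_nonneg fun a _ => abs_nonneg _) (Finset.mem_univ p))
    exact Finset.single_le_sum (f := fun a => |k * ∑ e, S e a * cP κ σ J p J e|)
      (fun a _ => abs_nonneg _) (Finset.mem_univ a)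

/-- **The averages over one replica.** -/
theorem DS_Ex [DecidableEq X] (k : ℝ) (S : κ → X → ℝ) (z : κ → ℝ) (h : Exs m J x) (σ : ℕ → ℝ)
    (g : X → ℝ) : (DS k S m σ J z).Ex (fun _ a => g a) =
      ∑ a, TD (lz k S) m σ (fun u => H941.gm k S u a) J z * g a := by
  have hR := DS_rp k S z h σ
  have hG : ∀ a, EG fun u => H941.gm k S u a := fun a =>
    EG.of_bdd (C := 1) ((H941.rt_lz k S).meas a) fun y => by
      rw [abs_of_nonneg ((H941.rt_lz k S).m0 y a)]
      exact (H941.rt_lz k S).le_one y a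
  have h1 : ∀ ζ, (DS k S m σ J z).T 0 (fun _ a => g a) ζ =
      TD (lz k S) m σ (fun u => ∑ a, H941.gm k S u a * g a) J z := fun ζ => by
    have := hR.T_top (H332.c11_lz k S) (f := fun _ a => g a) (Nh.snd g)
      (φ := fun u => ∑ a, H941.gm k S u a * g a)
      (EG.sum _ fun a _ => (hG a).mul (EG.const _)) (fun ζ => rfl) (Nat.zero_le _) ζ
    rw [this, Nat.sub_zero]
    rfl
  rw [hR.reg.Ex_eq_T (Nh.snd g)]
  simp only [h1, integral_const, probReal_univ, one_smul]
  have h2 : (fun u => ∑ a, H941.gm k S u a * g a) = fun u => ∑ a, g a * H941.gm k S u a := by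
    funext u
    exact Finset.sum_congr rfl fun a _ => mul_comm _ _
  rw [h2, R1.TD_lin (H332.c11_lz k S) Finset.univ g (fun a _ => hG a) J fun j hj => h.pos j hj]
  exact Finset.sum_congr rfl fun a _ => mul_comm _ _

end base

/-! ### the levels -/

section lev

variable {m : ℕ → ℝ} {J : ℕ}

lemma mS_zero (m : ℕ → ℝ) (J : ℕ) : mS m J 0 = 0 := if_pos rfl

lemma mS_top (m : ℕ → ℝ) {J l : ℕ} (hl : l < J) : mS m J (l + 2) = mp m (J - 1 - l) := by
  rcases Nat.eq_or_lt_of_le (Nat.succ_le_of_lt hl) with h | h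
  · have e : J - 1 - l = 0 := by omega
    rw [e]
    unfold mS
    rw [if_neg (by omega), if_pos (by omega)]
    rfl
  · have h1 := mS_succ m (l := l + 1) (J := J) h
    rw [show l + 2 = l + 1 + 1 by rfl, h1]
    obtain ⟨i, hi⟩ : ∃ i, J - 1 - l = i + 1 := ⟨J - 1 - l - 1, by omega⟩
    rw [hi, show J - 1 - (l + 1) = i by omega]
    rfl

lemma sum_levels (hJ : 1 ≤ J) (m f : ℕ → ℝ) :
    ∑ l ∈ Finset.range (J + 1), (mS m J (l + 1) - mS m J l) * f (J - l) =
      m (J - 1) * f J + ∑ i ∈ Finset.range J, (mp m i - m i) * f i := by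
  rw [Finset.sum_range_succ', add_comm, zero_add, mS_zero, sub_zero, mS_succ m (by omega),
    Nat.sub_zero, Nat.sub_zero]
  congr 1
  rw [← Finset.sum_range_reflect (fun i => (mp m i - m i) * f i) J]
  refine Finset.sum_congr rfl fun l hl => ?_
  have hl' := Finset.mem_range.1 hl
  rw [mS_succ m hl', show l + 1 + 1 = l + 2 by rfl, mS_top m hl',
    show J - (l + 1) = J - 1 - l by omega]

/-- the exponents of the system are strictly increasing -/
lemma mS_exp {x : ℝ} (h : Exs m J x) (h0 : ∀ i < J, m i < mp m i) :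
    Vale.Agent.P157.Par.Exponents J (mS m J) := by
  refine ⟨mS_zero m J, ?_, fun l hl => ?_⟩
  · unfold mS
    rw [if_neg (by omega), if_pos (by omega)]
  · rcases Nat.eq_zero_or_pos l with rfl | hl0
    · rw [mS_zero]
      exact mS_one h
    · obtain ⟨l, rfl⟩ : ∃ i, l = i + 1 := ⟨l - 1, by omega⟩
      rw [mS_succ m (by omega), show l + 1 + 1 = l + 2 by rfl, mS_top m (by omega)]
      exact h0 _ (by omega)

end lev

/-! ### the pairs -/

section book

variable {n : ℕ} {b : Fin n} {k x : ℝ} {m σ : ℕ → ℝ} {J : ℕ} {z : Pair n → ℝ}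

/-- **The pair bookkeeping.** -/
theorem book (hn : 0 < n) (hE : Exs m J x) (hJ : 1 ≤ J) {sg : (Fin n → ℤˣ) → ℝ}
    (hsg : ∀ τ, sg τ ^ 2 = 1) {q : ℕ → ℝ} (hqJ : q J = 0) :
    ∑ l ∈ Finset.range ((DS k (Sb b) m σ J z).K + 1), (DS k (Sb b) m σ J z).p l *
      (DS k (Sb b) m σ J z).pairEx l (fun y y' => |sg y * sg y' *
        (∑ r : Fin (J + 1) × Fin n, if (r.1 : ℕ) ≤ l then al k 1 σ J b y r * al k 1 σ J b y' r
          else 0) - k ^ 2 * n * q (J - l)|) ≤
      k ^ 2 * n * (m (J - 1) + ∑ i ∈ Finset.range J, (mp m i - m i) *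
        PB b k m σ J i (fun τ τ' => |sg τ * sg τ' * Rb b τ τ' - q i|) z +
        ∑ j ∈ Finset.range J, σ j ^ 2) := by
  have hR := DS_reg k (Sb b) z hE σ
  have hk : 0 ≤ k ^ 2 * (n : ℝ) := by positivity
  have hsg1 : ∀ τ, |sg τ| = 1 := fun τ => by
    have h1 := hsg τ
    rw [← sq_abs] at h1
    nlinarith [abs_nonneg (sg τ)]
  have hK : (DS k (Sb b) m σ J z).K = J := rfl
  set Sg : ℝ := ∑ j ∈ Finset.range J, σ j ^ 2 with hSg
  have hv : ∀ l ≤ J, |vl 1 σ J l - 1| ≤ Sg := by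
    intro l hl
    unfold vl
    rw [one_pow, add_sub_cancel_left, abs_of_nonneg (Finset.sum_nonneg fun _ _ => sq_nonneg _),
      hSg, ← Finset.sum_range_reflect (fun i => σ i ^ 2) J]
    exact Finset.sum_le_sum_of_subset_of_nonneg (Finset.range_subset_range.2 hl)
      fun _ _ _ => sq_nonneg _
  have hpt : ∀ l ≤ J, ∀ y y' : Fin n → ℤˣ, |sg y * sg y' *
      (∑ r : Fin (J + 1) × Fin n, if (r.1 : ℕ) ≤ l then al k 1 σ J b y r * al k 1 σ J b y' r
        else 0) - k ^ 2 * n * q (J - l)| ≤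
      k ^ 2 * n * |sg y * sg y' * Rb b y y' - q (J - l)| + k ^ 2 * n * Sg := by
    intro l hl y y'
    rw [al_pair hn hl]
    have e : sg y * sg y' * (k ^ 2 * n * vl 1 σ J l * Rb b y y') - k ^ 2 * n * q (J - l) =
        k ^ 2 * n * (sg y * sg y' * Rb b y y' - q (J - l)) +
          k ^ 2 * n * ((vl 1 σ J l - 1) * (sg y * sg y' * Rb b y y')) := by ring
    rw [e]
    refine (abs_add_le _ _).trans ?_
    rw [abs_mul (k ^ 2 * (n : ℝ)) (sg y * sg y' * Rb b y y' - q (J - l)),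
      abs_mul (k ^ 2 * (n : ℝ)) ((vl 1 σ J l - 1) * (sg y * sg y' * Rb b y y')),
      abs_of_nonneg hk]
    refine add_le_add le_rfl (mul_le_mul_of_nonneg_left ?_ hk)
    rw [abs_mul, abs_mul, abs_mul, hsg1, hsg1, one_mul, one_mul]
    have h1 := H327.abs_Rb (b := b) hn y y'
    have h2 := hv l hl
    have h3 := abs_nonneg (vl 1 σ J l - 1)
    nlinarith [abs_nonneg (Rb b y y')]
  have hl : ∀ l ∈ Finset.range (J + 1), (DS k (Sb b) m σ J z).p l *
      (DS k (Sb b) m σ J z).pairEx l (fun y y' => |sg y * sg y' *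
        (∑ r : Fin (J + 1) × Fin n, if (r.1 : ℕ) ≤ l then al k 1 σ J b y r * al k 1 σ J b y' r
          else 0) - k ^ 2 * n * q (J - l)|) ≤ (DS k (Sb b) m σ J z).p l *
      (k ^ 2 * n * PB b k m σ J (J - l)
        (fun τ τ' => |sg τ * sg τ' * Rb b τ τ' - q (J - l)|) z + k ^ 2 * n * Sg) := by
    intro l hl
    have hl' : l ≤ J := by
      have := Finset.mem_range.1 hl
      omega
    refine mul_le_mul_of_nonneg_left ?_ (H826.p_nonneg hR hl)
    refine (hR.pairEx_mono (l := l) hl' (hpt l hl')).trans (le_of_eq ?_)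
    rw [hR.pairEx_add (l := l) hl', hR.pairEx_const_mul, hR.pairEx_const (l := l) hl',
      DS_pair k (Sb b) z hE σ hl']
    rfl
  rw [hK]
  refine (Finset.sum_le_sum hl).trans ?_
  have hs := H826.sum_p hR
  rw [hK] at hs
  have e1 : ∑ l ∈ Finset.range (J + 1), (DS k (Sb b) m σ J z).p l *
      (k ^ 2 * n * PB b k m σ J (J - l)
        (fun τ τ' => |sg τ * sg τ' * Rb b τ τ' - q (J - l)|) z + k ^ 2 * n * Sg) =
      k ^ 2 * n * (∑ l ∈ Finset.range (J + 1), (mS m J (l + 1) - mS m J l) *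
        (fun i => PB b k m σ J i (fun τ τ' => |sg τ * sg τ' * Rb b τ τ' - q i|) z) (J - l)) +
        k ^ 2 * n * Sg := by
    have e2 : ∀ l, (DS k (Sb b) m σ J z).p l * (k ^ 2 * n * PB b k m σ J (J - l)
        (fun τ τ' => |sg τ * sg τ' * Rb b τ τ' - q (J - l)|) z + k ^ 2 * n * Sg) =
        k ^ 2 * n * ((mS m J (l + 1) - mS m J l) *
          (fun i => PB b k m σ J i (fun τ τ' => |sg τ * sg τ' * Rb b τ τ' - q i|) z) (J - l)) +
          (DS k (Sb b) m σ J z).p l * (k ^ 2 * n * Sg) := by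
      intro l
      show (mS m J (l + 1) - mS m J l) * _ = _
      simp only [Sy.p, DS]
      ring
    rw [Finset.sum_congr rfl fun l _ => e2 l, Finset.sum_add_distrib, ← Finset.mul_sum,
      ← Finset.sum_mul, hs, one_mul]
  rw [e1, sum_levels hJ m fun i => PB b k m σ J i
    (fun τ τ' => |sg τ * sg τ' * Rb b τ τ' - q i|) z, mul_add (k ^ 2 * (n : ℝ))
    (m (J - 1) + _) Sg]
  refine add_le_add (mul_le_mul_of_nonneg_left (add_le_add ?_ le_rfl) hk) le_rfl
  have hm := hE.pos (J - 1) (by omega)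
  have h5 : PB b k m σ J J (fun τ τ' => |sg τ * sg τ' * Rb b τ τ' - q J|) z ≤ 1 := by
    have h6 := DS_pair k (Sb b) z hE σ (Nat.zero_le J)
      (fun τ τ' => |sg τ * sg τ' * Rb b τ τ' - q J|)
    rw [Nat.sub_zero] at h6
    have h7 : PB b k m σ J J (fun τ τ' => |sg τ * sg τ' * Rb b τ τ' - q J|) z =
      (DS k (Sb b) m σ J z).pairEx 0 (fun τ τ' => |sg τ * sg τ' * Rb b τ τ' - q J|) := h6.symm
    rw [h7, ← hR.pairEx_const (Nat.zero_le _) 1]
    refine hR.pairEx_mono (Nat.zero_le _) fun τ τ' => ?_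
    rw [hqJ, sub_zero, abs_mul, abs_mul, hsg1, hsg1, one_mul, one_mul]
    exact H327.abs_Rb hn τ τ'
  calc m (J - 1) * PB b k m σ J J (fun τ τ' => |sg τ * sg τ' * Rb b τ τ' - q J|) z ≤
        m (J - 1) * 1 := mul_le_mul_of_nonneg_left h5 hm.le
    _ = m (J - 1) := mul_one _

end book

end Vale.Agent.P146.H784
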