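import Vale.Agent.P146.H784.Kab0

/-!
The fourth derivative of the deep functional averaged over a Gaussian row, in the direction of the
normalized projection, is the fourth derivative of the free energy of the row system.
-/

open MeasureTheory ProbabilityTheory

namespace Vale.Agent.P146.H784

open Vale.Agent.P157.Lv Vale.Agent.P157.Lv.Sy Vale.Agent.P146.H425 Vale.Agent.P146.R1
  Vale.Agent.P146.H325 Vale.Agent.P146.H332 Vale.Agent.P146.R1C
open Vale.Agent.P146.H327 (Sb Rb Vb sgb PB)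

set_option linter.unusedSectionVars false

variable {n : ℕ} {b : Fin n} {k x lam : ℝ} {m σ : ℕ → ℝ} {J : ℕ} {z : Pair n → ℝ}
  {v : Fin n → ℝ}

/-- the system with the row `b` and the field `h V` on the site `b` -/
noncomputable abbrev RS (b : Fin n) (k : ℝ) (m σ : ℕ → ℝ) (J : ℕ) (z : Pair n → ℝ)
    (f : (Fin n → ℤˣ) → ℝ) (h : ℝ) :
    Sy ((Fin (J + 1) × Pair n) ⊕ (Fin (J + 1) × Fin n)) ((Fin n → ℤˣ) × Bool) :=
  H826.SR (DS k (Sb b) m σ J z) (fun r : Fin (J + 1) × Fin n => (r.1 : ℕ)) (al k 1 σ J b) f h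

lemma sum_sgn_fn (φ : ℝ → ℝ) : ∑ e, φ (H826.sgn e) = φ 1 + φ (-1) := by
  rw [Fintype.sum_bool]
  unfold H826.sgn
  simp

lemma isSR (h : ℝ) (w : Fin n → ℝ) :
    IsSR (RS b k m σ J z (fun τ => ∑ l ∈ Finset.univ.erase b, w l * sp τ l) h)
      (DS k (Sb b) m σ J z) (fun r => r.1) (al k 1 σ J b)
      (fun τ => ∑ l ∈ Finset.univ.erase b, w l * sp τ l) h H826.sgn where
  ll _ := rfl
  lr _ := rfl
  K := rfl
  m := rfl
  H _ _ _ := rfl

lemma Vb_eq (hv : v b = 0) (τ : Fin n → ℤˣ) :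
    Vb v lam τ = ∑ l ∈ Finset.univ.erase b, ((√lam)⁻¹ • v) l * sp τ l := by
  unfold Vb
  rw [← Finset.add_sum_erase _ _ (Finset.mem_univ b), hv, zero_mul, zero_add, div_eq_inv_mul,
    Finset.mul_sum]
  refine Finset.sum_congr rfl fun l _ => ?_
  rw [Pi.smul_apply, smul_eq_mul]
  ring

/-- **(K4)** -/
theorem it_SR (hk : 0 < k) (hE : Exs m J x) (hv : v b = 0) (hl : 0 < lam) (z : Pair n → ℝ) :
    iteratedDeriv 4 (fun h => (RS b k m σ J z (Vb v lam) h).fe) 0 = (k ^ 4 * lam ^ 2)⁻¹ *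
      AvP 1 (row b) (fun u => iteratedDeriv 4 (fun h : ℝ =>
        FD (lz k SkS) m σ J (u + h • H722.nuv b v)) 0) z := by
  have hVb : Vb v lam = fun τ => ∑ l ∈ Finset.univ.erase b, ((√lam)⁻¹ • v) l * sp τ l :=
    funext fun τ => Vb_eq hv τ
  have h1 : ∀ h, (RS b k m σ J z (Vb v lam) h).fe = Real.log 2 + ∫ y : Fin n → ℝ,
      FD (lz k SkS) m σ J (put b (√1 • y + h • (k * √lam)⁻¹ • v) z) ∂(gI (Fin n)) := by
    intro h
    rw [hVb, row_fe hk.ne' hE sum_sgn_fn (isSR h ((√lam)⁻¹ • v)), add_comm]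
    congr 1
    have e3 : (h / k) • (√lam)⁻¹ • v = h • (k * √lam)⁻¹ • v := by
      rw [smul_smul, smul_smul]
      congr 1
      rw [mul_inv]
      ring
    rw [Real.sqrt_one, e3]
  have hF : Cum.Fn k SkS (FD (lz k (SkS (n := n))) m σ J)
      (fun z τ => TD (lz k SkS) m σ (fun u => Cum.mg k SkS u τ) J z) (2 + 2 * J) :=
    fn_FD (Cum.fn_lz k SkS) (fun i hi => hE.pos i hi) (fun i hi => hE.le i hi) J le_rfl
  simp only [h1]
  rw [iteratedDeriv_const_add (by norm_num), it_row hF b v 1]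
  congr 1
  have e2 : √lam ^ 4 = lam ^ 2 := by
    have := Real.sq_sqrt hl.le
    calc √lam ^ 4 = (√lam ^ 2) ^ 2 := by ring
      _ = lam ^ 2 := by rw [this]
  rw [inv_pow, mul_pow, e2]

/-- the two regimes in one bound -/
lemma two_reg {c ε C D E D0 : ℝ} (hc : 0 ≤ c) (hε : 0 < ε) (hC : 0 ≤ C) (hE : 0 ≤ E)
    (h1 : E ≤ ε → D ≤ -c) (h2 : D ≤ C * (2 + 2 * D0)) (h3 : D0 ≤ E) :
    D ≤ -c + ((c + 2 * C) / ε + 2 * C) * E := by
  rcases le_or_gt E ε with h | h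
  · have h4 := h1 h
    have : 0 ≤ ((c + 2 * C) / ε + 2 * C) * E := by positivity
    linarith
  · have h4 : 1 ≤ E / ε := (one_le_div hε).2 h.le
    have h5 : (c + 2 * C) * 1 ≤ (c + 2 * C) * (E / ε) :=
      mul_le_mul_of_nonneg_left h4 (by positivity)
    have h6 : ((c + 2 * C) / ε + 2 * C) * E = (c + 2 * C) * (E / ε) + 2 * C * E := by ring
    have h7 : C * (2 * D0) ≤ C * (2 * E) := mul_le_mul_of_nonneg_left (by linarith) hC
    rw [h6]
    nlinarith

end Vale.Agent.P146.H784
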