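import Vale.Agent.P146.H784.Dbl

set_option linter.all false

/-!
The free energy is at most its second order expansion: `fe (H + v) <= fe H + Ex v + Ex v ^ 2` if
`|v| <= 1`; the change of an average under a small perturbation of the energy.
-/

open MeasureTheory ProbabilityTheory Filter Topology

namespace Vale.Agent.P146.H784

open Vale.Agent.P157 Vale.Agent.P157.Lv Vale.Agent.P157.Lv.Sy

variable {ι X : Type} [Fintype ι] [DecidableEq ι] [Fintype X] [DecidableEq X] [Nonempty X]
  {S : Sy ι X} {H' : (ι → ℝ) → X → ℝ} {l j : ℕ}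

/-- the exponents only help, upper bound: `exp (lg' l - lg l) <= T_l exp (H' - H)` -/
theorem exp_pD_le (hS : S.Reg) (hS' : (S.wH H').Reg) {l : ℕ} (hl : l ≤ S.K) (z : ι → ℝ) :
    Real.exp (S.pD H' l z) ≤ S.T l (fun z x => Real.exp (H' z x - S.H z x)) z := by
  have hNf : Nh fun z x => Real.exp (H' z x - S.H z x) := fun x => by
    have := (hS.lip_diff hS' x).exp_eg 1
    simpa only [one_mul] using this
  have key : ∀ l ≤ S.K, ∀ z, Real.exp (S.pD H' l z) ≤
      S.T l (fun z x => Real.exp (H' z x - S.H z x)) z := by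
    refine down_ind (P := fun l => ∀ z, Real.exp (S.pD H' l z) ≤
      S.T l (fun z x => Real.exp (H' z x - S.H z x)) z) ?_ ?_
    · intro z
      rw [hS.T_top]
      have h6 : S.pD H' S.K z = (S.wH H').top z - S.top z := by
        unfold pD
        rw [lg_top S]
        have h7 : (S.wH H').lg S.K = (S.wH H').top := lg_top (S.wH H')
        rw [h7]
      rw [h6, exp_top_sub]
      rfl
    · intro l hl ih z
      rw [hS.T_step hl hNf z]
      have hm : 0 < S.m (l + 1) := hS.m_pos (by omega) (by omega)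
      have hm1 : S.m (l + 1) ≤ 1 := hS.m_le_one (by omega)
      have hW := hS.pW_eg hl
      have hD := hS.lip_pD hS' (l := l + 1) hl
      have hY : EG fun z => Real.exp (S.pD H' (l + 1) z) := by
        have := hD.exp_eg 1
        simpa only [one_mul] using this
      have h1 : J S.lev l (fun z => S.pW l z * Real.exp (S.pD H' (l + 1) z)) z ≤
          J S.lev l (fun z => S.pW l z * S.T (l + 1) (fun z x => Real.exp (H' z x - S.H z x)) z) z :=
        J_mono (hW.mul hY) (hW.mul (hS.eg_T (l := l + 1) hl hNf))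
          (fun y => mul_le_mul_of_nonneg_left (ih y) (S.pW_pos l y).le) z
      refine le_trans ?_ h1
      obtain ⟨A, hA⟩ : ∃ A, A = J S.lev l (fun z => S.pW l z * Real.exp (S.pD H' (l + 1) z)) z :=
        ⟨_, rfl⟩
      have hA0 : 0 < A := by
        rw [hA]
        exact J_pos (hW.mul hY) (fun y => mul_pos (S.pW_pos l y) (Real.exp_pos _)) z
      rw [← hA]
      have h2 := hS.J_pW_exp hS' hl z
      have h3 : Real.exp (S.m (l + 1) * S.pD H' l z) ≤ Real.exp (S.m (l + 1) * Real.log A) := by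
        have h4 : J S.lev l (fun z => S.pW l z * Real.exp (S.m (l + 1) * S.pD H' (l + 1) z)) z ≤
            J S.lev l (fun z => Real.exp (S.m (l + 1) * Real.log A) *
              ((1 - S.m (l + 1)) * S.pW l z +
                S.m (l + 1) / A * (S.pW l z * Real.exp (S.pD H' (l + 1) z)))) z := by
          refine J_mono (hW.mul (hD.exp_eg _))
            (((hW.const_mul _).add ((hW.mul hY).const_mul _)).const_mul _) (fun y => ?_) z
          have h5 := exp_mul_le_tangent hm.le hm1 (S.pD H' (l + 1) y - Real.log A)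
          have h6 : Real.exp (S.m (l + 1) * S.pD H' (l + 1) y) =
              Real.exp (S.m (l + 1) * Real.log A) *
                Real.exp (S.m (l + 1) * (S.pD H' (l + 1) y - Real.log A)) := by
            rw [← Real.exp_add]
            congr 1
            ring
          rw [h6]
          rw [Real.exp_sub, Real.exp_log hA0] at h5
          have h7 := mul_le_mul_of_nonneg_left h5
            (mul_pos (Real.exp_pos (S.m (l + 1) * Real.log A)) (S.pW_pos l y)).le
          refine le_trans (le_of_eq ?_) (h7.trans (le_of_eq ?_))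
          · ring
          · ring
        rw [J_const_mul, J_add (hW.const_mul _) ((hW.mul hY).const_mul _), J_const_mul,
          J_const_mul, ← hA, hS.J_pW hl z] at h4
        have h8 : J S.lev l (fun z => S.pW l z * Real.exp (S.m (l + 1) * S.pD H' (l + 1) z)) z =
          Real.exp (S.m (l + 1) * S.pD H' l z) := h2
        rw [h8] at h4
        refine h4.trans (le_of_eq ?_)
        field_simp
        ring
      rw [Real.exp_le_exp] at h3
      have h9 : S.pD H' l z ≤ Real.log A := le_of_mul_le_mul_left h3 hm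
      calc Real.exp (S.pD H' l z) ≤ Real.exp (Real.log A) := Real.exp_le_exp.2 h9
        _ = A := Real.exp_log hA0
  exact key l hl z

/-- the free energy is at most `Ex exp (H' - H) - 1` larger -/
theorem fe_sub_le_exp (hS : S.Reg) (hS' : (S.wH H').Reg) :
    (S.wH H').fe - S.fe ≤ S.Ex (fun z x => Real.exp (H' z x - S.H z x)) - 1 := by
  have hNf : Nh fun z x => Real.exp (H' z x - S.H z x) := fun x => by
    have := (hS.lip_diff hS' x).exp_eg 1
    simpa only [one_mul] using this
  rw [hS.fe_sub hS', hS.Ex_eq_T hNf]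
  have h1 : ∀ z, S.pD H' 0 z ≤ S.T 0 (fun z x => Real.exp (H' z x - S.H z x)) z - 1 := by
    intro z
    have h2 := exp_pD_le hS hS' (Nat.zero_le _) z
    have h3 := Real.add_one_le_exp (S.pD H' 0 z)
    linarith
  have h4 : (∫ z, S.pD H' 0 z ∂(gI ι)) ≤
      ∫ z, (S.T 0 (fun z x => Real.exp (H' z x - S.H z x)) z - 1) ∂(gI ι) :=
    integral_mono (hS.lip_pD hS' (Nat.zero_le _)).eg.integrable
      ((hS.eg_T (Nat.zero_le _) hNf).sub (EG.const 1)).integrable h1
  refine h4.trans (le_of_eq ?_)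
  rw [integral_sub (hS.eg_T (Nat.zero_le _) hNf).integrable (EG.const 1).integrable]
  simp

/-- a perturbation by a function of the configuration -/
noncomputable def ad (S : Sy ι X) (f : X → ℝ) : Sy ι X := S.wH fun z x => S.H z x + f x

lemma ad_reg (hS : S.Reg) (f : X → ℝ) : (ad S f).Reg where
  m0 := hS.m0
  mK := hS.mK
  mono := hS.mono
  pos := hS.pos
  lev := hS.lev
  lip := fun x => (hS.lip x).add (Lip.const (f x))

lemma ad_le (hS : S.Reg) (f : X → ℝ) (hf : ∀ x, |f x| ≤ 1) :
    (ad S f).fe - S.fe ≤ S.Ex (fun _ x => f x) + S.Ex (fun _ x => f x ^ 2) := by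
  have h1 := fe_sub_le_exp hS (H' := fun z x => S.H z x + f x) (ad_reg hS f)
  refine h1.trans ?_
  have h2 : S.Ex (fun z x => Real.exp (S.H z x + f x - S.H z x)) ≤
      S.Ex (fun z x => (1 + f x) + f x ^ 2) := by
    refine hS.Ex_mono ?_ (Nh.snd fun x => (1 + f x) + f x ^ 2) fun z x => ?_
    · intro x
      have : (fun z : ι → ℝ => Real.exp (S.H z x + f x - S.H z x)) = fun _ => Real.exp (f x) := by
        funext z
        congr 1
        ring
      rw [this]
      exact EG.const _
    · have h3 := Real.abs_exp_sub_one_sub_id_le (hf x)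
      have h4 := (abs_le.1 h3).2
      have h5 : S.H z x + f x - S.H z x = f x := by ring
      rw [h5]
      linarith
  have h3 : S.Ex (fun z x => (1 + f x) + f x ^ 2) =
      1 + S.Ex (fun _ x => f x) + S.Ex (fun _ x => f x ^ 2) := by
    rw [hS.Ex_add (Nh.snd fun x => 1 + f x) (Nh.snd fun x => f x ^ 2),
      hS.Ex_add (fun _ => EG.const 1) (Nh.snd f), hS.Ex_const]
  linarith

lemma le_ad (hS : S.Reg) (f : X → ℝ) : S.Ex (fun _ x => f x) ≤ (ad S f).fe - S.fe := by
  have h1 := hS.jensen (H' := fun z x => S.H z x + f x) (ad_reg hS f)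
  refine le_trans (le_of_eq ?_) h1
  congr 1
  funext z x
  ring

lemma ad_ad (S : Sy ι X) (f g : X → ℝ) : ad (ad S f) g = ad S (fun x => f x + g x) := by
  unfold ad Sy.wH
  congr 1
  funext z x
  show S.H z x + f x + g x = S.H z x + (f x + g x)
  ring

/-- **The change of an average.** -/
theorem ad_Ex_le (hS : S.Reg) (f g : X → ℝ) {C δ : ℝ} (hδ : 0 < δ) (hC : δ * (2 * C) ≤ 1)
    (hf : ∀ x, |f x| ≤ C) (hg : ∀ x, |g x| ≤ C) :
    (ad S (fun x => δ * f x)).Ex (fun _ x => g x) - S.Ex (fun _ x => g x) ≤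
      2 * δ * (S.Ex (fun _ x => f x ^ 2) + S.Ex (fun _ x => g x ^ 2)) := by
  have hR := ad_reg hS (fun x => δ * f x)
  have h1 := le_ad hR (fun x => δ * g x)
  rw [ad_ad] at h1
  have h2 := ad_le hS (fun x => δ * f x + δ * g x) (fun x => by
    rw [← mul_add, abs_mul, abs_of_pos hδ]
    have := abs_add_le (f x) (g x)
    have h3 : δ * |f x + g x| ≤ δ * (2 * C) :=
      mul_le_mul_of_nonneg_left (by linarith [hf x, hg x]) hδ.le
    linarith)
  have h3 := le_ad hS (fun x => δ * f x)
  have e1 : (ad S (fun x => δ * f x)).Ex (fun _ x => δ * g x) =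
      δ * (ad S (fun x => δ * f x)).Ex (fun _ x => g x) := Sy.Ex_const_mul _ _ _
  have e2 : S.Ex (fun _ x => δ * f x) = δ * S.Ex (fun _ x => f x) := Sy.Ex_const_mul _ _ _
  have e3 : S.Ex (fun _ x => δ * f x + δ * g x) =
      δ * S.Ex (fun _ x => f x) + δ * S.Ex (fun _ x => g x) := by
    rw [hS.Ex_add (Nh.snd fun x => δ * f x) (Nh.snd fun x => δ * g x), Sy.Ex_const_mul,
      Sy.Ex_const_mul]
  have h4 : S.Ex (fun _ x => (δ * f x + δ * g x) ^ 2) ≤
      2 * δ ^ 2 * (S.Ex (fun _ x => f x ^ 2) + S.Ex (fun _ x => g x ^ 2)) := by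
    rw [← hS.Ex_add (Nh.snd fun x => f x ^ 2) (Nh.snd fun x => g x ^ 2), ← Sy.Ex_const_mul]
    refine hS.Ex_mono (Nh.snd fun x => (δ * f x + δ * g x) ^ 2)
      (Nh.snd fun x => 2 * δ ^ 2 * (f x ^ 2 + g x ^ 2)) fun z x => ?_
    nlinarith [sq_nonneg (δ * f x - δ * g x)]
  rw [e1] at h1
  rw [e2] at h3
  rw [e3] at h2
  have h5 : δ * ((ad S (fun x => δ * f x)).Ex (fun _ x => g x) - S.Ex (fun _ x => g x)) ≤
      δ * (2 * δ * (S.Ex (fun _ x => f x ^ 2) + S.Ex (fun _ x => g x ^ 2))) := by
    linarith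
  exact le_of_mul_le_mul_left h5 hδ

/-- **The change of an average**, both sides. -/
theorem abs_ad_Ex_le (hS : S.Reg) (f g : X → ℝ) {C δ : ℝ} (hδ : 0 < δ) (hC : δ * (2 * C) ≤ 1)
    (hf : ∀ x, |f x| ≤ C) (hg : ∀ x, |g x| ≤ C) :
    |(ad S (fun x => δ * f x)).Ex (fun _ x => g x) - S.Ex (fun _ x => g x)| ≤
      2 * δ * (S.Ex (fun _ x => f x ^ 2) + S.Ex (fun _ x => g x ^ 2)) := by
  have h1 := ad_Ex_le hS f g hδ hC hf hg
  have h2 := ad_Ex_le hS f (fun x => -1 * g x) hδ hC hf (fun x => by
    rw [neg_one_mul, abs_neg]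
    exact hg x)
  rw [Sy.Ex_const_mul, Sy.Ex_const_mul] at h2
  have e : (fun (_ : ι → ℝ) (x : X) => (-1 * g x) ^ 2) = fun _ x => g x ^ 2 := by
    funext _ x
    ring
  rw [e] at h2
  rw [abs_le]
  constructor
  · linarith
  · exact h1

end Vale.Agent.P146.H784
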