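import Vale.Agent.P146.Bdl.B2

set_option linter.all false

/-!
The sandwich lemma. `rho l` is the overlap of two replicas that split at the level `l`, given the
levels at most `l`; `aa l = u_l - rho_l / 2`. For cells `I` left of `s` and `I'` right of `s`,
`2 T_s A_I <= rho_s <= 2 T_s A_I'`, hence the variance of `rho_s` is at most
`3 ((R_I' - R_I)^2 + 4 Var A_I + 4 Var A_I')`.
-/

open MeasureTheory ProbabilityTheory Filter Topology

namespace Vale.Agent.P146.H784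

open Vale.Agent.P157.Lv Vale.Agent.P157.Lv.Sy

variable {ι X : Type} [Fintype ι] [DecidableEq ι] [Fintype X] [DecidableEq X] [Nonempty X]
  {S : Sy ι X} {N : ℕ} {φ : X → Fin N → ℝ}

/-- the overlap at the level `l` given the levels at most `l`: `|m_l|^2 / N` -/
noncomputable def rho (S : Sy ι X) (φ : X → Fin N → ℝ) (l : ℕ) : (ι → ℝ) → ℝ :=
  fun z => 1 / N * ∑ i, S.mg φ l i z ^ 2

/-- `a_l = u_l - rho_l / 2`, `u_l = m_l . x / N` -/
noncomputable def aa (S : Sy ι X) (φ : X → Fin N → ℝ) (l : ℕ) : (ι → ℝ) → X → ℝ :=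
  fun z x => Fld.uu S φ l z x - 1 / 2 * rho S φ l z

/-- the average of the `a_l` over the cell `I` with the weights `w` -/
noncomputable def cellA (S : Sy ι X) (φ : X → Fin N → ℝ) (I : Finset ℕ) (w : ℕ → ℝ) :
    (ι → ℝ) → X → ℝ := fun z x => ∑ t ∈ I, w t * aa S φ t z x

/-- the variance under the tilted average -/
noncomputable def vr (S : Sy ι X) (h : (ι → ℝ) → X → ℝ) : ℝ :=
  S.Ex (fun z x => (h z x - S.Ex h) ^ 2)

lemma eg_rho (hS : S.Reg) {l : ℕ} (hl : l ≤ S.K) : EG (rho S φ l) :=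
  EG.const_mul _ (EG.sum _ fun i _ => (Fld.eg_mg hS hl i).pow 2)

lemma dep_rho (S : Sy ι X) (φ : X → Fin N → ℝ) (l : ℕ) : Dep S.lev l (rho S φ l) := by
  intro z w
  unfold rho
  congr 1
  refine Finset.sum_congr rfl fun i _ => ?_
  rw [Fld.dep_mg S φ l i z w]

lemma Ex_rho (S : Sy ι X) (φ : X → Fin N → ℝ) (l : ℕ) :
    S.Ex (fun z _ => rho S φ l z) = S.Rl φ l := by
  unfold rho Sy.Rl
  exact S.Ex_const_mul _ _

lemma nh_aa (hS : S.Reg) {l : ℕ} (hl : l ≤ S.K) : Nh (aa S φ l) :=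
  Nh.sub (Fld.nh_uu hS hl) (Nh.fst (EG.const_mul _ (eg_rho hS hl)))

lemma nh_cellA (hS : S.Reg) {I : Finset ℕ} (hI : ∀ t ∈ I, t ≤ S.K) (w : ℕ → ℝ) :
    Nh (cellA S φ I w) := Nh.sum _ fun t ht => Nh.const_mul _ (nh_aa hS (hI t ht))

/-- `T_s u_t = m_t . m_s / N` for `t <= s` -/
lemma T_uu_left (hS : S.Reg) {t s : ℕ} (hts : t ≤ s) (hs : s ≤ S.K) (z : ι → ℝ) :
    S.T s (Fld.uu S φ t) z = 1 / N * ∑ i, S.mg φ t i z * S.mg φ s i z := by
  have e : Fld.uu S φ t = fun z x => 1 / N * ∑ a, S.mg φ t a z * φ x a := rfl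
  rw [e, Sy.T_const_mul, hS.T_sum hs _ fun a _ =>
    Nh.mul (Nh.fst (Fld.eg_mg hS (hts.trans hs) a)) (Nh.snd fun x => φ x a)]
  congr 1
  refine Finset.sum_congr rfl fun i _ => ?_
  exact Sy.T_mul_left S ((Fld.dep_mg S φ t i).mono hts) (fun _ x => φ x i) z

/-- `T_s u_t = T_s rho_t` for `s <= t` -/
lemma T_uu_right (hS : S.Reg) {s t : ℕ} (hst : s ≤ t) (ht : t ≤ S.K) (z : ι → ℝ) :
    S.T s (Fld.uu S φ t) z = S.T s (fun z _ => rho S φ t z) z := by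
  rw [← hS.T_T hst ht (Fld.nh_uu hS ht)]
  congr 1
  funext z _
  rw [T_uu_left hS le_rfl ht]
  unfold rho
  congr 1
  refine Finset.sum_congr rfl fun i _ => ?_
  ring

/-- `rho_s <= T_s rho_t` for `s <= t` -/
lemma rho_le_T (hS : S.Reg) {s t : ℕ} (hst : s ≤ t) (ht : t ≤ S.K) (z : ι → ℝ) :
    rho S φ s z ≤ S.T s (fun z _ => rho S φ t z) z := by
  have hs := hst.trans ht
  have e : (fun (z : ι → ℝ) (_ : X) => rho S φ t z) =
      fun z _ => 1 / N * ∑ i, S.mg φ t i z ^ 2 := rfl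
  rw [e, Sy.T_const_mul, hS.T_sum hs _ fun a _ => Nh.fst ((Fld.eg_mg hS ht a).pow 2)]
  unfold rho
  refine mul_le_mul_of_nonneg_left (Finset.sum_le_sum fun i _ => ?_) (by positivity)
  have h1 : S.mg φ s i z = S.T s (fun z _ => S.mg φ t i z) z :=
    (hS.T_T hst ht (Nh.snd fun x => φ x i) z).symm
  rw [h1]
  exact hS.sq_T_le hs (Nh.fst (Fld.eg_mg hS ht i)) z

lemma T_aa (hS : S.Reg) {s t : ℕ} (hs : s ≤ S.K) (ht : t ≤ S.K) (z : ι → ℝ) :
    S.T s (aa S φ t) z = S.T s (Fld.uu S φ t) z -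
      1 / 2 * S.T s (fun z _ => rho S φ t z) z := by
  unfold aa
  rw [hS.T_sub hs (Fld.nh_uu hS ht) (Nh.fst (EG.const_mul _ (eg_rho hS ht)))]
  congr 1
  exact Sy.T_const_mul S s _ _ z

/-- left of `s` -/
lemma two_T_aa_left (hS : S.Reg) {t s : ℕ} (hts : t ≤ s) (hs : s ≤ S.K) (z : ι → ℝ) :
    2 * S.T s (aa S φ t) z ≤ rho S φ s z := by
  rw [T_aa hS hs (hts.trans hs), T_uu_left hS hts hs,
    hS.T_fst hs ((dep_rho S φ t).mono hts)]
  unfold rho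
  have h : 0 ≤ 1 / (N : ℝ) * ∑ i, (S.mg φ s i z - S.mg φ t i z) ^ 2 := by positivity
  have e : ∑ i, (S.mg φ s i z - S.mg φ t i z) ^ 2 =
      ∑ i, S.mg φ s i z ^ 2 - 2 * ∑ i, S.mg φ t i z * S.mg φ s i z + ∑ i, S.mg φ t i z ^ 2 := by
    rw [Finset.mul_sum, ← Finset.sum_sub_distrib, ← Finset.sum_add_distrib]
    refine Finset.sum_congr rfl fun i _ => ?_
    ring
  rw [e] at h
  nlinarith [h]

/-- right of `s` -/
lemma le_two_T_aa_right (hS : S.Reg) {s t : ℕ} (hst : s ≤ t) (ht : t ≤ S.K) (z : ι → ℝ) :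
    rho S φ s z ≤ 2 * S.T s (aa S φ t) z := by
  rw [T_aa hS (hst.trans ht) ht, T_uu_right hS hst ht]
  have := rho_le_T (φ := φ) hS hst ht z
  linarith

/-- weights of a cell -/
structure Cell (S : Sy ι X) (I : Finset ℕ) (w : ℕ → ℝ) : Prop where
  le : ∀ t ∈ I, t ≤ S.K
  nonneg : ∀ t ∈ I, 0 ≤ w t
  sum : ∑ t ∈ I, w t = 1

lemma T_cellA (hS : S.Reg) {s : ℕ} (hs : s ≤ S.K) {I : Finset ℕ} (hI : ∀ t ∈ I, t ≤ S.K)
    (w : ℕ → ℝ) (z : ι → ℝ) :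
    S.T s (cellA S φ I w) z = ∑ t ∈ I, w t * S.T s (aa S φ t) z := by
  unfold cellA
  rw [hS.T_sum hs _ fun t ht => Nh.const_mul _ (nh_aa hS (hI t ht))]
  exact Finset.sum_congr rfl fun t _ => Sy.T_const_mul S s _ _ z

/-- THE SANDWICH, left part -/
theorem sand_left (hS : S.Reg) {s : ℕ} (hs : s ≤ S.K) {I : Finset ℕ} {w : ℕ → ℝ}
    (hI : Cell S I w) (h : ∀ t ∈ I, t ≤ s) (z : ι → ℝ) :
    2 * S.T s (cellA S φ I w) z ≤ rho S φ s z := by
  rw [T_cellA hS hs hI.le, Finset.mul_sum]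
  calc ∑ t ∈ I, 2 * (w t * S.T s (aa S φ t) z) ≤ ∑ t ∈ I, w t * rho S φ s z := by
        refine Finset.sum_le_sum fun t ht => ?_
        have := mul_le_mul_of_nonneg_left (two_T_aa_left (φ := φ) hS (h t ht) hs z)
          (hI.nonneg t ht)
        linarith
    _ = rho S φ s z := by rw [← Finset.sum_mul, hI.sum, one_mul]

/-- THE SANDWICH, right part -/
theorem sand_right (hS : S.Reg) {s : ℕ} (hs : s ≤ S.K) {I : Finset ℕ} {w : ℕ → ℝ}
    (hI : Cell S I w) (h : ∀ t ∈ I, s ≤ t) (z : ι → ℝ) :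
    rho S φ s z ≤ 2 * S.T s (cellA S φ I w) z := by
  rw [T_cellA hS hs hI.le, Finset.mul_sum]
  calc rho S φ s z = ∑ t ∈ I, w t * rho S φ s z := by rw [← Finset.sum_mul, hI.sum, one_mul]
    _ ≤ ∑ t ∈ I, 2 * (w t * S.T s (aa S φ t) z) := by
        refine Finset.sum_le_sum fun t ht => ?_
        have := mul_le_mul_of_nonneg_left
          (le_two_T_aa_right (φ := φ) hS (h t ht) (hI.le t ht) z) (hI.nonneg t ht)
        linarith

/-- `2 E A_I` is the mean overlap of the cell -/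
lemma two_Ex_cellA (hS : S.Reg) {I : Finset ℕ} (hI : ∀ t ∈ I, t ≤ S.K) (w : ℕ → ℝ) :
    2 * S.Ex (cellA S φ I w) = ∑ t ∈ I, w t * S.Rl φ t := by
  unfold cellA
  rw [hS.Ex_sum _ fun t ht => Nh.const_mul _ (nh_aa hS (hI t ht)), Finset.mul_sum]
  refine Finset.sum_congr rfl fun t ht => ?_
  rw [Sy.Ex_const_mul]
  have ht' := hI t ht
  have e1 : S.Ex (aa S φ t) = S.Ex (Fld.uu S φ t) - 1 / 2 * S.Rl φ t := by
    unfold aa
    rw [hS.Ex_sub (Fld.nh_uu hS ht') (Nh.fst (EG.const_mul _ (eg_rho hS ht'))), ← Ex_rho S φ t]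
    congr 1
    exact Sy.Ex_const_mul S _ _
  have e2 : S.Ex (Fld.uu S φ t) = S.Rl φ t := by
    rw [← hS.Ex_T ht' (Fld.nh_uu hS ht'), ← Ex_rho S φ t]
    congr 1
    funext z _
    rw [T_uu_right hS le_rfl ht' z, hS.T_fst ht' (dep_rho S φ t)]
  rw [e1, e2]
  ring

lemma vr_nonneg (hS : S.Reg) {h : (ι → ℝ) → X → ℝ} (hh : Nh h) : 0 ≤ vr S h := by
  have h1 := hS.Ex_mono (f := fun _ _ => 0) (g := fun z x => (h z x - S.Ex h) ^ 2)
    (fun _ => EG.const _) (Nh.pow (Nh.sub hh (fun _ => EG.const _)) 2) (fun z x => sq_nonneg _)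
  rwa [hS.Ex_const] at h1

/-- the variance decreases under conditional averages -/
lemma vr_T_le (hS : S.Reg) {s : ℕ} (hs : s ≤ S.K) {h : (ι → ℝ) → X → ℝ} (hh : Nh h) :
    vr S (fun z _ => S.T s h z) ≤ vr S h := by
  unfold vr
  rw [hS.Ex_T hs hh]
  obtain ⟨c, hc⟩ : ∃ c, c = S.Ex h := ⟨_, rfl⟩
  rw [← hc]
  have hn : Nh fun z x => h z x - c := Nh.sub hh (fun _ => EG.const c)
  have e : (fun (z : ι → ℝ) (_ : X) => (S.T s h z - c) ^ 2) =
      fun z _ => (S.T s (fun z x => h z x - c) z) ^ 2 := by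
    funext z _
    rw [hS.T_sub hs hh (fun _ => EG.const c), hS.T_const hs]
  rw [e]
  have h1 := hS.Ex_mono (f := fun z _ => (S.T s (fun z x => h z x - c) z) ^ 2)
    (g := fun z _ => S.T s (fun z x => (h z x - c) ^ 2) z)
    (Nh.fst ((hS.eg_T hs hn).pow 2)) (Nh.fst (hS.eg_T hs (Nh.pow hn 2)))
    (fun z _ => hS.sq_T_le hs hn z)
  rwa [hS.Ex_T hs (Nh.pow hn 2)] at h1

lemma sand_real {r x y er cx cy : ℝ} (h1 : x ≤ r) (h2 : r ≤ y) (h3 : cx ≤ er) (h4 : er ≤ cy) :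
    (r - er) ^ 2 ≤ 3 * ((x - cx) ^ 2 + (y - cy) ^ 2 + (cy - cx) ^ 2) := by
  have ha : r - er ≤ (y - cy) + (cy - cx) := by linarith
  have hb : -((cx - x) + (cy - cx)) ≤ r - er := by linarith
  rcases le_total 0 (r - er) with h | h
  · have : (r - er) ^ 2 ≤ ((y - cy) + (cy - cx)) ^ 2 := by
      apply pow_le_pow_left₀ h ha
    nlinarith [sq_nonneg ((y - cy) - (cy - cx)), sq_nonneg (x - cx), sq_nonneg (y - cy),
      sq_nonneg (cy - cx)]
  · have : (er - r) ^ 2 ≤ ((cx - x) + (cy - cx)) ^ 2 := by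
      apply pow_le_pow_left₀ (by linarith)
      linarith
    nlinarith [sq_nonneg ((cx - x) - (cy - cx)), sq_nonneg (x - cx), sq_nonneg (y - cy),
      sq_nonneg (cy - cx)]

/-- THE VARIANCE OF THE OVERLAP OF A LEVEL (R4). -/
theorem var_rho_le (hS : S.Reg) {s : ℕ} (hs : s ≤ S.K) {I I' : Finset ℕ} {w w' : ℕ → ℝ}
    (hI : Cell S I w) (hI' : Cell S I' w') (h : ∀ t ∈ I, t ≤ s) (h' : ∀ t ∈ I', s ≤ t) :
    vr S (fun z _ => rho S φ s z) ≤
      3 * ((∑ t ∈ I', w' t * S.Rl φ t - ∑ t ∈ I, w t * S.Rl φ t) ^ 2 +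
        4 * vr S (cellA S φ I w) + 4 * vr S (cellA S φ I' w')) := by
  obtain ⟨A, hA⟩ : ∃ A, A = cellA S φ I w := ⟨_, rfl⟩
  obtain ⟨B, hB⟩ : ∃ B, B = cellA S φ I' w' := ⟨_, rfl⟩
  have nA : Nh A := by rw [hA]; exact nh_cellA hS hI.le w
  have nB : Nh B := by rw [hB]; exact nh_cellA hS hI'.le w'
  have sA : ∀ z, 2 * S.T s A z ≤ rho S φ s z := fun z => by rw [hA]; exact sand_left hS hs hI h z
  have sB : ∀ z, rho S φ s z ≤ 2 * S.T s B z := fun z => by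
    rw [hB]; exact sand_right hS hs hI' h' z
  have eA : 2 * S.Ex A = ∑ t ∈ I, w t * S.Rl φ t := by rw [hA]; exact two_Ex_cellA hS hI.le w
  have eB : 2 * S.Ex B = ∑ t ∈ I', w' t * S.Rl φ t := by
    rw [hB]; exact two_Ex_cellA hS hI'.le w'
  rw [← hA, ← hB, ← eA, ← eB]
  have nTA : Nh (X := X) fun z _ => S.T s A z := Nh.fst (hS.eg_T hs nA)
  have nTB : Nh (X := X) fun z _ => S.T s B z := Nh.fst (hS.eg_T hs nB)
  have nr : Nh (X := X) fun z _ => rho S φ s z := Nh.fst (eg_rho hS hs)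
  obtain ⟨a, ha⟩ : ∃ a, a = S.Ex A := ⟨_, rfl⟩
  obtain ⟨b, hb⟩ : ∃ b, b = S.Ex B := ⟨_, rfl⟩
  obtain ⟨r, hr⟩ : ∃ r, r = S.Ex (fun z _ => rho S φ s z) := ⟨_, rfl⟩
  have har : 2 * a ≤ r := by
    rw [ha, hr, ← hS.Ex_T hs nA, ← Sy.Ex_const_mul]
    exact hS.Ex_mono (Nh.const_mul 2 nTA) nr fun z _ => sA z
  have hrb : r ≤ 2 * b := by
    rw [hb, hr, ← hS.Ex_T hs nB, ← Sy.Ex_const_mul]
    exact hS.Ex_mono nr (Nh.const_mul 2 nTB) fun z _ => sB z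
  have vA := vr_T_le hS hs nA
  have vB := vr_T_le hS hs nB
  unfold vr at vA vB ⊢
  rw [hS.Ex_T hs nA] at vA
  rw [hS.Ex_T hs nB] at vB
  rw [← ha] at vA ⊢
  rw [← hb] at vB ⊢
  rw [← hr]
  have nTa : Nh (X := X) fun z _ => (S.T s A z - a) ^ 2 :=
    Nh.pow (Nh.sub nTA (fun _ => EG.const a)) 2
  have nTb : Nh (X := X) fun z _ => (S.T s B z - b) ^ 2 :=
    Nh.pow (Nh.sub nTB (fun _ => EG.const b)) 2
  have key := hS.Ex_mono (f := fun z _ => (rho S φ s z - r) ^ 2)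
    (g := fun z x => ((fun (z : ι → ℝ) (_ : X) => 12 * (S.T s A z - a) ^ 2) z x +
      (fun (z : ι → ℝ) (_ : X) => 12 * (S.T s B z - b) ^ 2) z x) +
      (fun (z : ι → ℝ) (_ : X) => 3 * (2 * b - 2 * a) ^ 2) z x)
    (Nh.pow (Nh.sub nr (fun _ => EG.const r)) 2)
    (Nh.add (Nh.add (Nh.const_mul 12 nTa) (Nh.const_mul 12 nTb)) (fun _ => EG.const _))
    (fun z _ => by
      have := sand_real (sA z) (sB z) har hrb
      show (rho S φ s z - r) ^ 2 ≤ 12 * (S.T s A z - a) ^ 2 + 12 * (S.T s B z - b) ^ 2 +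
        3 * (2 * b - 2 * a) ^ 2
      refine this.trans (le_of_eq ?_)
      ring)
  rw [hS.Ex_add (Nh.add (Nh.const_mul 12 nTa) (Nh.const_mul 12 nTb)) (fun _ => EG.const _),
    hS.Ex_add (Nh.const_mul 12 nTa) (Nh.const_mul 12 nTb), hS.Ex_const, Sy.Ex_const_mul,
    Sy.Ex_const_mul] at key
  linarith

end Vale.Agent.P146.H784
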