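import Vale.Agent.P146.H784.FdSy
import Vale.Agent.P146.H325.Flip
import Vale.Agent.P146.H327.Deep5

/-!
The row system: the deep functional of the SK model at a position whose row `b` is Gaussian is the
free energy of the system without the couplings of the site `b`, with one more spin in the field of
the row.
-/

open MeasureTheory ProbabilityTheory

namespace Vale.Agent.P146.H784

open Vale.Agent.P157.Lv Vale.Agent.P157.Lv.Sy Vale.Agent.P146.H425 Vale.Agent.P146.R1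
  Vale.Agent.P146.H325 Vale.Agent.P146.H332 Vale.Agent.P146.R1C
open Vale.Agent.P146.H327 (Sb Rb)

set_option linter.unusedSectionVars false

/-! ### extension of a system by one spin -/

/-- `S` is the system `S0` with one more spin, in the field `∑ α_r z_r + h f`. -/
structure IsSR {ι ρ X : Type} [Fintype ρ] (S : Sy (ι ⊕ ρ) (X × Bool)) (S0 : Sy ι X) (lr : ρ → ℕ)
    (α : X → ρ → ℝ) (f : X → ℝ) (h : ℝ) (g : Bool → ℝ) : Prop where
  ll : ∀ p, S.lev (Sum.inl p) = S0.lev p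
  lr : ∀ r, S.lev (Sum.inr r) = lr r
  K : S.K = S0.K
  m : S.m = S0.m
  H : ∀ z a e, S.H z (a, e) = S0.H (fun p => z (Sum.inl p)) a +
    g e * (∑ r, α a r * z (Sum.inr r) + h * f a)

section sr

variable {ι ρ X : Type} [Fintype ι] [Fintype ρ] [Fintype X] {S : Sy (ι ⊕ ρ) (X × Bool)}
  {S0 : Sy ι X} {lr : ρ → ℕ} {α : X → ρ → ℝ} {f : X → ℝ} {h : ℝ} {g : Bool → ℝ}

lemma lip_inl {G : (ι → ℝ) → ℝ} (hG : Lip G) :
    Lip fun z : ι ⊕ ρ → ℝ => G fun p => z (Sum.inl p) := by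
  obtain ⟨L, hL, hb⟩ := hG
  refine ⟨L, hL, fun y y' => (hb _ _).trans (mul_le_mul_of_nonneg_left ?_ hL)⟩
  refine (pi_norm_le_iff_of_nonneg (norm_nonneg _)).2 fun p => ?_
  exact norm_le_pi_norm (y - y') (Sum.inl p)

lemma IsSR.reg (hS : IsSR S S0 lr α f h g) (h0 : S0.Reg) (hl : ∀ r, lr r ≤ S0.K) : S.Reg where
  m0 := by rw [hS.m]; exact h0.m0
  mK := by rw [hS.m, hS.K]; exact h0.mK
  mono := by rw [hS.m, hS.K]; exact h0.mono
  pos := by rw [hS.m]; exact h0.pos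
  lev e := by
    rcases e with p | r
    · rw [hS.ll, hS.K]; exact h0.lev p
    · rw [hS.lr, hS.K]; exact hl r
  lip x := by
    obtain ⟨a, e⟩ := x
    simp only [hS.H]
    refine (lip_inl (h0.lip a)).add (Lip.const_mul (Lip.add (Lip.sum _ fun r _ =>
      (Lip.coord (Sum.inr r)).const_mul _) (Lip.const _)) _)

end sr

/-! ### the SK model -/

section sk

variable {n : ℕ} {b : Fin n}

/-- The field of the row `u` on the site `b`. -/
noncomputable def Br (b : Fin n) (u : Fin n → ℝ) (τ : Fin n → ℤˣ) : ℝ :=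
  ∑ l ∈ Finset.univ.erase b, sp τ l * u l

lemma Sb_flp (b : Fin n) (e : Pair n) (τ : Fin n → ℤˣ) : Sb b e (flp b τ) = Sb b e τ := by
  unfold Sb
  rw [SkS_flp]
  unfold sg
  split_ifs with he
  · rfl
  · rw [one_mul]

lemma Br_flp (b : Fin n) (u : Fin n → ℝ) (τ : Fin n → ℤˣ) : Br b u (flp b τ) = Br b u τ := by
  unfold Br
  exact Finset.sum_congr rfl fun l hl => by rw [sp_flp_ne (Finset.ne_of_mem_erase hl)]

lemma en_row (τ : Fin n → ℤˣ) (P : Pair n → ℝ) (u : Fin n → ℝ)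
    (hP : ∀ e ∈ row b, P e = u (oth b e)) :
    ∑ e, SkS e τ * P e = ∑ e, Sb b e τ * P e + sp τ b * Br b u τ := by
  have e1 : ∀ e, SkS e τ * P e = Sb b e τ * P e + if e ∈ row b then SkS e τ * P e else 0 := by
    intro e
    unfold Sb
    split_ifs
    · rw [zero_mul, zero_add]
    · rw [add_zero]
  rw [Finset.sum_congr rfl fun e _ => e1 e, Finset.sum_add_distrib]
  congr 1
  rw [← Finset.sum_filter, Finset.filter_mem_eq_inter, Finset.univ_inter]
  have e2 : ∑ e ∈ row b, SkS e τ * P e = ∑ e ∈ row b, sp τ b * (sp τ (oth b e) * u (oth b e)) := by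
    refine Finset.sum_congr rfl fun e he => ?_
    rw [hP e he, SkS_oth he]
    unfold H325.pr
    ring
  rw [e2, sum_row b fun l => sp τ b * (sp τ l * u l), ← Finset.mul_sum]
  rfl

lemma sum_two (A B G : (Fin n → ℤˣ) → ℝ) (hA : ∀ τ, A (flp b τ) = A τ)
    (hB : ∀ τ, B (flp b τ) = B τ) (hG : ∀ τ, G (flp b τ) = G τ) :
    ∑ τ, (Real.exp (A τ + B τ) + Real.exp (A τ - B τ)) * G τ =
      2 * ∑ τ, Real.exp (A τ + sp τ b * B τ) * G τ := by
  have e1 : ∀ τ, (Real.exp (A τ + B τ) + Real.exp (A τ - B τ)) * G τ =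
      Real.exp (A τ + sp τ b * B τ) * G τ + Real.exp (A τ - sp τ b * B τ) * G τ := by
    intro τ
    rw [← add_mul]
    congr 1
    rcases mul_self_eq_one_iff.1 (sp_mul_self τ b) with h | h <;> rw [h]
    · rw [one_mul]
    · rw [neg_one_mul, sub_neg_eq_add, ← sub_eq_add_neg, add_comm]
  have e2 : ∑ τ, Real.exp (A τ - sp τ b * B τ) * G τ =
      ∑ τ, Real.exp (A τ + sp τ b * B τ) * G τ := by
    rw [← Equiv.sum_comp (flpE b) fun τ => Real.exp (A τ - sp τ b * B τ) * G τ]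
    refine Finset.sum_congr rfl fun τ _ => ?_
    show Real.exp (A (flp b τ) - sp (flp b τ) b * B (flp b τ)) * G (flp b τ) = _
    rw [hA, hB, hG, sp_flp_self, neg_mul, sub_neg_eq_add]
  rw [Finset.sum_congr rfl fun τ _ => e1 τ, Finset.sum_add_distrib, e2]
  ring

/-! ### the row system -/

/-- the standard deviations of the levels of the row -/
noncomputable def cl (c0 : ℝ) (σ : ℕ → ℝ) (J l : ℕ) : ℝ := if l = 0 then c0 else σ (J - l)

/-- the coefficients of the row -/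
noncomputable def al (k c0 : ℝ) (σ : ℕ → ℝ) (J : ℕ) (b : Fin n) (τ : Fin n → ℤˣ)
    (r : Fin (J + 1) × Fin n) : ℝ := k * cl c0 σ J r.1 * (if r.2 = b then 0 else sp τ r.2)

/-- the coordinates of the couplings -/
noncomputable def cr (J : ℕ) (b : Fin n) (l : ℕ) (e : Pair n) :
    (Fin (J + 1) × Pair n) ⊕ (Fin (J + 1) × Fin n) :=
  if e ∈ row b then Sum.inr (Fin.ofNat (J + 1) (l + 1), oth b e)
  else Sum.inl (Fin.ofNat (J + 1) (l + 1), e)

variable {k c0 h x : ℝ} {m σ : ℕ → ℝ} {J : ℕ} {z : Pair n → ℝ} {w : Fin n → ℝ} {g : Bool → ℝ}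
  {S : Sy ((Fin (J + 1) × Pair n) ⊕ (Fin (J + 1) × Fin n)) ((Fin n → ℤˣ) × Bool)}

lemma cr_inj (J : ℕ) (b : Fin n) (l : ℕ) : Function.Injective (cr J b l) := by
  intro e e' he
  unfold cr at he
  split_ifs at he with h1 h2 h2
  · have h3 := (Prod.ext_iff.1 (Sum.inr_injective he)).2
    rw [← cp_oth h1, ← cp_oth h2]
    have : ∀ (l l' : Fin n) (hl : l ≠ b) (hl' : l' ≠ b), l = l' → cp b l hl = cp b l' hl' := by
      intro l l' hl hl' e
      subst e
      rfl
    exact this _ _ _ _ h3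
  · exact (Prod.ext_iff.1 (Sum.inl_injective he)).2

/-- the position of the level zero -/
noncomputable def p0r (J : ℕ) (b : Fin n) (c0 t : ℝ) (w : Fin n → ℝ) (z : Pair n → ℝ)
    (ζ : (Fin (J + 1) × Pair n) ⊕ (Fin (J + 1) × Fin n) → ℝ) : Pair n → ℝ :=
  put b (fun j => c0 * ζ (Sum.inr (0, j)) + t * w j) z

lemma Ps_row (J : ℕ) (c0 t : ℝ) (ζ : (Fin (J + 1) × Pair n) ⊕ (Fin (J + 1) × Fin n) → ℝ)
    {e : Pair n} (he : e ∈ row b) : ∀ l, Ps (cr J b) σ J (p0r J b c0 t w z) l ζ e =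
      c0 * ζ (Sum.inr (0, oth b e)) + t * w (oth b e) + ∑ i ∈ Finset.range l,
        σ (J - 1 - i) * ζ (Sum.inr (Fin.ofNat (J + 1) (i + 1), oth b e))
  | 0 => by
    simp only [Ps, p0r, put, if_pos he, Finset.range_zero, Finset.sum_empty, add_zero]
  | l + 1 => by
    rw [Finset.sum_range_succ, ← add_assoc, ← Ps_row J c0 t ζ he l]
    simp only [Ps]
    congr 2
    unfold cr
    rw [if_pos he]

lemma Ps_bulk (J : ℕ) (c0 t : ℝ) (ζ : (Fin (J + 1) × Pair n) ⊕ (Fin (J + 1) × Fin n) → ℝ)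
    {e : Pair n} (he : e ∉ row b) : ∀ l, Ps (cr J b) σ J (p0r J b c0 t w z) l ζ e =
      Ps (cd (Pair n) J) σ J (fun _ => z) l (fun p => ζ (Sum.inl p)) e
  | 0 => by simp only [Ps, p0r, put, if_neg he]
  | l + 1 => by
    simp only [Ps]
    rw [Ps_bulk J c0 t ζ he l]
    congr 2
    unfold cr cd
    rw [if_neg he]

/-- the field of the row -/
lemma sum_al (ζ : (Fin (J + 1) × Pair n) ⊕ (Fin (J + 1) × Fin n) → ℝ) (τ : Fin n → ℤˣ) (t : ℝ) :
    ∑ r, al k c0 σ J b τ r * ζ (Sum.inr r) + k * t * ∑ l ∈ Finset.univ.erase b, w l * sp τ l =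
      k * Br b (fun j => c0 * ζ (Sum.inr (0, j)) + t * w j + ∑ i ∈ Finset.range J,
        σ (J - 1 - i) * ζ (Sum.inr (Fin.ofNat (J + 1) (i + 1), j))) τ := by
  have e1 : ∀ j : Fin n, ∑ l : Fin (J + 1), al k c0 σ J b τ (l, j) * ζ (Sum.inr (l, j)) =
      k * (if j = b then 0 else sp τ j) * (c0 * ζ (Sum.inr (0, j)) + ∑ i ∈ Finset.range J,
        σ (J - 1 - i) * ζ (Sum.inr (Fin.ofNat (J + 1) (i + 1), j))) := by
    intro j
    rw [Fin.sum_univ_succ, mul_add, Finset.sum_range, Finset.mul_sum]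
    congr 1
    · unfold al cl
      simp only [Fin.val_zero, if_true]
      ring
    · refine Finset.sum_congr rfl fun i _ => ?_
      have e2 : Fin.ofNat (J + 1) ((i : ℕ) + 1) = i.succ := by
        apply Fin.ext
        rw [Fin.val_succ]
        exact Nat.mod_eq_of_lt (by omega)
      rw [e2]
      unfold al cl
      rw [Fin.val_succ, if_neg (Nat.succ_ne_zero _), show J - ((i : ℕ) + 1) = J - 1 - i by omega]
      ring
  rw [Fintype.sum_prod_type_right]
  simp_rw [e1]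
  unfold Br
  rw [← Finset.add_sum_erase _ _ (Finset.mem_univ b), if_pos rfl, mul_zero, zero_mul, zero_add,
    Finset.mul_sum, Finset.mul_sum, ← Finset.sum_add_distrib]
  refine Finset.sum_congr rfl fun l hl => ?_
  rw [if_neg (Finset.ne_of_mem_erase hl)]
  ring

/-- the sums over the configurations of the row system -/
theorem row_sum (hk : k ≠ 0) (hg : ∀ φ : ℝ → ℝ, ∑ e, φ (g e) = φ 1 + φ (-1))
    (hS : IsSR S (DS k (Sb b) m σ J z) (fun r => r.1) (al k c0 σ J b)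
      (fun τ => ∑ l ∈ Finset.univ.erase b, w l * sp τ l) h g) {G : (Fin n → ℤˣ) → ℝ}
    (hG : ∀ τ, G (flp b τ) = G τ)
    (ζ : (Fin (J + 1) × Pair n) ⊕ (Fin (J + 1) × Fin n) → ℝ) :
    ∑ y, Real.exp (S.H ζ y) * G y.1 =
      2 * ∑ τ, ez k SkS (Ps (cr J b) σ J (p0r J b c0 (h / k) w z) J ζ) τ * G τ := by
  set P := Ps (cr J b) σ J (p0r J b c0 (h / k) w z) J ζ with hP
  set u : Fin n → ℝ := fun j => c0 * ζ (Sum.inr (0, j)) + h / k * w j + ∑ i ∈ Finset.range J,
      σ (J - 1 - i) * ζ (Sum.inr (Fin.ofNat (J + 1) (i + 1), j)) with hu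
  have h1 : ∀ e ∈ row b, P e = u (oth b e) := fun e he => Ps_row J c0 (h / k) ζ he J
  set A : (Fin n → ℤˣ) → ℝ := fun τ => k * ∑ e, Sb b e τ * P e with hA
  set B : (Fin n → ℤˣ) → ℝ := fun τ => k * Br b u τ with hB
  have h2 : ∀ τ, (DS k (Sb b) m σ J z).H (fun p => ζ (Sum.inl p)) τ = A τ := by
    intro τ
    show k * ∑ e, Sb b e τ * Ps (cd (Pair n) J) σ J (fun _ => z) J (fun p => ζ (Sum.inl p)) e = _
    rw [hA]
    simp only
    congr 1
    refine Finset.sum_congr rfl fun e _ => ?_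
    by_cases he : e ∈ row b
    · unfold Sb
      rw [if_pos he, zero_mul, zero_mul]
    · rw [hP, Ps_bulk J c0 (h / k) ζ he J]
  have h3 : ∀ τ, ∑ r, al k c0 σ J b τ r * ζ (Sum.inr r) +
      h * ∑ l ∈ Finset.univ.erase b, w l * sp τ l = B τ := by
    intro τ
    have h4 := sum_al (k := k) (c0 := c0) (σ := σ) (b := b) (w := w) ζ τ (h / k)
    rw [show k * (h / k) = h by field_simp] at h4
    exact h4
  rw [Fintype.sum_prod_type]
  have h6 : ∀ τ, ∑ e, Real.exp (S.H ζ (τ, e)) * G (τ, e).1 =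
      (Real.exp (A τ + B τ) + Real.exp (A τ - B τ)) * G τ := by
    intro τ
    simp only [hS.H, h2, h3]
    rw [← Finset.sum_mul, hg fun t => Real.exp (A τ + t * B τ), one_mul, neg_one_mul,
      ← sub_eq_add_neg]
  rw [Finset.sum_congr rfl fun τ _ => h6 τ, sum_two (b := b) A B G
    (fun τ => by simp only [hA, Sb_flp]) (fun τ => by simp only [hB, Br_flp]) hG]
  unfold ez
  congr 1
  refine Finset.sum_congr rfl fun τ _ => ?_
  rw [en_row τ P u h1]
  congr 2
  simp only [hA, hB]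
  ring

/-- **The row system represents the deep functional.** -/
theorem row_rp (hk : k ≠ 0) (hE : Exs m J x) (hg : ∀ φ : ℝ → ℝ, ∑ e, φ (g e) = φ 1 + φ (-1))
    (hS : IsSR S (DS k (Sb b) m σ J z) (fun r => r.1) (al k c0 σ J b)
      (fun τ => ∑ l ∈ Finset.univ.erase b, w l * sp τ l) h g) :
    Rp S (lz k SkS) (Real.log 2) m σ J (cr J b) (p0r J b c0 (h / k) w z) where
  reg := hS.reg (DS_reg k (Sb b) z hE σ) fun r => Nat.lt_succ_iff.1 r.1.isLt
  K := hS.K
  m l hl := by rw [hS.m]; exact mS_succ m hl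
  inj l _ := cr_inj J b l
  lev l hl e := by
    unfold cr
    split_ifs
    · rw [hS.lr]
      exact Nat.mod_eq_of_lt (by omega)
    · rw [hS.ll]
      exact Nat.mod_eq_of_lt (by omega)
  dep ζ w' hw := by
    unfold p0r
    congr 1
    funext j
    rw [hw (Sum.inr (0, j)) (by rw [hS.lr]; simp)]
  top ζ := by
    have h5 := row_sum hk hg hS (G := fun _ => 1) (fun _ => rfl) ζ
    simp only [mul_one] at h5
    unfold Sy.top
    rw [h5]
    show Real.log (2 * Zp k SkS (Ps (cr J b) σ J (p0r J b c0 (h / k) w z) J ζ)) = _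
    rw [Real.log_mul two_ne_zero (Zp_pos k SkS _).ne', add_comm]
    rfl

/-- the Gibbs averages of the row system -/
lemma row_av (hk : k ≠ 0) (hg : ∀ φ : ℝ → ℝ, ∑ e, φ (g e) = φ 1 + φ (-1))
    (hS : IsSR S (DS k (Sb b) m σ J z) (fun r => r.1) (al k c0 σ J b)
      (fun τ => ∑ l ∈ Finset.univ.erase b, w l * sp τ l) h g) {G : (Fin n → ℤˣ) → ℝ}
    (hG : ∀ τ, G (flp b τ) = G τ)
    (ζ : (Fin (J + 1) × Pair n) ⊕ (Fin (J + 1) × Fin n) → ℝ) :
    S.av (fun _ y => G y.1) ζ =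
      ∑ τ, H941.gm k SkS (Ps (cr J b) σ J (p0r J b c0 (h / k) w z) J ζ) τ * G τ := by
  have h5 := row_sum hk hg hS (G := fun _ => 1) (fun _ => rfl) ζ
  have h6 := row_sum hk hg hS hG ζ
  simp only [mul_one] at h5
  unfold Sy.av Sy.gb H941.gm
  simp_rw [div_mul_eq_mul_div]
  rw [← Finset.sum_div, ← Finset.sum_div, h5, h6, mul_div_mul_left _ _ two_ne_zero]
  rfl

/-- **The average over a Gaussian row of the deep functional is the free energy of the row
system.** -/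
theorem row_fe (hk : k ≠ 0) (hE : Exs m J x) (hg : ∀ φ : ℝ → ℝ, ∑ e, φ (g e) = φ 1 + φ (-1))
    (hS : IsSR S (DS k (Sb b) m σ J z) (fun r => r.1) (al k c0 σ J b)
      (fun τ => ∑ l ∈ Finset.univ.erase b, w l * sp τ l) h g) :
    S.fe = ∫ y : Fin n → ℝ, FD (lz k SkS) m σ J (put b (c0 • y + (h / k) • w) z) ∂(gI (Fin n)) +
      Real.log 2 := by
  have hR := row_rp hk hE hg hS
  have hc := c11_FD (m := m) (σ := σ) (H332.c11_lz k (SkS (n := n))) J fun j hj => hE.pos j hj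
  have hL := hc.lip.lip hc.B0
  have h1 := hR.lg (H332.c11_lz k SkS) 0 (Nat.zero_le _)
  have hm : Measurable fun y : Fin n → ℝ =>
      FD (lz k SkS) m σ J (put b (c0 • y + (h / k) • w) z) :=
    hL.measurable.comp ((meas_put b z).comp (by fun_prop))
  have h2 := int_inj (β := (Fin (J + 1) × Pair n) ⊕ (Fin (J + 1) × Fin n))
    (φ := fun j : Fin n => Sum.inr ((0 : Fin (J + 1)), j))
    (fun j j' hj => (Prod.ext_iff.1 (Sum.inr_injective hj)).2) hm
  have hint : Integrable (fun ζ => FD (lz k SkS) m σ J (p0r J b c0 (h / k) w z ζ))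
      (gI ((Fin (J + 1) × Pair n) ⊕ (Fin (J + 1) × Fin n))) := by
    have h3 : Integrable (S.lg 0) (gI _) := hR.reg.integrable_lg (Nat.zero_le _)
    have e : (fun ζ => FD (lz k SkS) m σ J (p0r J b c0 (h / k) w z ζ)) =
        fun ζ => S.lg 0 ζ - Real.log 2 := by
      funext ζ
      rw [h1 ζ, Nat.sub_zero]
      simp only [Ps, add_sub_cancel_right]
    rw [e]
    exact h3.sub (integrable_const _)
  unfold Sy.fe
  simp only [h1, Nat.sub_zero, Ps]
  rw [integral_add hint (integrable_const _), integral_const, probReal_univ, one_smul, ← h2]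
  rfl

/-- **The averages over the row system.** -/
theorem row_Ex (hk : k ≠ 0) (hE : Exs m J x) (hg : ∀ φ : ℝ → ℝ, ∑ e, φ (g e) = φ 1 + φ (-1))
    (hS : IsSR S (DS k (Sb b) m σ J z) (fun r => r.1) (al k c0 σ J b)
      (fun τ => ∑ l ∈ Finset.univ.erase b, w l * sp τ l) h g) {G : (Fin n → ℤˣ) → ℝ}
    (hG : ∀ τ, G (flp b τ) = G τ) : S.Ex (fun _ y => G y.1) =
      ∫ y : Fin n → ℝ, TD (lz k SkS) m σ (fun u => ∑ τ, H941.gm k SkS u τ * G τ) J
        (put b (c0 • y + (h / k) • w) z) ∂(gI (Fin n)) := by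
  have hR := row_rp hk hE hg hS
  have hφ : EG fun u => ∑ τ, H941.gm k (SkS (n := n)) u τ * G τ :=
    EG.sum _ fun τ _ => (EG.of_bdd (C := 1) ((H941.rt_lz k SkS).meas τ) fun y => by
      rw [abs_of_nonneg ((H941.rt_lz k SkS).m0 y τ)]
      exact (H941.rt_lz k SkS).le_one y τ).mul (EG.const _)
  have h1 := fun ζ => hR.T_top (H332.c11_lz k SkS)
    (f := fun _ (y : (Fin n → ℤˣ) × Bool) => G y.1)
    (Nh.snd fun y : (Fin n → ℤˣ) × Bool => G y.1)
    hφ (fun ζ => row_av hk hg hS hG ζ) (Nat.zero_le _) ζ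
  have hT := eg_TD (m := m) (σ := σ) (H332.c11_lz k (SkS (n := n))) hφ J fun j hj => hE.pos j hj
  have hm : Measurable fun y : Fin n → ℝ =>
      TD (lz k SkS) m σ (fun u => ∑ τ, H941.gm k SkS u τ * G τ) J
        (put b (c0 • y + (h / k) • w) z) :=
    hT.meas.comp ((meas_put b z).comp (by fun_prop))
  have h2 := int_inj (β := (Fin (J + 1) × Pair n) ⊕ (Fin (J + 1) × Fin n))
    (φ := fun j : Fin n => Sum.inr ((0 : Fin (J + 1)), j))
    (fun j j' hj => (Prod.ext_iff.1 (Sum.inr_injective hj)).2) hm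
  rw [hR.reg.Ex_eq_T (Nh.snd fun y : (Fin n → ℤˣ) × Bool => G y.1), ← h2]
  simp only [h1, Nat.sub_zero, Ps]
  rfl

/-! ### the overlaps of the row fields -/

/-- the variance of the levels at most `l` -/
noncomputable def vl (c0 : ℝ) (σ : ℕ → ℝ) (J l : ℕ) : ℝ :=
  c0 ^ 2 + ∑ i ∈ Finset.range l, σ (J - 1 - i) ^ 2

lemma vl_eq {l : ℕ} (hl : l ≤ J) :
    ∑ i : Fin (J + 1), (if (i : ℕ) ≤ l then cl c0 σ J i ^ 2 else 0) = vl c0 σ J l := by
  have e0 : (if (((0 : Fin (J + 1)) : ℕ)) ≤ l then cl c0 σ J ((0 : Fin (J + 1)) : ℕ) ^ 2 else 0) =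
      c0 ^ 2 := by
    rw [Fin.val_zero, if_pos (Nat.zero_le _)]
    unfold cl
    rw [if_pos rfl]
  rw [Fin.sum_univ_succ, vl, e0]
  congr 1
  · have e : ∀ i : Fin J, (if ((i.succ : Fin (J + 1)) : ℕ) ≤ l then cl c0 σ J i.succ ^ 2 else 0) =
        (fun i : ℕ => if i < l then σ (J - 1 - i) ^ 2 else 0) i := by
      intro i
      simp only [Fin.val_succ, Order.add_one_le_iff]
      split_ifs with h
      · unfold cl
        rw [if_neg (Nat.succ_ne_zero _), show J - ((i : ℕ) + 1) = J - 1 - i by omega]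
      · rfl
    rw [Finset.sum_congr rfl fun i _ => e i, Fin.sum_univ_eq_sum_range
      (fun i : ℕ => if i < l then σ (J - 1 - i) ^ 2 else 0) J, ← Finset.sum_filter]
    congr 1
    ext i
    simp only [Finset.mem_filter, Finset.mem_range]
    omega

lemma al_pair (hn : 0 < n) {l : ℕ} (hl : l ≤ J) (τ τ' : Fin n → ℤˣ) :
    ∑ r : Fin (J + 1) × Fin n, (if (r.1 : ℕ) ≤ l then
      al k c0 σ J b τ r * al k c0 σ J b τ' r else 0) = k ^ 2 * n * vl c0 σ J l * Rb b τ τ' := by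
  have e1 : ∀ r : Fin (J + 1) × Fin n, (if (r.1 : ℕ) ≤ l then
      al k c0 σ J b τ r * al k c0 σ J b τ' r else 0) =
      k ^ 2 * ((if (r.1 : ℕ) ≤ l then cl c0 σ J r.1 ^ 2 else 0) *
        (if r.2 = b then 0 else sp τ r.2 * sp τ' r.2)) := by
    intro r
    unfold al
    split_ifs <;> ring
  rw [Finset.sum_congr rfl fun r _ => e1 r, ← Finset.mul_sum, Fintype.sum_prod_type]
  simp only
  rw [← Finset.sum_mul_sum, vl_eq hl]
  unfold Rb
  have hn' : (n : ℝ) ≠ 0 := by positivity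
  field_simp

lemma al_sq (hn : 0 < n) (τ : Fin n → ℤˣ) :
    ∑ r, al k c0 σ J b τ r ^ 2 = k ^ 2 * (n - 1) * vl c0 σ J J := by
  have h1 := al_pair (k := k) (c0 := c0) (σ := σ) (b := b) hn (le_refl J) τ τ
  have e1 : ∀ r : Fin (J + 1) × Fin n, (if (r.1 : ℕ) ≤ J then
      al k c0 σ J b τ r * al k c0 σ J b τ r else 0) = al k c0 σ J b τ r ^ 2 := by
    intro r
    rw [if_pos (Nat.lt_succ_iff.1 r.1.isLt), _root_.sq]
  rw [Finset.sum_congr rfl fun r _ => e1 r] at h1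
  rw [h1]
  unfold Rb
  have e2 : ∑ j, (if j = b then 0 else sp τ j * sp τ j) = (n : ℝ) - 1 := by
    rw [← Finset.add_sum_erase _ _ (Finset.mem_univ b), if_pos rfl, zero_add,
      Finset.sum_congr rfl fun j hj => (if_neg (Finset.ne_of_mem_erase hj)).trans
      (sp_mul_self τ j), Finset.sum_const, nsmul_eq_mul, mul_one,
      Finset.card_erase_of_mem (Finset.mem_univ b), Finset.card_univ, Fintype.card_fin,
      Nat.cast_sub hn, Nat.cast_one]
  rw [e2]
  have hn' : (n : ℝ) ≠ 0 := by positivity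
  field_simp

end sk

end Vale.Agent.P146.H784
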