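import Vale.Agent.P146.H784.Trf2

set_option linter.all false

/-!
The tree end of the interpolation: a spin in a tree field which does not interact with the rest.
-/

open MeasureTheory ProbabilityTheory Filter Topology

namespace Vale.Agent.P146.H784

open Vale.Agent.P157 Vale.Agent.P157.Lv Vale.Agent.P157.Lv.Sy
open Vale.Agent.P157.Par (Path Exponents incr)
open Vale.Agent.P146.R3.H501.Tr

section gen

variable {ι X : Type} [Fintype ι] [DecidableEq ι] [Fintype X] [DecidableEq X] [Nonempty X]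
  {S S' S₁ : Sy ι X} {l j K : ℕ} {lev : ι → ℕ} {B : ι → Prop}

/-- functions of disjoint coordinates are independent -/
lemma ind_int (B : ι → Prop) {F G : (ι → ℝ) → ℝ} (hF : Ind B F) (hG : Ind (fun e => ¬ B e) G)
    (hFm : Measurable F) (hGm : Measurable G) :
    ∫ z, F z * G z ∂(gI ι) = (∫ z, F z ∂(gI ι)) * ∫ z, G z ∂(gI ι) := by
  classical
  obtain ⟨c, hc⟩ : ∃ c : ι → ℝ, c = fun e => if B e then 0 else 1 := ⟨_, rfl⟩
  obtain ⟨s, hs⟩ : ∃ s : ι → ℝ, s = fun e => if B e then 1 else 0 := ⟨_, rfl⟩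
  have hcs : ∀ e, c e ^ 2 + s e ^ 2 = 1 := by
    intro e
    rw [hc, hs]
    simp only
    split_ifs <;> norm_num
  rw [← int_rot hcs (f := fun z => F z * G z) (hFm.mul hGm),
    ← int_prod (ι := ι) (F := F) (G := G)]
  refine integral_congr_ae (Filter.Eventually.of_forall fun z => ?_)
  have h1 : F (rot c s z) = F (z1 z) := by
    refine hF _ _ fun e he => ?_
    unfold rot z1
    rw [hc, hs]
    simp [he]
  have h2 : G (rot c s z) = G (fun e => z (Sum.inr e)) := by
    refine hG _ _ fun e he => ?_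
    have he' : B e := not_not.1 he
    unfold rot
    rw [hc, hs]
    simp [he']
  show F (rot c s z) * G (rot c s z) = F (z1 z) * G (fun e => z (Sum.inr e))
  rw [h1, h2]

lemma ind_J_mul (B : ι → Prop) (lev : ι → ℕ) (l : ℕ) {F G : (ι → ℝ) → ℝ} (hF : Ind B F)
    (hG : Ind (fun e => ¬ B e) G) (hFm : Measurable F) (hGm : Measurable G) (z : ι → ℝ) :
    Lv.J lev l (fun z => F z * G z) z = Lv.J lev l F z * Lv.J lev l G z := by
  unfold Lv.J
  refine ind_int B (F := fun w => F (mix lev l z w)) (G := fun w => G (mix lev l z w)) ?_ ?_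
    (hFm.comp (measurable_mix_right lev l z)) (hGm.comp (measurable_mix_right lev l z))
  · intro u w h
    refine hF _ _ fun e he => ?_
    unfold mix
    rw [h e he]
  · intro u w h
    refine hG _ _ fun e he => ?_
    unfold mix
    rw [h e he]

/-- the log-weights of a sum of independent parts -/
lemma lg_split (hS : S.Reg) (hS1 : S₁.Reg) (hK' : S'.K = S.K) (hK : S₁.K = S.K)
    (hm' : S'.m = S.m) (hm1 : S₁.m = S.m) (hl' : S'.lev = S.lev) (hl1 : S₁.lev = S.lev)
    (hB : ∀ x, Ind B fun z => S.H z x) (hB1 : ∀ x, Ind (fun e => ¬ B e) fun z => S₁.H z x)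
    {c : ℝ} (htop : ∀ z, S'.top z = S.top z + S₁.top z + c) {l : ℕ} (hl : l ≤ S.K)
    (z : ι → ℝ) : S'.lg l z = S.lg l z + S₁.lg l z + c := by
  have key : ∀ l ≤ S.K, ∀ z, S'.lg l z = S.lg l z + S₁.lg l z + c := by
    refine down_ind (P := fun l => ∀ z, S'.lg l z = S.lg l z + S₁.lg l z + c) ?_ ?_
    · intro z
      have e1 : S'.lg S.K = S'.top := by rw [← hK']; exact lg_top S'
      have e2 : S₁.lg S.K = S₁.top := by rw [← hK]; exact lg_top S₁
      rw [e1, e2, lg_top S]
      exact htop z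
    · intro l hlt ih z
      rw [lg_step S hlt, lg_step S' (show l < S'.K by omega), lg_step S₁ (show l < S₁.K by omega)]
      unfold stp
      rw [hm', hm1, hl', hl1]
      have hm : 0 < S.m (l + 1) := hS.m_pos (by omega) (by omega)
      have hEG : EG fun z => Real.exp (S.m (l + 1) * S.lg (l + 1) z) :=
        (hS.lip_lg (l := l + 1) hlt).exp_eg _
      have hEG1 : EG fun z => Real.exp (S.m (l + 1) * S₁.lg (l + 1) z) :=
        (hS1.lip_lg (l := l + 1) (by omega)).exp_eg _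
      have hI : Ind B fun z => Real.exp (S.m (l + 1) * S.lg (l + 1) z) := fun u w h => by
        show Real.exp (S.m (l + 1) * S.lg (l + 1) u) = Real.exp (S.m (l + 1) * S.lg (l + 1) w)
        rw [ind_lg hB (show l + 1 ≤ S.K from hlt) u w h]
      have hI1 : Ind (fun e => ¬ B e) fun z => Real.exp (S.m (l + 1) * S₁.lg (l + 1) z) :=
        fun u w h => by
        show Real.exp (S.m (l + 1) * S₁.lg (l + 1) u) = Real.exp (S.m (l + 1) * S₁.lg (l + 1) w)
        rw [ind_lg hB1 (show l + 1 ≤ S₁.K by omega) u w h]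
      have e1 : (fun z => Real.exp (S.m (l + 1) * S'.lg (l + 1) z)) = fun z =>
          Real.exp (S.m (l + 1) * c) * (Real.exp (S.m (l + 1) * S.lg (l + 1) z) *
            Real.exp (S.m (l + 1) * S₁.lg (l + 1) z)) := by
        funext y
        rw [ih y, ← Real.exp_add, ← Real.exp_add]
        congr 1
        ring
      have e2 : Lv.J S.lev l (fun z => Real.exp (S.m (l + 1) * c) *
          (Real.exp (S.m (l + 1) * S.lg (l + 1) z) *
            Real.exp (S.m (l + 1) * S₁.lg (l + 1) z))) z =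
          Real.exp (S.m (l + 1) * c) * (Lv.J S.lev l
            (fun z => Real.exp (S.m (l + 1) * S.lg (l + 1) z)) z *
            Lv.J S.lev l (fun z => Real.exp (S.m (l + 1) * S₁.lg (l + 1) z)) z) := by
        rw [← ind_J_mul B S.lev l hI hI1 hEG.meas hEG1.meas]
        unfold Lv.J
        rw [integral_const_mul]
      rw [e1, e2]
      have p1 := J_pos (lev := S.lev) (l := l) hEG (fun _ => Real.exp_pos _) z
      have p2 := J_pos (lev := S.lev) (l := l) hEG1 (fun _ => Real.exp_pos _) z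
      rw [Real.log_mul (Real.exp_pos _).ne' (mul_pos p1 p2).ne', Real.log_exp,
        Real.log_mul p1.ne' p2.ne']
      field_simp
      ring
  exact key l hl z

/-- the density of a sum of independent parts -/
lemma dn_split (hS : S.Reg) (hS1 : S₁.Reg) (hK' : S'.K = S.K) (hK : S₁.K = S.K)
    (hm' : S'.m = S.m) (hm1 : S₁.m = S.m) (hl' : S'.lev = S.lev) (hl1 : S₁.lev = S.lev)
    (hB : ∀ x, Ind B fun z => S.H z x) (hB1 : ∀ x, Ind (fun e => ¬ B e) fun z => S₁.H z x)
    {c : ℝ} (htop : ∀ z, S'.top z = S.top z + S₁.top z + c) (l : ℕ)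
    (z : ι → ℝ) : S'.dn l z = S.dn l z * S₁.dn l z := by
  unfold dn
  rw [← Real.exp_add, hK', hK, ← Finset.sum_add_distrib]
  congr 1
  refine Finset.sum_congr rfl fun i hi => ?_
  obtain ⟨_, hi2⟩ := Finset.mem_Ico.1 hi
  rw [lg_split hS hS1 hK' hK hm' hm1 hl' hl1 hB hB1 htop (show i + 1 ≤ S.K by omega),
    lg_split hS hS1 hK' hK hm' hm1 hl' hl1 hB hB1 htop (show i ≤ S.K by omega), hm', hm1]
  ring

/-- `dn l` does not depend on the coordinates of `B` -/
lemma ind_dn' (h : ∀ x, Ind B fun z => S.H z x) (l : ℕ) : Ind B (S.dn l) := by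
  intro z w hzw
  unfold dn
  congr 1
  refine Finset.sum_congr rfl fun i hi => ?_
  obtain ⟨_, hi2⟩ := Finset.mem_Ico.1 hi
  rw [ind_lg h (show i + 1 ≤ S.K by omega) z w hzw, ind_lg h (show i ≤ S.K by omega) z w hzw]

lemma ind_av (h : ∀ x, Ind B fun z => S.H z x) (f : X → ℝ) : Ind B (S.av (fun _ x => f x)) := by
  intro z w hzw
  unfold Sy.av
  refine Finset.sum_congr rfl fun x _ => ?_
  have h1 := ind_gb h x z w hzw
  have h2 : S.gb z x = S.gb w x := h1
  rw [h2]

lemma ind_T (h : ∀ x, Ind B fun z => S.H z x) (l : ℕ) (f : X → ℝ) :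
    Ind B (S.T l (fun _ x => f x)) := by
  unfold T
  refine Ind.J ?_ S.lev l
  intro z w hzw
  show S.dn l z * S.av (fun _ x => f x) z = S.dn l w * S.av (fun _ x => f x) w
  rw [ind_dn' h l z w hzw, ind_av h f z w hzw]

/-- the conditional averages of a sum of independent parts -/
theorem T_split (hS : S.Reg) (hS1 : S₁.Reg) (hK' : S'.K = S.K) (hK : S₁.K = S.K)
    (hm' : S'.m = S.m) (hm1 : S₁.m = S.m) (hl' : S'.lev = S.lev) (hl1 : S₁.lev = S.lev)
    (hB : ∀ x, Ind B fun z => S.H z x) (hB1 : ∀ x, Ind (fun e => ¬ B e) fun z => S₁.H z x)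
    {c : ℝ} (htop : ∀ z, S'.top z = S.top z + S₁.top z + c) {l : ℕ} (hl : l ≤ S.K)
    {f' f f₁ : X → ℝ} (hav : ∀ z, S'.av (fun _ x => f' x) z =
      S.av (fun _ x => f x) z * S₁.av (fun _ x => f₁ x) z) (z : ι → ℝ) :
    S'.T l (fun _ x => f' x) z = S.T l (fun _ x => f x) z * S₁.T l (fun _ x => f₁ x) z := by
  unfold T
  rw [hl', hl1, ← ind_J_mul B S.lev l (F := fun z => S.dn l z * S.av (fun _ x => f x) z)
    (G := fun z => S₁.dn l z * S₁.av (fun _ x => f₁ x) z)]
  · congr 1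
    funext y
    rw [dn_split hS hS1 hK' hK hm' hm1 hl' hl1 hB hB1 htop, hav]
    ring
  · intro z w hzw
    show S.dn l z * S.av (fun _ x => f x) z = S.dn l w * S.av (fun _ x => f x) w
    rw [ind_dn' hB l z w hzw, ind_av hB f z w hzw]
  · intro z w hzw
    show S₁.dn l z * S₁.av (fun _ x => f₁ x) z = S₁.dn l w * S₁.av (fun _ x => f₁ x) w
    rw [ind_dn' hB1 l z w hzw, ind_av hB1 f₁ z w hzw]
  · exact ((hS.eg_dn hl).mul (hS.eg_av (Nh.snd f))).meas
  · exact ((hS1.eg_dn (show l ≤ S₁.K by omega)).mul (hS1.eg_av (Nh.snd f₁))).meas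

/-- the pair averages of products -/
theorem pair_split (hS : S.Reg) (hS1 : S₁.Reg) (hSr : S'.Reg) (hK' : S'.K = S.K)
    (hK : S₁.K = S.K)
    (hm' : S'.m = S.m) (hm1 : S₁.m = S.m) (hl' : S'.lev = S.lev) (hl1 : S₁.lev = S.lev)
    (hB : ∀ x, Ind B fun z => S.H z x) (hB1 : ∀ x, Ind (fun e => ¬ B e) fun z => S₁.H z x)
    {c : ℝ} (htop : ∀ z, S'.top z = S.top z + S₁.top z + c) {l : ℕ} (hl : l ≤ S.K)
    {f' f f₁ : X → ℝ} (hav : ∀ z, S'.av (fun _ x => f' x) z =
      S.av (fun _ x => f x) z * S₁.av (fun _ x => f₁ x) z) :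
    S'.pairEx l (fun x x' => f' x * f' x') =
      S.pairEx l (fun x x' => f x * f x') * S₁.pairEx l (fun x x' => f₁ x * f₁ x') := by
  rw [pairEx_prod hSr (show l ≤ S'.K by omega), pairEx_prod hS hl,
    pairEx_prod hS1 (show l ≤ S₁.K by omega)]
  unfold Ex
  rw [← ind_int B (F := fun z => S.dn 0 z * S.av (fun z _ => S.T l (fun _ x => f x) z *
      S.T l (fun _ x => f x) z) z) (G := fun z => S₁.dn 0 z * S₁.av (fun z _ =>
      S₁.T l (fun _ x => f₁ x) z * S₁.T l (fun _ x => f₁ x) z) z)]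
  · refine integral_congr_ae (Filter.Eventually.of_forall fun z => ?_)
    show S'.dn 0 z * S'.av (fun z _ => S'.T l (fun _ x => f' x) z * S'.T l (fun _ x => f' x) z) z =
      S.dn 0 z * S.av (fun z _ => S.T l (fun _ x => f x) z * S.T l (fun _ x => f x) z) z *
      (S₁.dn 0 z * S₁.av (fun z _ => S₁.T l (fun _ x => f₁ x) z * S₁.T l (fun _ x => f₁ x) z) z)
    rw [av_fst, av_fst, av_fst, dn_split hS hS1 hK' hK hm' hm1 hl' hl1 hB hB1 htop,
      T_split hS hS1 hK' hK hm' hm1 hl' hl1 hB hB1 htop hl hav]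
    ring
  · intro z w hzw
    show S.dn 0 z * S.av (fun z _ => S.T l (fun _ x => f x) z * S.T l (fun _ x => f x) z) z =
      S.dn 0 w * S.av (fun z _ => S.T l (fun _ x => f x) z * S.T l (fun _ x => f x) z) w
    rw [av_fst, av_fst, ind_dn' hB 0 z w hzw, ind_T hB l f z w hzw]
  · intro z w hzw
    show S₁.dn 0 z * S₁.av (fun z _ => S₁.T l (fun _ x => f₁ x) z *
        S₁.T l (fun _ x => f₁ x) z) z =
      S₁.dn 0 w * S₁.av (fun z _ => S₁.T l (fun _ x => f₁ x) z * S₁.T l (fun _ x => f₁ x) z) w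
    rw [av_fst, av_fst, ind_dn' hB1 0 z w hzw, ind_T hB1 l f₁ z w hzw]
  · refine ((hS.eg_dn (Nat.zero_le _)).mul (hS.eg_av (Nh.fst ?_))).meas
    exact (hS.eg_T hl (Nh.snd f)).mul (hS.eg_T hl (Nh.snd f))
  · refine ((hS1.eg_dn (Nat.zero_le _)).mul (hS1.eg_av (Nh.fst ?_))).meas
    exact (hS1.eg_T (show l ≤ S₁.K by omega) (Nh.snd f₁)).mul
      (hS1.eg_T (show l ≤ S₁.K by omega) (Nh.snd f₁))

/-! ### The spin -/

/-- symmetrization -/
lemma sum_flip (φ : X ≃ X) (ε : X → ℝ) (h1 : ∀ x, ε x = 1 ∨ ε x = -1)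
    (h2 : ∀ x, ε (φ x) = -ε x) {A : X → ℝ} (hA : ∀ x, A (φ x) = A x) (g : ℝ → ℝ) :
    ∑ x, A x * g (ε x) = (∑ x, A x) * ((g 1 + g (-1)) / 2) := by
  have e1 : ∑ x, A x * g (ε x) = ∑ x, A x * g (-ε x) := by
    rw [← Equiv.sum_comp φ fun x => A x * g (ε x)]
    refine Finset.sum_congr rfl fun x _ => ?_
    rw [h2, hA]
  have e2 : ∑ x, A x * g (ε x) + ∑ x, A x * g (-ε x) = (∑ x, A x) * (g 1 + g (-1)) := by
    rw [← Finset.sum_add_distrib, Finset.sum_mul]
    refine Finset.sum_congr rfl fun x _ => ?_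
    rcases h1 x with h | h
    · rw [h]; ring
    · rw [h, neg_neg]; ring
  rw [← e1] at e2
  linarith

lemma top_spin' (H : (ι → ℝ) → X → ℝ) (φ : X ≃ X) (ε : X → ℝ) (h1 : ∀ x, ε x = 1 ∨ ε x = -1)
    (h2 : ∀ x, ε (φ x) = -ε x) (h3 : ∀ z x, H z (φ x) = H z x) (u : (ι → ℝ) → ℝ) (z : ι → ℝ) :
    (S.wH fun z x => H z x + ε x * u z).top z =
      (S.wH H).top z + Real.log (Real.cosh (u z)) := by
  have h := congrFun (Vale.Agent.P146.Ub.top_spin (S := S) H φ ε h1 h2 h3 u) z
  rw [h]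
  show Real.log (∑ x, Real.exp (H z x + Real.log (Real.cosh (u z)))) =
    Real.log (∑ x, Real.exp (H z x)) + Real.log (Real.cosh (u z))
  simp only [Real.exp_add]
  rw [← Finset.sum_mul, Real.log_mul _ (Real.exp_pos _).ne', Real.log_exp]
  exact (Finset.sum_pos (fun x _ => Real.exp_pos _) Finset.univ_nonempty).ne'

lemma av_spin (H : (ι → ℝ) → X → ℝ) (φ : X ≃ X) (ε : X → ℝ) (h1 : ∀ x, ε x = 1 ∨ ε x = -1)
    (h2 : ∀ x, ε (φ x) = -ε x) (h3 : ∀ z x, H z (φ x) = H z x) (u : (ι → ℝ) → ℝ)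
    {f : X → ℝ} (hf : ∀ x, f (φ x) = f x) (z : ι → ℝ) :
    (S.wH fun z x => H z x + ε x * u z).av (fun _ x => ε x * f x) z =
      (S.wH H).av (fun _ x => f x) z * Real.tanh (u z) := by
  unfold Sy.av
  have e1 : ∀ x, (S.wH fun z x => H z x + ε x * u z).gb z x * (ε x * f x) =
      ((S.wH H).gb z x * f x) * (fun t => t * Real.exp (t * u z) / Real.cosh (u z)) (ε x) := by
    intro x
    rw [gb_eq, gb_eq, top_spin' H φ ε h1 h2 h3 u z]
    show Real.exp (H z x + ε x * u z - ((S.wH H).top z + Real.log (Real.cosh (u z)))) *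
      (ε x * f x) = Real.exp (H z x - (S.wH H).top z) * f x *
        (ε x * Real.exp (ε x * u z) / Real.cosh (u z))
    obtain ⟨A, hA⟩ : ∃ A, A = H z x - (S.wH H).top z := ⟨_, rfl⟩
    have e2 : H z x + ε x * u z - ((S.wH H).top z + Real.log (Real.cosh (u z))) =
        A + (ε x * u z - Real.log (Real.cosh (u z))) := by rw [hA]; ring
    rw [e2, ← hA, Real.exp_add, Real.exp_sub (ε x * u z), Real.exp_log (Real.cosh_pos _)]
    ring
  have e3 := sum_flip φ ε h1 h2 (A := fun x => (S.wH H).gb z x * f x) (fun x => by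
    rw [gb_eq, gb_eq, hf]
    have : (S.wH H).H z (φ x) = (S.wH H).H z x := h3 z x
    rw [this]) (fun t => t * Real.exp (t * u z) / Real.cosh (u z))
  refine (Finset.sum_congr rfl fun x _ => e1 x).trans (e3.trans ?_)
  congr 1
  rw [Real.tanh_eq_sinh_div_cosh, Real.sinh_eq, one_mul, one_mul, neg_one_mul, neg_one_mul]
  ring

/-- **A spin in a field which is independent of the rest.** -/
theorem spin_pair {ε : X → ℝ} {u : (ι → ℝ) → ℝ} (hS : S.Reg)
    (hS' : (S.wH fun z x => S.H z x + ε x * u z).Reg) (hS1 : (S.wH fun z x => 0 + ε x * u z).Reg)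
    (hB : ∀ x, Ind B fun z => S.H z x) (hu : Ind (fun e => ¬ B e) u) (φ : X ≃ X)
    (h1 : ∀ x, ε x = 1 ∨ ε x = -1) (h2 : ∀ x, ε (φ x) = -ε x) (h3 : ∀ z x, S.H z (φ x) = S.H z x)
    {f : X → ℝ} (hf : ∀ x, f (φ x) = f x) {l : ℕ} (hl : l ≤ S.K) :
    (S.wH fun z x => S.H z x + ε x * u z).pairEx l
        (fun x x' => (ε x * f x) * (ε x' * f x')) =
      S.pairEx l (fun x x' => f x * f x') *
        (S.wH fun z x => 0 + ε x * u z).pairEx l (fun x x' => ε x * ε x') := by
  have hc : ∀ z, (S.wH fun _ _ => (0 : ℝ)).top z = Real.log (Fintype.card X) := by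
    intro z
    show Real.log (∑ x : X, Real.exp 0) = _
    simp
  refine pair_split (S := S) (S₁ := S.wH fun z x => 0 + ε x * u z) (B := B)
    (c := -Real.log (Fintype.card X)) hS hS1 hS' rfl rfl rfl rfl rfl rfl hB ?_ ?_ hl ?_
  · intro x z w hzw
    show 0 + ε x * u z = 0 + ε x * u w
    rw [hu z w hzw]
  · intro z
    have e1 := top_spin' (S := S) S.H φ ε h1 h2 h3 u z
    have e2 := top_spin' (S := S) (fun _ _ => 0) φ ε h1 h2 (fun _ _ => rfl) u z
    rw [e1, e2, hc]
    show S.top z + _ = _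
    ring
  · intro z
    have e1 := av_spin (S := S) S.H φ ε h1 h2 h3 u hf z
    have e2 := av_spin (S := S) (fun _ _ => 0) φ ε h1 h2 (fun _ _ => rfl) u (f := fun _ => 1)
      (fun _ => rfl) z
    simp only [mul_one] at e2
    have e3 : (S.wH fun _ _ => (0 : ℝ)).av (fun _ _ => 1) z = 1 := by
      unfold Sy.av
      simp only [mul_one]
      have : ∀ x, (S.wH fun _ _ => (0 : ℝ)).gb z x = 1 / (Fintype.card X) := by
        intro x
        rw [gb_eq, hc]
        show Real.exp (0 - Real.log (Fintype.card X)) = _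
        rw [zero_sub, Real.exp_neg, Real.exp_log (by exact_mod_cast Fintype.card_pos), one_div]
      simp only [this]
      rw [Finset.sum_const, Finset.card_univ, nsmul_eq_mul]
      field_simp
    rw [e3, one_mul] at e2
    rw [e1, e2]
    rfl

end gen

open Vale.Agent.P157.Lv.Fld
open Vale.Agent.P157.Par (spinPart)
open Vale.Agent.P146 (Pair)
open Vale.Agent.P146.Ub Vale.Agent.P146.Ub.Ld Vale.Agent.P146.Ub.Ld.H501

variable {n K N d : ℕ} {m s R : ℕ → ℝ} {β θ : ℝ}

/-- the tree field -/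
noncomputable def tu (n K : ℕ) (β : ℝ) (R : ℕ → ℝ) (z : RI n K → ℝ) : ℝ :=
  ∑ l : Fin (K + 1), β * √(incr R l) * z (Sum.inr (Sum.inr l))

lemma lin_tre_eq (z : RI n K → ℝ) (x : Fin n → Bool) :
    lin (tre N β R x) z = Ub.sp N x * tu n K β R z := by
  unfold lin tu
  rw [Fintype.sum_sum_type, Fintype.sum_sum_type]
  have e1 : ∀ p : Pair n, tre (K := K) N β R x (Sum.inl p) * z (Sum.inl p) = 0 := fun p => by
    rw [tre_a, zero_mul]
  have e2 : ∀ p : Fin (K + 1) × Fin n,
      tre N β R x (Sum.inr (Sum.inl p)) * z (Sum.inr (Sum.inl p)) = 0 := fun p => by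
    rw [tre_b, zero_mul]
  simp only [e1, e2, Finset.sum_const_zero, zero_add, Finset.mul_sum]
  refine Finset.sum_congr rfl fun l _ => ?_
  rw [tre_c]
  ring

lemma ith_half (a α β' : (Fin n → Bool) → RI n K → ℝ) : ith a α β' (Real.pi / 2) = a + α := by
  funext x e
  show a x e + (Real.sin (Real.pi / 2) * α x e + Real.cos (Real.pi / 2) * β' x e) = a x e + α x e
  rw [Real.sin_pi_div_two, Real.cos_pi_div_two]
  ring

/-- the flip does not change the spins of the first `N` sites -/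
lemma ph_flip (hN : N < n) (x : Fin n → Bool) (i : Fin N) :
    ph hN.le (rflip hN x) i = ph hN.le x i := by
  unfold ph
  refine spin_flip hN x ?_
  show (i : ℕ) ≠ N
  exact Nat.ne_of_lt i.2

/-- **The tree end.** -/
theorem tree_end (hd : d ≤ K) (hN : N < n) (h0 : 0 < N) (hm : Exponents K m) (A C : ℝ) {l : ℕ}
    (hl : l ≤ K) : ∃ c : ℝ, 0 ≤ c ∧ c ≤ 1 ∧
    (ls (rlv d) K m (lc n) (sc β N s + tre N β R) : Sy (RI n K) (Fin n → Bool)).pairEx l
      (fun x x' => Ub.sp N x * Ub.sp N x' * (A - C * Rov (ph hN.le) x x')) =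
    c * (A - C * (SC n K d m β N s).pairEx l (Rov (ph hN.le))) := by
  have hSC : (SC n K d m β N s).Reg := rs_reg hd hm _ _
  have hS' : (ls (rlv d) K m (lc n) (sc β N s + tre N β R) : Sy (RI n K) (Fin n → Bool)).Reg :=
    rs_reg hd hm _ _
  have hS1 : (ls (rlv d) K m 0 (tre N β R) : Sy (RI n K) (Fin n → Bool)).Reg :=
    rs_reg hd hm _ _
  have e1 : (ls (rlv d) K m (lc n) (sc β N s + tre N β R) : Sy (RI n K) (Fin n → Bool)) =
      (SC n K d m β N s).wH (fun z x => (SC n K d m β N s).H z x + Ub.sp N x * tu n K β R z) := by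
    have e2 : (fun (z : RI n K → ℝ) (x : Fin n → Bool) =>
        lin ((sc β N s + tre N β R : (Fin n → Bool) → RI n K → ℝ) x) z + lc n) =
        fun z x => lin (sc β N s x) z + lc n + Ub.sp N x * tu n K β R z := by
      funext z x
      rw [← lin_tre_eq]
      unfold lin
      simp only [Pi.add_apply, add_mul, Finset.sum_add_distrib]
      ring
    show (⟨rlv d, K, m, fun (z : RI n K → ℝ) (x : Fin n → Bool) =>
      lin ((sc β N s + tre N β R : (Fin n → Bool) → RI n K → ℝ) x) z + lc n⟩ :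
        Sy (RI n K) (Fin n → Bool)) = _
    rw [e2]
    rfl
  have e3 : (ls (rlv d) K m 0 (tre N β R) : Sy (RI n K) (Fin n → Bool)) =
      (SC n K d m β N s).wH (fun z x => 0 + Ub.sp N x * tu n K β R z) := by
    have e2 : (fun (z : RI n K → ℝ) (x : Fin n → Bool) =>
        lin ((tre N β R : (Fin n → Bool) → RI n K → ℝ) x) z + 0) =
        fun z x => 0 + Ub.sp N x * tu n K β R z := by
      funext z x
      rw [← lin_tre_eq]
      ring
    show (⟨rlv d, K, m, fun (z : RI n K → ℝ) (x : Fin n → Bool) =>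
      lin ((tre N β R : (Fin n → Bool) → RI n K → ℝ) x) z + 0⟩ :
        Sy (RI n K) (Fin n → Bool)) = _
    rw [e2]
    rfl
  have hsc0 : ∀ (x : Fin n → Bool) (e : RI n K), BB N e → sc β N s x e = 0 := by
    intro x e he
    rcases e with p | p | l
    · show dsk N _ x (Sum.inl p) + fd N s x (Sum.inl p) = 0
      have h4 : (p.1.2 : ℕ) = N := he
      rw [dsk_a, fd_a, if_neg (by omega), add_zero]
    · exact absurd he id
    · show dsk N _ x (Sum.inr (Sum.inr l)) + fd N s x (Sum.inr (Sum.inr l)) = 0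
      rw [dsk_b, fd_c, add_zero]
  have hB : ∀ x, Ind (BB N) fun z => (SC n K d m β N s).H z x := by
    intro x z w hzw
    show lin (sc β N s x) z + lc n = lin (sc β N s x) w + lc n
    congr 1
    unfold lin
    refine Finset.sum_congr rfl fun e _ => ?_
    by_cases he : BB N e
    · rw [hsc0 x e he, zero_mul, zero_mul]
    · rw [hzw e he]
  have hu : Ind (fun e => ¬ BB N e) (tu n K β R) := by
    intro z w hzw
    unfold tu
    refine Finset.sum_congr rfl fun l _ => ?_
    rw [hzw (Sum.inr (Sum.inr l)) (fun h => h trivial)]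
  have hH : ∀ z x, (SC n K d m β N s).H z (rflip hN x) = (SC n K d m β N s).H z x := by
    intro z x
    show lin (sc β N s (rflip hN x)) z + lc n = lin (sc β N s x) z + lc n
    rw [sc_flip]
  have hl' : l ≤ (SC n K d m β N s).K := hl
  have hl'' : l ≤ (ls (rlv d) K m (lc n) (sc β N s + tre N β R) :
    Sy (RI n K) (Fin n → Bool)).K := hl
  have hl1 : l ≤ (ls (rlv d) K m 0 (tre N β R) : Sy (RI n K) (Fin n → Bool)).K := hl
  have key : ∀ f : (Fin n → Bool) → ℝ, (∀ x, f (rflip hN x) = f x) →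
      (ls (rlv d) K m (lc n) (sc β N s + tre N β R) : Sy (RI n K) (Fin n → Bool)).pairEx l
        (fun x x' => (Ub.sp N x * f x) * (Ub.sp N x' * f x')) =
      (SC n K d m β N s).pairEx l (fun x x' => f x * f x') *
        (ls (rlv d) K m 0 (tre N β R) : Sy (RI n K) (Fin n → Bool)).pairEx l
          (fun x x' => Ub.sp N x * Ub.sp N x') := by
    intro f hf
    rw [e1, e3]
    exact spin_pair (B := BB N) hSC (by rw [← e1]; exact hS') (by rw [← e3]; exact hS1) hB hu
      (rflip hN) (sp_pm hN) (sp_flip hN) hH hf hl'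
  obtain ⟨c, hc⟩ : ∃ c, c = (ls (rlv d) K m 0 (tre N β R) : Sy (RI n K) (Fin n → Bool)).pairEx l
    (fun x x' => Ub.sp N x * Ub.sp N x') := ⟨_, rfl⟩
  rw [← hc] at key
  refine ⟨c, ?_, ?_, ?_⟩
  · rw [hc, pairEx_prod hS1 hl1]
    have hT := hS1.eg_T hl1 (Nh.snd (Ub.sp (n := n) N))
    have h5 := hS1.Ex_mono (f := fun _ _ => (0 : ℝ)) (g := fun z _ =>
      (ls (rlv d) K m 0 (tre N β R) : Sy (RI n K) (Fin n → Bool)).T l (fun _ x => Ub.sp N x) z *
      (ls (rlv d) K m 0 (tre N β R) : Sy (RI n K) (Fin n → Bool)).T l (fun _ x => Ub.sp N x) z)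
      (fun _ => EG.const 0) (Nh.fst (hT.mul hT)) (fun z _ => mul_self_nonneg _)
    rw [hS1.Ex_const] at h5
    exact h5
  · rw [hc, ← hS1.pairEx_const hl1 1]
    refine hS1.pairEx_mono hl1 fun x x' => ?_
    rcases sp_pm hN x with h | h <;> rcases sp_pm hN x' with h' | h' <;> rw [h, h'] <;> norm_num
  · have k1 := key (fun _ => 1) (fun _ => rfl)
    simp only [mul_one] at k1
    rw [hSC.pairEx_const hl', one_mul] at k1
    have k2 : ∀ i : Fin N, (ls (rlv d) K m (lc n) (sc β N s + tre N β R) :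
        Sy (RI n K) (Fin n → Bool)).pairEx l
        (fun x x' => (Ub.sp N x * ph hN.le x i) * (Ub.sp N x' * ph hN.le x' i)) =
      (SC n K d m β N s).pairEx l (fun x x' => ph hN.le x i * ph hN.le x' i) * c := fun i =>
      key (fun x => ph hN.le x i) (fun x => ph_flip hN x i)
    have e4 : (fun x x' => Ub.sp N x * Ub.sp N x' * (A - C * Rov (ph hN.le) x x')) =
        fun x x' => A * (Ub.sp N x * Ub.sp N x') + ∑ i : Fin N, (-C * (1 / N)) *
          ((Ub.sp N x * ph hN.le x i) * (Ub.sp N x' * ph hN.le x' i)) := by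
      funext x x'
      unfold Rov
      rw [← Finset.mul_sum]
      have : ∑ i : Fin N, Ub.sp N x * ph hN.le x i * (Ub.sp N x' * ph hN.le x' i) =
          Ub.sp N x * Ub.sp N x' * ∑ i : Fin N, ph hN.le x i * ph hN.le x' i := by
        rw [Finset.mul_sum]
        exact Finset.sum_congr rfl fun i _ => by ring
      rw [this]
      ring
    have e5 : (Rov (ph hN.le) : (Fin n → Bool) → (Fin n → Bool) → ℝ) = fun x x' =>
        ∑ i : Fin N, (1 / N : ℝ) * (ph hN.le x i * ph hN.le x' i) := by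
      funext x x'
      unfold Rov
      rw [Finset.mul_sum]
    rw [e4, hS'.pairEx_add hl'' (fun x x' => A * (Ub.sp N x * Ub.sp N x')), hS'.pairEx_const_mul,
      k1, pairEx_sum hS' hl'', e5, pairEx_sum hSC hl']
    simp only [hS'.pairEx_const_mul, hSC.pairEx_const_mul, k2]
    have e6 : ∀ i : Fin N, -C * (1 / (N : ℝ)) *
        ((SC n K d m β N s).pairEx l (fun x x' => ph hN.le x i * ph hN.le x' i) * c) =
        -(c * C) * (1 / (N : ℝ) *
          (SC n K d m β N s).pairEx l (fun x x' => ph hN.le x i * ph hN.le x' i)) := fun i => by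
      ring
    rw [Finset.sum_congr rfl fun i _ => e6 i, ← Finset.mul_sum]
    ring

end Vale.Agent.P146.H784
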