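import Vale.Agent.P146.H784.Int3
import Vale.Agent.P146.R3.H501.Trf

set_option linter.all false

/-!
Comparison of the pair averages of two linear systems, through the doubled system.
-/

open MeasureTheory ProbabilityTheory Filter Topology

namespace Vale.Agent.P146.H784

open Vale.Agent.P157 Vale.Agent.P157.Lv Vale.Agent.P157.Lv.Sy
open Vale.Agent.P157.Par (Path Exponents incr)
open Vale.Agent.P146.Ub (ls cv ith ls_regD ls_wH lin_add' lin_smul' lin_ith)
open Vale.Agent.P146.R3.H501.Tr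

variable {ι X : Type} [Fintype ι] [DecidableEq ι] [Fintype X] [DecidableEq X] [Nonempty X]
  {S : Sy ι X} {l j K : ℕ} {lev : ι → ℕ} {m : ℕ → ℝ} {c : ℝ} {a α β : X → ι → ℝ}

/-- the variance of a doubled field -/
lemma a2_sq_le (lev : ι → ℕ) (l : ℕ) {b : X → ι → ℝ} {v : ℝ} (hv : ∀ x, ∑ e, b x e ^ 2 ≤ v)
    (y : X × X) : ∑ e, a2 lev l b y e ^ 2 ≤ 4 * v := by
  have h1 : ∑ e, a2 lev l b y e ^ 2 ≤ ∑ e, (2 * b y.1 e ^ 2 + 2 * b y.2 e ^ 2) := by
    unfold a2
    rw [Fintype.sum_sum_type, ← Finset.sum_add_distrib]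
    refine Finset.sum_le_sum fun e _ => ?_
    simp only [Sum.elim_inl, Sum.elim_inr]
    split_ifs
    · nlinarith [sq_nonneg (b y.1 e - b y.2 e)]
    · nlinarith [sq_nonneg (b y.1 e), sq_nonneg (b y.2 e)]
  rw [Finset.sum_add_distrib, ← Finset.mul_sum, ← Finset.mul_sum] at h1
  linarith [hv y.1, hv y.2]

/-- **Decreasing coefficients, pairs.** -/
theorem pair_rot_le (hm : Exponents K m) (hlev : ∀ e, lev e ≤ K) (c₀ : ℝ) (a : X → ι → ℝ)
    {c s : ι → ℝ} (hcs : ∀ e, c e ^ 2 + s e ^ 2 = 1) (hc : ∀ e, s e = 0 → c e = 1) {v : ℝ}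
    (hv : ∀ x, ∑ e, (s e * a x e) ^ 2 ≤ v) {l : ℕ} (hl : l ≤ K) {ψ : X → X → ℝ}
    (h0 : ∀ x x', 0 ≤ ψ x x') :
    (ls lev K m c₀ (fun x e => c e * a x e)).pairEx l ψ ≤
      Real.exp (2 * v) * (ls lev K m c₀ a).pairEx l ψ := by
  have hR := (ls_regD (X := X) hm hlev c₀ a).toReg
  have hR' := (ls_regD (X := X) hm hlev c₀ (fun x e => c e * a x e)).toReg
  rw [← dbl_Ex_pair hR' (show l ≤ (ls lev K m c₀ (fun x e => c e * a x e)).K from hl) ψ,
    ← dbl_Ex_pair hR (show l ≤ (ls lev K m c₀ a).K from hl) ψ, dbl_ls, dbl_ls]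
  have e1 : a2 lev l (fun (x : X) e => c e * a x e) =
      fun y e => Sum.elim c c e * a2 lev l a y e := by
    funext y e
    unfold a2
    rcases e with e | e
    · simp only [Sum.elim_inl]
      split_ifs <;> ring
    · simp only [Sum.elim_inr]
      split_ifs <;> ring
  have e2 : ∀ y : X × X, (fun e => Sum.elim s s e * a2 lev l a y e) =
      a2 lev l (fun (x : X) e => s e * a x e) y := by
    intro y
    funext e
    unfold a2
    rcases e with e | e
    · simp only [Sum.elim_inl]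
      split_ifs <;> ring
    · simp only [Sum.elim_inr]
      split_ifs <;> ring
  rw [e1]
  have key := ls_rot_le (X := X × X) (m2_exp hm hl) (lev2_le hlev) (2 * c₀) (a2 lev l a)
    (c := Sum.elim c c) (s := Sum.elim s s)
    (by
      rintro (e | e)
      · exact hcs e
      · exact hcs e)
    (by
      rintro (e | e) h
      · exact hc e h
      · exact hc e h) (v := 4 * v)
    (by
      intro y
      have h := a2_sq_le lev l hv y
      rw [← e2 y] at h
      exact h)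
    (φ := fun _ y => ψ y.1 y.2) (Nh.snd fun (y : X × X) => ψ y.1 y.2)
    (fun _ y => h0 _ _) (fun _ _ _ _ => rfl)
  have e3 : 4 * v / 2 = 2 * v := by ring
  rw [e3] at key
  exact key

/-! ### Rotations of the coordinates -/

lemma rS_dn (hS : S.Reg) {c s : ι → ℝ} (h : ∀ e, c e ^ 2 + s e ^ 2 = 1) {l : ℕ}
    (z : ι ⊕ ι → ℝ) : (rS S c s).dn l z = S.dn l (rot c s z) := by
  unfold dn
  congr 1
  refine Finset.sum_congr rfl fun i hi => ?_
  obtain ⟨_, hi2⟩ := Finset.mem_Ico.1 hi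
  have hi3 : i < S.K := hi2
  rw [rS_lg hS h (show i + 1 ≤ S.K from hi3), rS_lg hS h hi3.le]
  rfl

lemma rS_pr (hS : S.Reg) {c s : ι → ℝ} (h : ∀ e, c e ^ 2 + s e ^ 2 = 1) (hl : l ≤ S.K)
    (z : ι ⊕ ι → ℝ) (x : X) : (rS S c s).pr l z x = S.pr l (rot c s z) x := by
  unfold pr T
  have e1 : (fun z => (rS S c s).dn l z * (rS S c s).av (fun _ y => if y = x then 1 else 0) z) =
      fun z => (fun u => S.dn l u * S.av (fun _ y => if y = x then 1 else 0) u) (rot c s z) := by
    funext y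
    rw [rS_dn hS h]
    rfl
  rw [e1]
  exact J_rot h S.lev l ((hS.eg_dn hl).mul (hS.eg_av (Nh.snd fun y => if y = x then (1 : ℝ) else 0))).meas z

theorem rS_pairEx (hS : S.Reg) {c s : ι → ℝ} (h : ∀ e, c e ^ 2 + s e ^ 2 = 1) (hl : l ≤ S.K)
    (ψ : X → X → ℝ) : (rS S c s).pairEx l ψ = S.pairEx l ψ := by
  unfold pairEx
  have h1 := rS_Ex hS h (φ := fun z _ => ∑ x, ∑ x', S.pr l z x * S.pr l z x' * ψ x x')
    (Nh.fst (hS.nh_pair hl ψ))
  rw [← h1]
  congr 1
  funext z _
  refine Finset.sum_congr rfl fun x _ => Finset.sum_congr rfl fun x' _ => ?_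
  rw [rS_pr hS h hl, rS_pr hS h hl]

theorem rS_fe (hS : S.Reg) {c s : ι → ℝ} (h : ∀ e, c e ^ 2 + s e ^ 2 = 1) :
    (rS S c s).fe = S.fe := by
  unfold fe
  have h1 := int_rot h (f := S.lg 0) (hS.lip_lg (Nat.zero_le _)).measurable
  rw [← h1]
  refine integral_congr_ae (Filter.Eventually.of_forall fun z => ?_)
  exact rS_lg hS h (Nat.zero_le _) z

/-! ### The mean minimizes the quadratic error -/

lemma pair_sq_expand (hS : S.Reg) (hl : l ≤ S.K) (ψ : X → X → ℝ) (q : ℝ) :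
    S.pairEx l (fun x x' => (ψ x x' - q) ^ 2) =
      S.pairEx l (fun x x' => ψ x x' ^ 2) - 2 * q * S.pairEx l ψ + q ^ 2 := by
  have e1 : (fun x x' => (ψ x x' - q) ^ 2) = fun x x' =>
      (ψ x x' ^ 2 + (-(2 * q)) * ψ x x') + (fun _ _ => q ^ 2) x x' := by
    funext x x'
    ring
  rw [e1, hS.pairEx_add hl (fun x x' => ψ x x' ^ 2 + (-(2 * q)) * ψ x x') (fun _ _ => q ^ 2),
    hS.pairEx_add hl (fun x x' => ψ x x' ^ 2) (fun x x' => (-(2 * q)) * ψ x x'),
    hS.pairEx_const_mul, hS.pairEx_const hl]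
  ring

/-- Jensen -/
lemma pair_sq_ge (hS : S.Reg) (hl : l ≤ S.K) (ψ : X → X → ℝ) :
    S.pairEx l ψ ^ 2 ≤ S.pairEx l (fun x x' => ψ x x' ^ 2) := by
  have h1 := pair_sq_expand hS hl ψ (S.pairEx l ψ)
  have h2 := hS.pairEx_nonneg hl (ψ := fun x x' => (ψ x x' - S.pairEx l ψ) ^ 2)
    fun _ _ => sq_nonneg _
  rw [h1] at h2
  nlinarith

lemma pair_min (hS : S.Reg) (hl : l ≤ S.K) (ψ : X → X → ℝ) (q : ℝ) :
    S.pairEx l (fun x x' => (ψ x x' - S.pairEx l ψ) ^ 2) ≤
      S.pairEx l (fun x x' => (ψ x x' - q) ^ 2) := by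
  rw [pair_sq_expand hS hl, pair_sq_expand hS hl]
  nlinarith [sq_nonneg (S.pairEx l ψ - q)]

lemma mean_sub_sq (hS : S.Reg) (hl : l ≤ S.K) (ψ : X → X → ℝ) (q : ℝ) :
    (S.pairEx l ψ - q) ^ 2 ≤ S.pairEx l (fun x x' => (ψ x x' - q) ^ 2) := by
  rw [pair_sq_expand hS hl]
  nlinarith [pair_sq_ge hS hl ψ]

end Vale.Agent.P146.H784

namespace Vale.Agent.P146.H784

open Vale.Agent.P157 Vale.Agent.P157.Lv Vale.Agent.P157.Lv.Sy Vale.Agent.P157.Lv.Fld
open Vale.Agent.P157.Par (Path Exponents incr spinPart)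
open Vale.Agent.P146 (Pair)
open Vale.Agent.P146.Ub Vale.Agent.P146.Ub.Ld Vale.Agent.P146.Ub.Ld.H501
open Vale.Agent.P146.R3.H501.Tr

variable {n K N d : ℕ} {m s R : ℕ → ℝ} {β θ : ℝ}

/-- **The cavity and the tree fields, pairs.** -/
theorem ST_pair_le (hd : d ≤ K) (hN : N < n) (hm : Exponents K m) (hR : Path K R) (hR1 : R K ≤ 1)
    (θ : ℝ) {l : ℕ} (hl : l ≤ K) {ψ : (Fin n → Bool) → (Fin n → Bool) → ℝ}
    (h0 : ∀ x x', 0 ≤ ψ x x') :
    (ST n K d m β N s R θ).pairEx l ψ ≤ Real.exp (2 * β ^ 2) * (SC n K d m β N s).pairEx l ψ := by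
  have hS : (SC n K d m β N s).Reg := rs_reg hd hm _ _
  have hS' : (ST n K d m β N s R θ).Reg := rs_reg hd hm _ _
  have hl1 : l ≤ (SC n K d m β N s).K := hl
  have hl2 : l ≤ (ST n K d m β N s R θ).K := hl
  rw [← dbl_Ex_pair hS' hl2 ψ, ← dbl_Ex_pair hS hl1 ψ]
  have hD := dbl_reg hS hl1
  have hD' := dbl_reg hS' hl2
  obtain ⟨H', hH'⟩ : ∃ H' : (RI n K ⊕ RI n K → ℝ) → (Fin n → Bool) × (Fin n → Bool) → ℝ,
    H' = fun z y => (ST n K d m β N s R θ).H (z1 z) y.1 +
      (ST n K d m β N s R θ).H (z2 (rlv d) l z) y.2 := ⟨_, rfl⟩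
  have e1 : (dbl (SC n K d m β N s) l).wH H' = dbl (ST n K d m β N s R θ) l := by
    rw [hH']
    rfl
  have hdiff : ∀ (z : RI n K → ℝ) x, (ST n K d m β N s R θ).H z x =
      (SC n K d m β N s).H z x + lin (bb β N R θ x) z := by
    intro z x
    show lin (tc β N s R θ x) z + lc n = lin (sc β N s x) z + lc n + lin (bb β N R θ x) z
    unfold lin
    rw [show (∑ e, tc β N s R θ x e * z e) = ∑ e, sc β N s x e * z e + ∑ e, bb β N R θ x e * z e by
      rw [← Finset.sum_add_distrib]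
      refine Finset.sum_congr rfl fun e _ => ?_
      show (sc β N s x e + (Real.sin θ * tre N β R x e +
        Real.cos θ * cav N (β / √((N + 1 : ℕ) : ℝ)) x e)) * z e = _
      unfold bb
      ring]
    ring
  have hbB : ∀ (x : Fin n → Bool) (e : RI n K), ¬ BB N e → bb β N R θ x e = 0 := by
    intro x e he
    unfold bb
    rcases e with p | p | l
    · rw [tre_a, cav_a, if_neg (show ¬ (p.1.2 : ℕ) = N from he)]
      ring
    · rw [tre_b, cav_b]
      ring
    · exact absurd trivial he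
  have hSind : ∀ x, Ind (BB N) fun z => (SC n K d m β N s).H z x := by
    intro x z w hzw
    show lin (sc β N s x) z + lc n = lin (sc β N s x) w + lc n
    congr 1
    unfold lin
    refine Finset.sum_congr rfl fun e _ => ?_
    by_cases he : BB N e
    · have h3 : sc β N s x e = 0 := by
        rcases e with p | p | l
        · show dsk N _ x (Sum.inl p) + fd N s x (Sum.inl p) = 0
          have h4 : (p.1.2 : ℕ) = N := he
          rw [dsk_a, fd_a, if_neg (by omega), add_zero]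
        · exact absurd he id
        · show dsk N _ x (Sum.inr (Sum.inr l)) + fd N s x (Sum.inr (Sum.inr l)) = 0
          rw [dsk_b, fd_c, add_zero]
      rw [h3, zero_mul, zero_mul]
    · rw [hzw e he]
  have key := Ex_le_of_top (S := dbl (SC n K d m β N s) l) (H' := H') hD (by rw [e1]; exact hD')
    (fun z => by
      rw [e1, dbl_top, dbl_top]
      exact add_le_add (top_le hN _) (top_le hN _))
    (φ := fun _ y => ψ y.1 y.2) (Nh.snd fun (y : (Fin n → Bool) × (Fin n → Bool)) => ψ y.1 y.2)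
    (fun _ y => h0 _ _) (B := fun e => Sum.elim (BB N) (BB N) e)
    (b := a2 (rlv d) l (bb β N R θ)) (v := 4 * β ^ 2)
    (fun z y => by
      have h1 : H' z y - (dbl (SC n K d m β N s) l).H z y =
          lin (a2 (rlv d) l (bb β N R θ) y) z := by
        rw [lin_a2, hH']
        show (ST n K d m β N s R θ).H (z1 z) y.1 + (ST n K d m β N s R θ).H (z2 (rlv d) l z) y.2 -
          ((SC n K d m β N s).H (z1 z) y.1 + (SC n K d m β N s).H (z2 (rlv d) l z) y.2) = _
        rw [hdiff, hdiff]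
        ring
      exact h1)
    (fun y e he => by
      unfold a2
      rcases e with e | e
      · simp only [Sum.elim_inl]
        have he' : ¬ BB N e := he
        rw [hbB _ _ he', hbB _ _ he']
        simp
      · simp only [Sum.elim_inr]
        have he' : ¬ BB N e := he
        rw [hbB _ _ he']
        simp)
    (fun y => a2_sq_le (rlv d) l (fun x => sum_bb hN hR hR1 x) y)
    (fun y z w hzw => by
      show (SC n K d m β N s).H (z1 z) y.1 + (SC n K d m β N s).H (z2 (rlv d) l z) y.2 =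
        (SC n K d m β N s).H (z1 w) y.1 + (SC n K d m β N s).H (z2 (rlv d) l w) y.2
      have h1 := hSind y.1 (z1 z) (z1 w) fun e he => hzw (Sum.inl e) he
      have h2 := hSind y.2 (z2 (rlv d) l z) (z2 (rlv d) l w) fun e he => by
        have h3 : z (Sum.inl e) = w (Sum.inl e) := hzw (Sum.inl e) he
        have h4 : z (Sum.inr e) = w (Sum.inr e) := hzw (Sum.inr e) he
        unfold z2 mix
        simp only [h3, h4]
      have h1' : (SC n K d m β N s).H (z1 z) y.1 = (SC n K d m β N s).H (z1 w) y.1 := h1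
      have h2' : (SC n K d m β N s).H (z2 (rlv d) l z) y.2 =
        (SC n K d m β N s).H (z2 (rlv d) l w) y.2 := h2
      rw [h1', h2'])
    (fun y z w hzw => rfl)
  rw [e1] at key
  have e3 : 4 * β ^ 2 / 2 = 2 * β ^ 2 := by ring
  rw [e3] at key
  exact key

end Vale.Agent.P146.H784
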